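import Mathlib

/-!
Structured commands for Mathlib's stack machines `Turing.TM2`: a small imperative language
(`push`, `pop`, `peek`, `load`, sequencing, conditional, loop) with a compiler to labelled
statements and Hoare-style rules `Runs` counting machine steps.
-/

set_option autoImplicit false

namespace Crest.Agent.Lib.PT

open Turing Turing.TM2

/-- Structured commands over stacks `Γ` and internal state `σ`. -/
inductive Cmd {K : Type} (Γ : K → Type) (σ : Type) : Type
  | push : (k : K) → (σ → Γ k) → Cmd Γ σ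
  | pop : (k : K) → (σ → Option (Γ k) → σ) → Cmd Γ σ
  | peek : (k : K) → (σ → Option (Γ k) → σ) → Cmd Γ σ
  | load : (σ → σ) → Cmd Γ σ
  | seq : Cmd Γ σ → Cmd Γ σ → Cmd Γ σ
  | ite : (σ → Bool) → Cmd Γ σ → Cmd Γ σ → Cmd Γ σ
  /-- `loop t g b e`: run `t`; if `g` holds run `b` and start again, otherwise run `e` and stop -/
  | loop : Cmd Γ σ → (σ → Bool) → Cmd Γ σ → Cmd Γ σ → Cmd Γ σ

lemma initList_eq (tm : FinTM2) (l : List (tm.Γ tm.k₀)) :
    initList tm l = ⟨some tm.main, tm.initialState, Function.update (fun _ => []) tm.k₀ l⟩ := by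
  unfold initList
  congr 1
  funext k
  by_cases hk : k = tm.k₀
  · subst hk; simp
  · simp [hk]

lemma haltList_eq (tm : FinTM2) (l : List (tm.Γ tm.k₁)) :
    haltList tm l = ⟨none, tm.initialState, Function.update (fun _ => []) tm.k₁ l⟩ := by
  unfold haltList
  congr 1
  funext k
  by_cases hk : k = tm.k₁
  · subst hk; simp
  · simp [hk]

namespace Cmd

variable {K : Type} {Γ : K → Type} {σ : Type}

/-- The labels of the compiled command. -/
def L : Cmd Γ σ → Type
  | push _ _ => Unit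
  | pop _ _ => Unit
  | peek _ _ => Unit
  | load _ => Unit
  | seq a b => L a ⊕ L b
  | ite _ a b => Unit ⊕ (L a ⊕ L b)
  | loop t _ b e => L t ⊕ (L b ⊕ L e)

/-- There are finitely many labels. -/
@[reducible] def fintypeL : (c : Cmd Γ σ) → Fintype (L c)
  | push _ _ => inferInstanceAs (Fintype Unit)
  | pop _ _ => inferInstanceAs (Fintype Unit)
  | peek _ _ => inferInstanceAs (Fintype Unit)
  | load _ => inferInstanceAs (Fintype Unit)
  | seq a b => @instFintypeSum _ _ (fintypeL a) (fintypeL b)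
  | ite _ a b => @instFintypeSum _ _ inferInstance (@instFintypeSum _ _ (fintypeL a) (fintypeL b))
  | loop t _ b e => @instFintypeSum _ _ (fintypeL t) (@instFintypeSum _ _ (fintypeL b) (fintypeL e))

/-- The entry label. -/
def entry : (c : Cmd Γ σ) → L c
  | push _ _ => ()
  | pop _ _ => ()
  | peek _ _ => ()
  | load _ => ()
  | seq a _ => Sum.inl (entry a)
  | ite _ _ _ => Sum.inl ()
  | loop t _ _ _ => Sum.inl (entry t)

/-- The compiled statements, given the embedding of labels and the continuation `next`. -/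
def code {Λ : Type} : (c : Cmd Γ σ) → (L c → Λ) → Stmt Γ Λ σ → L c → Stmt Γ Λ σ
  | push k f, _, next, _ => Stmt.push k f next
  | pop k f, _, next, _ => Stmt.pop k f next
  | peek k f, _, next, _ => Stmt.peek k f next
  | load f, _, next, _ => Stmt.load f next
  | seq a b, emb, _, Sum.inl l =>
      code a (fun x => emb (Sum.inl x)) (Stmt.goto fun _ => emb (Sum.inr (entry b))) l
  | seq _ b, emb, next, Sum.inr l => code b (fun x => emb (Sum.inr x)) next l
  | ite g a b, emb, _, Sum.inl _ =>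
      Stmt.branch g (Stmt.goto fun _ => emb (Sum.inr (Sum.inl (entry a))))
        (Stmt.goto fun _ => emb (Sum.inr (Sum.inr (entry b))))
  | ite _ a _, emb, next, Sum.inr (Sum.inl l) =>
      code a (fun x => emb (Sum.inr (Sum.inl x))) next l
  | ite _ _ b, emb, next, Sum.inr (Sum.inr l) =>
      code b (fun x => emb (Sum.inr (Sum.inr x))) next l
  | loop t g b e, emb, _, Sum.inl l =>
      code t (fun x => emb (Sum.inl x))
        (Stmt.branch g (Stmt.goto fun _ => emb (Sum.inr (Sum.inl (entry b))))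
          (Stmt.goto fun _ => emb (Sum.inr (Sum.inr (entry e))))) l
  | loop t _ b _, emb, _, Sum.inr (Sum.inl l) =>
      code b (fun x => emb (Sum.inr (Sum.inl x))) (Stmt.goto fun _ => emb (Sum.inl (entry t))) l
  | loop _ _ _ e, emb, next, Sum.inr (Sum.inr l) =>
      code e (fun x => emb (Sum.inr (Sum.inr x))) next l

variable [DecidableEq K]

/-- `Runs c v S v' S' n`: wherever the code of `c` is placed, from its entry label with state `v`
and stacks `S`, after at most `n` steps the machine has executed the continuation on `v'`, `S'`. -/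
def Runs (c : Cmd Γ σ) (v : σ) (S : ∀ k, List (Γ k)) (v' : σ) (S' : ∀ k, List (Γ k)) (n : ℕ) :
    Prop :=
  ∀ (Λ : Type) (M : Λ → Stmt Γ Λ σ) (emb : L c → Λ) (next : Stmt Γ Λ σ),
    (∀ l, M (emb l) = code c emb next l) →
    ∃ m, m ≤ n ∧ (flip bind (step M))^[m] (some ⟨some (emb (entry c)), v, S⟩) =
      some (stepAux next v' S')

variable {v v' v₁ v₂ : σ} {S S' S₁ S₂ : ∀ k, List (Γ k)} {n n₁ n₂ n₃ : ℕ}

lemma Runs.mono {c : Cmd Γ σ} (h : Runs c v S v' S' n₁) (hn : n₁ ≤ n₂) : Runs c v S v' S' n₂ := by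
  intro Λ M emb next hM
  obtain ⟨m, hm, h⟩ := h Λ M emb next hM
  exact ⟨m, hm.trans hn, h⟩

lemma runs_push (k : K) (f : σ → Γ k) (v : σ) (S : ∀ k, List (Γ k)) :
    Runs (push k f) v S v (Function.update S k (f v :: S k)) 1 := by
  intro Λ M emb next hM
  refine ⟨1, le_rfl, ?_⟩
  have := hM ()
  simp only [code] at this
  simp [flip, entry, this]

lemma runs_pop (k : K) (f : σ → Option (Γ k) → σ) (v : σ) (S : ∀ k, List (Γ k)) :
    Runs (pop k f) v S (f v (S k).head?) (Function.update S k (S k).tail) 1 := by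
  intro Λ M emb next hM
  refine ⟨1, le_rfl, ?_⟩
  have := hM ()
  simp only [code] at this
  simp [flip, entry, this]

lemma runs_peek (k : K) (f : σ → Option (Γ k) → σ) (v : σ) (S : ∀ k, List (Γ k)) :
    Runs (peek k f) v S (f v (S k).head?) S 1 := by
  intro Λ M emb next hM
  refine ⟨1, le_rfl, ?_⟩
  have := hM ()
  simp only [code] at this
  simp [flip, entry, this]

lemma runs_load (f : σ → σ) (v : σ) (S : ∀ k, List (Γ k)) :
    Runs (load f : Cmd Γ σ) v S (f v) S 1 := by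
  intro Λ M emb next hM
  refine ⟨1, le_rfl, ?_⟩
  have := hM ()
  simp only [code] at this
  simp [flip, entry, this]

lemma Runs.seq {a b : Cmd Γ σ} (h₁ : Runs a v S v₁ S₁ n₁) (h₂ : Runs b v₁ S₁ v' S' n₂) :
    Runs (seq a b) v S v' S' (n₁ + n₂) := by
  intro Λ M emb next hM
  obtain ⟨m₁, hm₁, e₁⟩ := h₁ Λ M (fun x => emb (Sum.inl x)) _ (fun l => hM (Sum.inl l))
  obtain ⟨m₂, hm₂, e₂⟩ := h₂ Λ M (fun x => emb (Sum.inr x)) _ (fun l => hM (Sum.inr l))
  refine ⟨m₂ + m₁, by omega, ?_⟩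
  rw [Function.iterate_add_apply]
  simp only [entry]
  rw [e₁]
  simpa using e₂

lemma Runs.ite_true {g : σ → Bool} {a b : Cmd Γ σ} (hg : g v = true) (h : Runs a v S v' S' n) :
    Runs (ite g a b) v S v' S' (n + 1) := by
  intro Λ M emb next hM
  obtain ⟨m, hm, e⟩ := h Λ M (fun x => emb (Sum.inr (Sum.inl x))) _
    (fun l => hM (Sum.inr (Sum.inl l)))
  refine ⟨m + 1, by omega, ?_⟩
  rw [Function.iterate_add_apply]
  have := hM (Sum.inl ())
  simp only [code] at this
  simp only [entry, Function.iterate_one, flip, Option.bind_eq_bind, Option.bind_some, step, this,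
    stepAux, hg, cond_true]
  exact e

lemma Runs.ite_false {g : σ → Bool} {a b : Cmd Γ σ} (hg : g v = false) (h : Runs b v S v' S' n) :
    Runs (ite g a b) v S v' S' (n + 1) := by
  intro Λ M emb next hM
  obtain ⟨m, hm, e⟩ := h Λ M (fun x => emb (Sum.inr (Sum.inr x))) _
    (fun l => hM (Sum.inr (Sum.inr l)))
  refine ⟨m + 1, by omega, ?_⟩
  rw [Function.iterate_add_apply]
  have := hM (Sum.inl ())
  simp only [code] at this
  simp only [entry, Function.iterate_one, flip, Option.bind_eq_bind, Option.bind_some, step, this,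
    stepAux, hg, cond_false]
  exact e

lemma Runs.loop_exit {t b e : Cmd Γ σ} {g : σ → Bool} (h₁ : Runs t v S v₁ S₁ n₁)
    (hg : g v₁ = false) (h₂ : Runs e v₁ S₁ v' S' n₂) :
    Runs (loop t g b e) v S v' S' (n₁ + n₂) := by
  intro Λ M emb next hM
  obtain ⟨m₁, hm₁, e₁⟩ := h₁ Λ M (fun x => emb (Sum.inl x)) _ (fun l => hM (Sum.inl l))
  obtain ⟨m₂, hm₂, e₂⟩ := h₂ Λ M (fun x => emb (Sum.inr (Sum.inr x))) _
    (fun l => hM (Sum.inr (Sum.inr l)))
  refine ⟨m₂ + m₁, by omega, ?_⟩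
  rw [Function.iterate_add_apply]
  simp only [entry]
  rw [e₁]
  simpa [hg] using e₂

lemma Runs.loop_step {t b e : Cmd Γ σ} {g : σ → Bool} (h₁ : Runs t v S v₁ S₁ n₁)
    (hg : g v₁ = true) (h₂ : Runs b v₁ S₁ v₂ S₂ n₂) (h₃ : Runs (loop t g b e) v₂ S₂ v' S' n₃) :
    Runs (loop t g b e) v S v' S' (n₁ + n₂ + n₃) := by
  intro Λ M emb next hM
  obtain ⟨m₁, hm₁, e₁⟩ := h₁ Λ M (fun x => emb (Sum.inl x)) _ (fun l => hM (Sum.inl l))
  obtain ⟨m₂, hm₂, e₂⟩ := h₂ Λ M (fun x => emb (Sum.inr (Sum.inl x))) _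
    (fun l => hM (Sum.inr (Sum.inl l)))
  obtain ⟨m₃, hm₃, e₃⟩ := h₃ Λ M emb next hM
  refine ⟨m₃ + (m₂ + m₁), by omega, ?_⟩
  rw [Function.iterate_add_apply, Function.iterate_add_apply]
  simp only [entry] at e₃ ⊢
  rw [e₁]
  simp only [stepAux, hg, cond_true]
  rw [e₂]
  simpa using e₃

/-- The bundled machine of a command: run it and halt. -/
def toFinTM2 [Fintype K] (k₀ k₁ : K) [Fintype σ] [Fintype (Γ k₀)] (v₀ : σ) (c : Cmd Γ σ) :
    FinTM2 :=
  @FinTM2.mk K _ _ k₀ k₁ Γ (L c) (entry c) (fintypeL c) σ v₀ _ _ (code c id Stmt.halt)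

lemma outputs_of_runs [Fintype K] (k₀ k₁ : K) [Fintype σ] [Fintype (Γ k₀)] (v₀ : σ) (c : Cmd Γ σ)
    (l : List (Γ k₀)) (l' : List (Γ k₁))
    (h : Runs c v₀ (Function.update (fun _ => []) k₀ l) v₀ (Function.update (fun _ => []) k₁ l') n) :
    Nonempty (TM2OutputsInTime (toFinTM2 k₀ k₁ v₀ c) l (some l') n) := by
  obtain ⟨m, hm, e⟩ := h (L c) (code c id Stmt.halt) id Stmt.halt (fun _ => rfl)
  refine ⟨⟨⟨m, ?_⟩, hm⟩⟩
  have h0 := initList_eq (toFinTM2 k₀ k₁ v₀ c) l
  have h1 := haltList_eq (toFinTM2 k₀ k₁ v₀ c) l'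
  change (flip bind (toFinTM2 k₀ k₁ v₀ c).step)^[m] (some (initList (toFinTM2 k₀ k₁ v₀ c) l)) =
    some (haltList (toFinTM2 k₀ k₁ v₀ c) l')
  rw [h0, h1]
  exact e

end Cmd

end Crest.Agent.Lib.PT
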