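import Crest.Agent.Lib.PT.Lang
import Crest.Agent.Lib.PT.Cmd
import Crest.Prelude.Def_Complexity
import Crest.Prelude.Def_TimeBound

/-!
Compiler from the tree language `Prog` to Mathlib's bundled stack machines `Turing.FinTM2`,
with linear overhead.
-/

set_option autoImplicit false

namespace Crest.Agent.Lib.PT

open Turing Turing.TM2

/-- Prefix serialisation of a tree. -/
def D.ser : D → List Bool
  | .nil => [false]
  | .cons a b => true :: (a.ser ++ b.ser)

@[simp] lemma D.ser_nil : D.ser .nil = [false] := rfl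
@[simp] lemma D.ser_cons (a b : D) : D.ser (.cons a b) = true :: (a.ser ++ b.ser) := rfl

@[simp] lemma D.length_ser (a : D) : a.ser.length = a.size := by
  induction a with
  | nil => rfl
  | cons a b iha ihb => simp [iha, ihb]

lemma D.ser_append_inj (a : D) : ∀ (b : D) (s t : List Bool), a.ser ++ s = b.ser ++ t →
    a = b ∧ s = t := by
  induction a with
  | nil => intro b s t h; cases b <;> simp_all
  | cons a₁ a₂ ih₁ ih₂ =>
    intro b s t h
    cases b with
    | nil => simp at h
    | cons b₁ b₂ =>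
      simp only [D.ser_cons, List.cons_append, List.append_assoc, List.cons.injEq, true_and] at h
      obtain ⟨rfl, h2⟩ := ih₁ _ _ _ h
      obtain ⟨rfl, h3⟩ := ih₂ _ _ _ h2
      exact ⟨rfl, h3⟩

namespace Comp

/-- The stacks of the compiled machine. -/
inductive Stk : Type
  | inp | out | rout | main | a | b | cnt
  deriving DecidableEq

instance : Fintype Stk :=
  ⟨{.inp, .out, .rout, .main, .a, .b, .cnt}, by intro x; cases x <;> simp⟩

/-- The alphabets of the stacks. -/
@[reducible] def SΓ (Γ₀ Γ₁ : Type) : Stk → Type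
  | .inp => Γ₀
  | .out => Γ₁
  | .rout => Γ₁
  | .main => Bool
  | .a => Bool
  | .b => Bool
  | .cnt => Bool

/-- Scratch state. -/
abbrev St (Γ₀ Γ₁ : Type) : Type := Option Γ₀ × Option Γ₁ × Option Bool

variable {Γ₀ Γ₁ : Type}

/-- Stack contents. -/
def mk (i : List Γ₀) (o r : List Γ₁) (m a b c : List Bool) : ∀ k, List (SΓ Γ₀ Γ₁ k)
  | .inp => i
  | .out => o
  | .rout => r
  | .main => m
  | .a => a
  | .b => b
  | .cnt => c

section mk
variable (i : List Γ₀) (o r : List Γ₁) (m a b c : List Bool)
@[simp] lemma mk_inp : mk i o r m a b c .inp = i := rfl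
@[simp] lemma mk_out : mk i o r m a b c .out = o := rfl
@[simp] lemma mk_rout : mk i o r m a b c .rout = r := rfl
@[simp] lemma mk_main : mk i o r m a b c .main = m := rfl
@[simp] lemma mk_a : mk i o r m a b c .a = a := rfl
@[simp] lemma mk_b : mk i o r m a b c .b = b := rfl
@[simp] lemma mk_cnt : mk i o r m a b c .cnt = c := rfl
@[simp] lemma up_inp (x : List Γ₀) :
    Function.update (mk i o r m a b c) .inp x = mk x o r m a b c := by
  funext k; cases k <;> simp
@[simp] lemma up_out (x : List Γ₁) :
    Function.update (mk i o r m a b c) .out x = mk i x r m a b c := by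
  funext k; cases k <;> simp
@[simp] lemma up_rout (x : List Γ₁) :
    Function.update (mk i o r m a b c) .rout x = mk i o x m a b c := by
  funext k; cases k <;> simp
@[simp] lemma up_main (x : List Bool) :
    Function.update (mk i o r m a b c) .main x = mk i o r x a b c := by
  funext k; cases k <;> simp
@[simp] lemma up_a (x : List Bool) :
    Function.update (mk i o r m a b c) .a x = mk i o r m x b c := by
  funext k; cases k <;> simp
@[simp] lemma up_b (x : List Bool) :
    Function.update (mk i o r m a b c) .b x = mk i o r m a x c := by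
  funext k; cases k <;> simp
@[simp] lemma up_cnt (x : List Bool) :
    Function.update (mk i o r m a b c) .cnt x = mk i o r m a b x := by
  funext k; cases k <;> simp
end mk

/-- Commands of the compiled machine. -/
abbrev C (Γ₀ Γ₁ : Type) : Type := Cmd (SΓ Γ₀ Γ₁) (St Γ₀ Γ₁)

/-- Stack contents of the compiled machine. -/
abbrev Stks (Γ₀ Γ₁ : Type) : Type := ∀ k, List (SΓ Γ₀ Γ₁ k)

def setBit (v : St Γ₀ Γ₁) (x : Option Bool) : St Γ₀ Γ₁ := (v.1, v.2.1, x)
def bitVal (v : St Γ₀ Γ₁) : Bool := v.2.2.getD false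
def bitSome (v : St Γ₀ Γ₁) : Bool := v.2.2.isSome

@[simp] lemma bitVal_setBit (v : St Γ₀ Γ₁) (x : Option Bool) :
    bitVal (setBit v x) = x.getD false := rfl
@[simp] lemma bitSome_setBit (v : St Γ₀ Γ₁) (x : Option Bool) :
    bitSome (setBit v x) = x.isSome := rfl

/-- Correctness triple ignoring the scratch state. -/
def Hoare (c : C Γ₀ Γ₁) (S S' : Stks Γ₀ Γ₁) (n : ℕ) : Prop :=
  ∀ v, ∃ v', Cmd.Runs c v S v' S' n

lemma Hoare.mono {c : C Γ₀ Γ₁} {S S' : Stks Γ₀ Γ₁} {n n' : ℕ} (h : Hoare c S S' n)
    (hn : n ≤ n') : Hoare c S S' n' := fun v => by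
  obtain ⟨v', h⟩ := h v
  exact ⟨v', h.mono hn⟩

lemma Hoare.seq {c d : C Γ₀ Γ₁} {S S₁ S' : Stks Γ₀ Γ₁} {n₁ n₂ : ℕ} (h₁ : Hoare c S S₁ n₁)
    (h₂ : Hoare d S₁ S' n₂) : Hoare (.seq c d) S S' (n₁ + n₂) := fun v => by
  obtain ⟨v₁, h₁⟩ := h₁ v
  obtain ⟨v₂, h₂⟩ := h₂ v₁
  exact ⟨v₂, h₁.seq h₂⟩

def skip : C Γ₀ Γ₁ := .load id

lemma runs_skip (v : St Γ₀ Γ₁) (S : Stks Γ₀ Γ₁) : Cmd.Runs skip v S v S 1 :=
  Cmd.runs_load id v S

lemma hoare_skip (S : Stks Γ₀ Γ₁) : Hoare skip S S 1 := fun v => ⟨v, runs_skip v S⟩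

def pushMain (x : Bool) : C Γ₀ Γ₁ := .push .main (fun _ => x)

lemma hoare_pushMain (x : Bool) (i : List Γ₀) (o r : List Γ₁) (m a b c : List Bool) :
    Hoare (pushMain x) (mk i o r m a b c) (mk i o r (x :: m) a b c) 1 := fun v =>
  ⟨v, by simpa [pushMain] using Cmd.runs_push (Γ := SΓ Γ₀ Γ₁) .main (fun _ => x) v (mk i o r m a b c)⟩

/-- Move everything from stack `a` onto `main`. -/
def restoreA : C Γ₀ Γ₁ := .loop (.pop .a setBit) bitSome (.push .main bitVal) skip

lemma hoare_restoreA (i : List Γ₀) (o r : List Γ₁) (b c : List Bool) (a : List Bool) :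
    ∀ m, Hoare restoreA (mk i o r m a b c) (mk i o r (a.reverse ++ m) [] b c)
      (2 * a.length + 2) := by
  induction a with
  | nil =>
    intro m v
    have h1 := Cmd.runs_pop (Γ := SΓ Γ₀ Γ₁) .a setBit v (mk i o r m [] b c)
    simp only [mk_a, List.head?_nil, List.tail_nil, up_a] at h1
    exact ⟨_, by simpa [restoreA] using Cmd.Runs.loop_exit h1 (by simp) (runs_skip _ _)⟩
  | cons x a ih =>
    intro m v
    have h1 := Cmd.runs_pop (Γ := SΓ Γ₀ Γ₁) .a setBit v (mk i o r m (x :: a) b c)
    simp only [mk_a, List.head?_cons, List.tail_cons, up_a] at h1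
    have h2 := Cmd.runs_push (Γ := SΓ Γ₀ Γ₁) .main bitVal (setBit v (some x)) (mk i o r m a b c)
    simp only [bitVal_setBit, Option.getD_some, mk_main, up_main] at h2
    obtain ⟨v', h3⟩ := ih (x :: m) (setBit v (some x))
    refine ⟨v', ?_⟩
    have := Cmd.Runs.loop_step h1 (by simp) h2 h3
    simp only [List.reverse_cons, List.append_assoc, List.singleton_append, List.length_cons]
    exact this.mono (by omega)

/-- Move everything from stack `b` onto `main`. -/
def restoreB : C Γ₀ Γ₁ := .loop (.pop .b setBit) bitSome (.push .main bitVal) skip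

lemma hoare_restoreB (i : List Γ₀) (o r : List Γ₁) (a c : List Bool) (b : List Bool) :
    ∀ m, Hoare restoreB (mk i o r m a b c) (mk i o r (b.reverse ++ m) a [] c)
      (2 * b.length + 2) := by
  induction b with
  | nil =>
    intro m v
    have h1 := Cmd.runs_pop (Γ := SΓ Γ₀ Γ₁) .b setBit v (mk i o r m a [] c)
    simp only [mk_b, List.head?_nil, List.tail_nil, up_b] at h1
    exact ⟨_, by simpa [restoreB] using Cmd.Runs.loop_exit h1 (by simp) (runs_skip _ _)⟩
  | cons x b ih =>
    intro m v
    have h1 := Cmd.runs_pop (Γ := SΓ Γ₀ Γ₁) .b setBit v (mk i o r m a (x :: b) c)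
    simp only [mk_b, List.head?_cons, List.tail_cons, up_b] at h1
    have h2 := Cmd.runs_push (Γ := SΓ Γ₀ Γ₁) .main bitVal (setBit v (some x)) (mk i o r m a b c)
    simp only [bitVal_setBit, Option.getD_some, mk_main, up_main] at h2
    obtain ⟨v', h3⟩ := ih (x :: m) (setBit v (some x))
    refine ⟨v', ?_⟩
    have := Cmd.Runs.loop_step h1 (by simp) h2 h3
    simp only [List.reverse_cons, List.append_assoc, List.singleton_append, List.length_cons]
    exact this.mono (by omega)

/-- Optionally copy the current bit to `a` and to `b`. -/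
def act (ta tb : Bool) : C Γ₀ Γ₁ :=
  .seq (if ta then .push .a bitVal else skip) (if tb then .push .b bitVal else skip)

/-- Optional accumulation. -/
def acc (t : Bool) (s a : List Bool) : List Bool := if t then s.reverse ++ a else a

lemma acc_append (t : Bool) (s s' a : List Bool) : acc t (s ++ s') a = acc t s' (acc t s a) := by
  cases t <;> simp [acc]

lemma runs_act (ta tb : Bool) (v : St Γ₀ Γ₁) (i : List Γ₀) (o r : List Γ₁) (m a b c : List Bool) :
    Cmd.Runs (act ta tb) v (mk i o r m a b c) v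
      (mk i o r m (acc ta [bitVal v] a) (acc tb [bitVal v] b) c) 2 := by
  have h1 : Cmd.Runs (if ta then .push .a bitVal else skip : C Γ₀ Γ₁) v (mk i o r m a b c) v
      (mk i o r m (acc ta [bitVal v] a) b c) 1 := by
    cases ta
    · simpa [acc] using runs_skip v (mk i o r m a b c)
    · simpa [acc] using Cmd.runs_push (Γ := SΓ Γ₀ Γ₁) .a bitVal v (mk i o r m a b c)
  have h2 : Cmd.Runs (if tb then .push .b bitVal else skip : C Γ₀ Γ₁) v
      (mk i o r m (acc ta [bitVal v] a) b c) v
      (mk i o r m (acc ta [bitVal v] a) (acc tb [bitVal v] b) c) 1 := by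
    cases tb
    · simpa [acc] using runs_skip v (mk i o r m (acc ta [bitVal v] a) b c)
    · simpa [acc] using Cmd.runs_push (Γ := SΓ Γ₀ Γ₁) .b bitVal v
        (mk i o r m (acc ta [bitVal v] a) b c)
  exact h1.seq h2

/-- Pop one serialised tree from `main`, optionally copying it (reversed) to `a` and `b`. -/
def popVal (ta tb : Bool) : C Γ₀ Γ₁ :=
  .loop (.seq (.pop .main setBit) (.seq (act ta tb)
    (.ite bitVal (.push .cnt (fun _ => true)) (.pop .cnt setBit)))) bitSome skip skip

lemma popVal_aux (ta tb : Bool) (i : List Γ₀) (o r : List Γ₁) (x : D) :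
    ∀ (c rest a b : List Bool) (S' : Stks Γ₀ Γ₁) (n : ℕ),
      (c = [] → S' = mk i o r rest (acc ta x.ser a) (acc tb x.ser b) []) →
      (∀ u c', c = u :: c' →
        Hoare (popVal ta tb) (mk i o r rest (acc ta x.ser a) (acc tb x.ser b) c') S' n) →
      Hoare (popVal ta tb) (mk i o r (x.ser ++ rest) a b c) S' (n + 6 * x.size) := by
  induction x with
  | nil =>
    intro c rest a b S' n h0 h1 v
    have e1 := Cmd.runs_pop (Γ := SΓ Γ₀ Γ₁) .main setBit v (mk i o r (false :: rest) a b c)
    simp only [mk_main, List.head?_cons, List.tail_cons, up_main] at e1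
    have e2 := runs_act ta tb (setBit v (some false)) i o r rest a b c
    simp only [bitVal_setBit, Option.getD_some] at e2
    have e3 := Cmd.runs_pop (Γ := SΓ Γ₀ Γ₁) .cnt setBit (setBit v (some false))
      (mk i o r rest (acc ta [false] a) (acc tb [false] b) c)
    simp only [mk_cnt, up_cnt] at e3
    have e4 := e1.seq (e2.seq (Cmd.Runs.ite_false (g := bitVal)
      (a := (.push .cnt (fun _ => true) : C Γ₀ Γ₁)) (by simp) e3))
    cases c with
    | nil =>
      rw [h0 rfl]
      exact ⟨_, (Cmd.Runs.loop_exit e4 (by simp) (runs_skip _ _)).mono (by simp)⟩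
    | cons u c' =>
      obtain ⟨v', e5⟩ := h1 u c' rfl (setBit (setBit v (some false)) (some u))
      exact ⟨v', (Cmd.Runs.loop_step e4 (by simp) (runs_skip _ _) e5).mono (by simp; omega)⟩
  | cons x y ihx ihy =>
    intro c rest a b S' n h0 h1 v
    have e1 := Cmd.runs_pop (Γ := SΓ Γ₀ Γ₁) .main setBit v
      (mk i o r (true :: (x.ser ++ (y.ser ++ rest))) a b c)
    simp only [mk_main, List.head?_cons, List.tail_cons, up_main] at e1
    have e2 := runs_act ta tb (setBit v (some true)) i o r (x.ser ++ (y.ser ++ rest)) a b c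
    simp only [bitVal_setBit, Option.getD_some] at e2
    have e3 := Cmd.runs_push (Γ := SΓ Γ₀ Γ₁) .cnt (fun _ => true) (setBit v (some true))
      (mk i o r (x.ser ++ (y.ser ++ rest)) (acc ta [true] a) (acc tb [true] b) c)
    simp only [mk_cnt, up_cnt] at e3
    have e4 := e1.seq (e2.seq (Cmd.Runs.ite_true (g := bitVal)
      (b := (.pop .cnt setBit : C Γ₀ Γ₁)) (by simp) e3))
    have hacc : ∀ (t : Bool) (z : List Bool), acc t (D.cons x y).ser z =
        acc t y.ser (acc t x.ser (acc t [true] z)) := by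
      intro t z
      rw [← acc_append, ← acc_append]; simp
    have hy := ihy c rest (acc ta x.ser (acc ta [true] a)) (acc tb x.ser (acc tb [true] b)) S' n
      (by simpa only [hacc] using h0) (by simpa only [hacc] using h1)
    have hx := ihx (true :: c) (y.ser ++ rest) (acc ta [true] a) (acc tb [true] b) S'
      (n + 6 * y.size) (by simp) (by
        intro u c' huc
        obtain ⟨-, rfl⟩ := List.cons.inj huc
        exact hy)
    obtain ⟨v', e5⟩ := hx (setBit v (some true))
    refine ⟨v', ?_⟩
    simp only [D.ser_cons, List.cons_append, List.append_assoc]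
    exact (Cmd.Runs.loop_step e4 (by simp) (runs_skip _ _) e5).mono (by simp; omega)

lemma hoare_popVal (ta tb : Bool) (i : List Γ₀) (o r : List Γ₁) (x : D) (rest a b : List Bool) :
    Hoare (popVal ta tb) (mk i o r (x.ser ++ rest) a b [])
      (mk i o r rest (acc ta x.ser a) (acc tb x.ser b) []) (6 * x.size) := by
  simpa using popVal_aux ta tb i o r x [] rest a b _ 0 (fun _ => rfl) (by simp)

/-- Drop the top value. -/
def drop : C Γ₀ Γ₁ := popVal false false

lemma hoare_drop (i : List Γ₀) (o r : List Γ₁) (x : D) (rest a b : List Bool) :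
    Hoare drop (mk i o r (x.ser ++ rest) a b []) (mk i o r rest a b []) (6 * x.size) := by
  simpa [acc, drop] using hoare_popVal false false i o r x rest a b

/-- Duplicate the top value. -/
def dup : C Γ₀ Γ₁ := .seq (popVal true true) (.seq restoreA restoreB)

lemma hoare_dup (i : List Γ₀) (o r : List Γ₁) (x : D) (rest : List Bool) :
    Hoare dup (mk i o r (x.ser ++ rest) [] [] []) (mk i o r (x.ser ++ (x.ser ++ rest)) [] [] [])
      (14 * x.size) := by
  have h1 := hoare_popVal true true i o r x rest [] []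
  simp only [acc, if_true, List.append_nil] at h1
  have h2 := hoare_restoreA i o r x.ser.reverse [] x.ser.reverse rest
  have h3 := hoare_restoreB i o r [] [] x.ser.reverse (x.ser ++ rest)
  simp only [List.reverse_reverse, List.length_reverse, D.length_ser] at h2 h3
  have := x.size_pos
  exact (h1.seq (h2.seq h3)).mono (by omega)

/-- Swap the two top values. -/
def swap : C Γ₀ Γ₁ := .seq (popVal true false) (.seq (popVal false true) (.seq restoreA restoreB))

lemma hoare_swap (i : List Γ₀) (o r : List Γ₁) (x y : D) (rest : List Bool) :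
    Hoare swap (mk i o r (y.ser ++ (x.ser ++ rest)) [] [] [])
      (mk i o r (x.ser ++ (y.ser ++ rest)) [] [] []) (10 * x.size + 10 * y.size) := by
  have h0 := hoare_popVal true false i o r y (x.ser ++ rest) [] []
  have h1 := hoare_popVal false true i o r x rest y.ser.reverse []
  simp only [acc, if_true, List.append_nil, Bool.false_eq_true, if_false] at h0 h1
  have h2 := hoare_restoreA i o r x.ser.reverse [] y.ser.reverse rest
  have h3 := hoare_restoreB i o r [] [] x.ser.reverse (y.ser ++ rest)
  simp only [List.reverse_reverse, List.length_reverse, D.length_ser] at h2 h3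
  have := x.size_pos
  have := y.size_pos
  exact (h0.seq (h1.seq (h2.seq h3))).mono (by omega)

/-- The command of a program: it replaces the top value of `main` by its image. -/
def tr : Prog → C Γ₀ Γ₁
  | .nil => .seq drop (pushMain false)
  | .id => skip
  | .car => .seq (.pop .main setBit)
      (.ite bitVal (.seq (popVal true false) (.seq drop restoreA)) (pushMain false))
  | .cdr => .seq (.pop .main setBit) (.ite bitVal drop (pushMain false))
  | .cons p q => .seq dup (.seq (tr q) (.seq swap (.seq (tr p) (pushMain true))))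
  | .comp p q => .seq (tr q) (tr p)
  | .ite c p q => .seq (.seq dup (.seq (tr c) (.peek .main setBit)))
      (.ite bitVal (.seq drop (tr q)) (.seq drop (tr p)))
  | .loop c b => .loop (.seq dup (.seq (tr c) (.peek .main setBit))) bitVal
      (.seq drop (tr b)) drop

/-- The overhead constant of a program. -/
def kost : Prog → ℕ
  | .nil => 7
  | .id => 1
  | .car => 20
  | .cdr => 20
  | .cons p q => kost p + kost q + 40
  | .comp p q => kost p + kost q
  | .ite c p q => kost c + kost p + kost q + 30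
  | .loop c b => kost c + kost b + 30

lemma test_runs {c : Prog} {x y : D} {n : ℕ} (i : List Γ₀) (o r : List Γ₁) (rest : List Bool)
    (h : Hoare (tr c) (mk i o r (x.ser ++ (x.ser ++ rest)) [] [] [])
      (mk i o r (y.ser ++ (x.ser ++ rest)) [] [] []) n) (v : St Γ₀ Γ₁) :
    ∃ v', bitVal v' = decide (y ≠ .nil) ∧
      Cmd.Runs (.seq dup (.seq (tr c) (.peek .main setBit))) v (mk i o r (x.ser ++ rest) [] [] [])
        v' (mk i o r (y.ser ++ (x.ser ++ rest)) [] [] []) (14 * x.size + n + 1) := by
  obtain ⟨v₁, e₁⟩ := hoare_dup i o r x rest v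
  obtain ⟨v₂, e₂⟩ := h v₁
  have e₃ := Cmd.runs_peek (Γ := SΓ Γ₀ Γ₁) .main setBit v₂
    (mk i o r (y.ser ++ (x.ser ++ rest)) [] [] [])
  refine ⟨_, ?_, (e₁.seq (e₂.seq e₃)).mono (by omega)⟩
  cases y <;> simp

theorem tr_correct {p : Prog} {x y : D} {n : ℕ} (h : Eval p x y n) (i : List Γ₀) (o r : List Γ₁) :
    ∀ rest : List Bool, Hoare (tr p) (mk i o r (x.ser ++ rest) [] [] [])
      (mk i o r (y.ser ++ rest) [] [] []) (kost p * n) := by
  induction h with
  | nil x =>
    intro rest
    have := x.size_pos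
    exact ((hoare_drop i o r x rest [] []).seq (hoare_pushMain false i o r rest [] [] [])).mono
      (by simp [kost]; omega)
  | id x =>
    intro rest
    have := x.size_pos
    exact (hoare_skip _).mono (by simp [kost]; omega)
  | car x =>
    intro rest v
    cases x with
    | nil =>
      have e1 := Cmd.runs_pop (Γ := SΓ Γ₀ Γ₁) .main setBit v (mk i o r (false :: rest) [] [] [])
      simp only [mk_main, List.head?_cons, List.tail_cons, up_main] at e1
      obtain ⟨v', e2⟩ := hoare_pushMain false i o r rest [] [] [] (setBit v (some false))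
      exact ⟨v', (e1.seq (Cmd.Runs.ite_false (by simp) e2)).mono (by simp [kost])⟩
    | cons a b =>
      have e1 := Cmd.runs_pop (Γ := SΓ Γ₀ Γ₁) .main setBit v
        (mk i o r (true :: (a.ser ++ (b.ser ++ rest))) [] [] [])
      simp only [mk_main, List.head?_cons, List.tail_cons, up_main] at e1
      have h0 := hoare_popVal true false i o r a (b.ser ++ rest) [] []
      simp only [acc, if_true, List.append_nil, Bool.false_eq_true, if_false] at h0
      have h1 := hoare_drop i o r b rest a.ser.reverse []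
      have h2 := hoare_restoreA i o r [] [] a.ser.reverse rest
      simp only [List.reverse_reverse, List.length_reverse, D.length_ser] at h2
      obtain ⟨v', e2⟩ := (h0.seq (h1.seq h2)) (setBit v (some true))
      refine ⟨v', ?_⟩
      simp only [D.ser_cons, List.cons_append, List.append_assoc, D.car_cons]
      exact (e1.seq (Cmd.Runs.ite_true (by simp) e2)).mono (by simp [kost]; omega)
  | cdr x =>
    intro rest v
    cases x with
    | nil =>
      have e1 := Cmd.runs_pop (Γ := SΓ Γ₀ Γ₁) .main setBit v (mk i o r (false :: rest) [] [] [])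
      simp only [mk_main, List.head?_cons, List.tail_cons, up_main] at e1
      obtain ⟨v', e2⟩ := hoare_pushMain false i o r rest [] [] [] (setBit v (some false))
      exact ⟨v', (e1.seq (Cmd.Runs.ite_false (by simp) e2)).mono (by simp [kost])⟩
    | cons a b =>
      have e1 := Cmd.runs_pop (Γ := SΓ Γ₀ Γ₁) .main setBit v
        (mk i o r (true :: (a.ser ++ (b.ser ++ rest))) [] [] [])
      simp only [mk_main, List.head?_cons, List.tail_cons, up_main] at e1
      obtain ⟨v', e2⟩ := hoare_drop i o r a (b.ser ++ rest) [] [] (setBit v (some true))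
      refine ⟨v', ?_⟩
      simp only [D.ser_cons, List.cons_append, List.append_assoc, D.cdr_cons]
      exact (e1.seq (Cmd.Runs.ite_true (by simp) e2)).mono (by simp [kost]; omega)
  | @cons p q x a b m n hp hq ihp ihq =>
    intro rest
    have h1 := hoare_dup i o r x rest
    have h2 := ihq (x.ser ++ rest)
    have h3 := hoare_swap i o r x b rest
    have h4 := ihp (b.ser ++ rest)
    have h5 := hoare_pushMain true i o r (a.ser ++ (b.ser ++ rest)) [] [] []
    have := hp.size_in_le
    have := hq.size_out_le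
    simp only [D.ser_cons, List.cons_append, List.append_assoc]
    refine (h1.seq (h2.seq (h3.seq (h4.seq h5)))).mono ?_
    simp only [kost]
    nlinarith [Nat.zero_le (kost p * n), Nat.zero_le (kost q * m)]
  | @comp p q x y z m n hq hp ihq ihp =>
    intro rest
    refine ((ihq rest).seq (ihp rest)).mono ?_
    simp only [kost]
    nlinarith [Nat.zero_le (kost p * m), Nat.zero_le (kost q * n)]
  | @iteNil c p q x y m n hc hp ihc ihp =>
    intro rest v
    obtain ⟨v₁, hv, e₁⟩ := test_runs i o r rest (ihc (x.ser ++ rest)) v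
    obtain ⟨v₂, e₂⟩ := ((hoare_drop i o r .nil (x.ser ++ rest) [] []).seq (ihp rest)) v₁
    refine ⟨v₂, (e₁.seq (Cmd.Runs.ite_false (by simpa using hv) e₂)).mono ?_⟩
    have := hc.size_in_le
    have := hc.pos
    simp only [kost, D.size_nil]
    nlinarith [Nat.zero_le (kost p * m), Nat.zero_le (kost q * n), Nat.zero_le (kost c * n),
      Nat.zero_le (kost q * m)]
  | @iteCons c p q x a b y m n hc hq ihc ihq =>
    intro rest v
    obtain ⟨v₁, hv, e₁⟩ := test_runs i o r rest (ihc (x.ser ++ rest)) v
    obtain ⟨v₂, e₂⟩ := ((hoare_drop i o r (.cons a b) (x.ser ++ rest) [] []).seq (ihq rest)) v₁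
    refine ⟨v₂, (e₁.seq (Cmd.Runs.ite_true (by simpa using hv) e₂)).mono ?_⟩
    have := hc.size_in_le
    have := hc.size_out_le
    have := hc.pos
    simp only [kost]
    nlinarith [Nat.zero_le (kost p * m), Nat.zero_le (kost p * n), Nat.zero_le (kost c * n),
      Nat.zero_le (kost q * m)]
  | @loopNil c b x m hc ihc =>
    intro rest v
    obtain ⟨v₁, hv, e₁⟩ := test_runs i o r rest (ihc (x.ser ++ rest)) v
    obtain ⟨v₂, e₂⟩ := (hoare_drop i o r .nil (x.ser ++ rest) [] []) v₁
    refine ⟨v₂, (Cmd.Runs.loop_exit e₁ (by simpa using hv) e₂).mono ?_⟩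
    have := hc.size_in_le
    have := hc.pos
    simp only [kost, D.size_nil]
    nlinarith [Nat.zero_le (kost b * m)]
  | @loopCons c b x u w y z m n k hc hb _ ihc ihb ihl =>
    intro rest v
    obtain ⟨v₁, hv, e₁⟩ := test_runs i o r rest (ihc (x.ser ++ rest)) v
    obtain ⟨v₂, e₂⟩ := ((hoare_drop i o r (.cons u w) (x.ser ++ rest) [] []).seq (ihb rest)) v₁
    obtain ⟨v₃, e₃⟩ := ihl rest v₂
    refine ⟨v₃, (Cmd.Runs.loop_step e₁ (by simpa using hv) e₂ e₃).mono ?_⟩
    have := hc.size_in_le
    have := hc.size_out_le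
    have := hc.pos
    simp only [kost]
    nlinarith [Nat.zero_le (kost b * m), Nat.zero_le (kost c * n)]

/-! ### Input conversion -/

/-- Push a list of bits on `a`, first bit first. -/
def pushListA : List Bool → C Γ₀ Γ₁
  | [] => skip
  | x :: s => .seq (.push .a (fun _ => x)) (pushListA s)

lemma runs_pushListA (i : List Γ₀) (o r : List Γ₁) (m b c : List Bool) (v : St Γ₀ Γ₁)
    (s : List Bool) : ∀ a, Cmd.Runs (pushListA s) v (mk i o r m a b c) v
      (mk i o r m (s.reverse ++ a) b c) (s.length + 1) := by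
  induction s with
  | nil => intro a; simpa [pushListA] using runs_skip v (mk i o r m a b c)
  | cons x s ih =>
    intro a
    have h1 := Cmd.runs_push (Γ := SΓ Γ₀ Γ₁) .a (fun _ => x) v (mk i o r m a b c)
    simp only [mk_a, up_a] at h1
    have := h1.seq (ih (x :: a))
    simp only [List.reverse_cons, List.append_assoc, List.singleton_append, List.length_cons]
    exact this.mono (by omega)

open Classical in
/-- Push the code of the current input symbol on `a`. -/
noncomputable def encCmd (e₀ : Γ₀ → D) : List Γ₀ → C Γ₀ Γ₁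
  | [] => skip
  | s :: L => .ite (fun v => decide (v.1 = some s)) (pushListA (true :: (e₀ s).ser)) (encCmd e₀ L)

lemma runs_encCmd (e₀ : Γ₀ → D) (i : List Γ₀) (o r : List Γ₁) (m a b c : List Bool)
    (v : St Γ₀ Γ₁) (s : Γ₀) (hv : v.1 = some s) (L : List Γ₀) (hs : s ∈ L) :
    Cmd.Runs (encCmd e₀ L) v (mk i o r m a b c) v
      (mk i o r m ((true :: (e₀ s).ser).reverse ++ a) b c) (L.length + (e₀ s).size + 2) := by
  classical
  induction L with
  | nil => simp at hs
  | cons t L ih =>
    by_cases hts : s = t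
    · subst hts
      refine (Cmd.Runs.ite_true (by simpa using hv)
        (runs_pushListA i o r m b c v (true :: (e₀ s).ser) a)).mono ?_
      simp only [List.length_cons, D.length_ser]; omega
    · have hs' : s ∈ L := by simpa [hts] using hs
      refine (Cmd.Runs.ite_false (by simp [hv, hts]) (ih hs')).mono ?_
      simp only [List.length_cons]; omega

def setIn (v : St Γ₀ Γ₁) (x : Option Γ₀) : St Γ₀ Γ₁ := (x, v.2)

/-- Read the whole input onto `a` (reversed serialisation). -/
noncomputable def readIn (e₀ : Γ₀ → D) (L : List Γ₀) : C Γ₀ Γ₁ :=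
  .loop (.pop .inp setIn) (fun v => v.1.isSome) (encCmd e₀ L) (.push .a (fun _ => false))

lemma hoare_readIn (e₀ : Γ₀ → D) (L : List Γ₀) (hL : ∀ s, s ∈ L) (o r : List Γ₁)
    (m b c : List Bool) (l : List Γ₀) : ∀ a,
    Hoare (readIn e₀ L) (mk l o r m a b c)
      (mk [] o r m ((D.ofList (l.map e₀)).ser.reverse ++ a) b c)
      ((L.length + 3) * (D.ofList (l.map e₀)).size) := by
  induction l with
  | nil =>
    intro a v
    have h1 := Cmd.runs_pop (Γ := SΓ Γ₀ Γ₁) .inp setIn v (mk [] o r m a b c)
    simp only [mk_inp, List.head?_nil, List.tail_nil, up_inp] at h1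
    have h2 := Cmd.runs_push (Γ := SΓ Γ₀ Γ₁) .a (fun _ => false) (setIn v none) (mk [] o r m a b c)
    simp only [mk_a, up_a] at h2
    exact ⟨_, (Cmd.Runs.loop_exit h1 (by simp [setIn]) h2).mono (by simp)⟩
  | cons s l ih =>
    intro a v
    have h1 := Cmd.runs_pop (Γ := SΓ Γ₀ Γ₁) .inp setIn v (mk (s :: l) o r m a b c)
    simp only [mk_inp, List.head?_cons, List.tail_cons, up_inp] at h1
    have h2 := runs_encCmd e₀ l o r m a b c (setIn v (some s)) s rfl L (hL s)
    obtain ⟨v', h3⟩ := ih ((true :: (e₀ s).ser).reverse ++ a) (setIn v (some s))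
    refine ⟨v', ?_⟩
    have := Cmd.Runs.loop_step h1 (by simp [setIn]) h2 h3
    simp only [List.map_cons, D.ofList_cons, D.ser_cons, List.reverse_cons, List.reverse_append,
      List.append_assoc, D.size_cons] at this ⊢
    refine this.mono ?_
    have := (e₀ s).size_pos
    nlinarith [Nat.zero_le (L.length * (e₀ s).size)]

/-! ### Output conversion -/

open Classical in
/-- Decode one output symbol from `main` and push it on `rout`. -/
noncomputable def decCmd (e₁ : Γ₁ → D) : ℕ → List Bool → C Γ₀ Γ₁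
  | 0, w => if h : ∃ s, (e₁ s).ser = w then .push .rout (fun _ => h.choose) else skip
  | f + 1, w => if h : ∃ s, (e₁ s).ser = w then .push .rout (fun _ => h.choose) else
      .seq (.pop .main setBit)
        (.ite bitVal (decCmd e₁ f (w ++ [true])) (decCmd e₁ f (w ++ [false])))

lemma hoare_decCmd (e₁ : Γ₁ → D) (he : Function.Injective e₁) (i : List Γ₀) (o r : List Γ₁)
    (rest a b c : List Bool) (s : Γ₁) (t : List Bool) : ∀ (f : ℕ) (w : List Bool),
    t.length ≤ f → w ++ t = (e₁ s).ser →
    Hoare (decCmd e₁ f w) (mk i o r (t ++ rest) a b c) (mk i o (s :: r) rest a b c)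
      (2 * t.length + 1) := by
  classical
  induction t with
  | nil =>
    intro f w _ hw v
    have h : ∃ s, (e₁ s).ser = w := ⟨s, by simpa using hw.symm⟩
    have hs : h.choose = s := by
      apply he
      have h1 := h.choose_spec
      have h2 : (e₁ h.choose).ser ++ [] = (e₁ s).ser ++ [] := by
        rw [h1, ← hw]; simp
      exact (D.ser_append_inj _ _ _ _ h2).1
    have h1 := Cmd.runs_push (Γ := SΓ Γ₀ Γ₁) .rout (fun _ => s) v (mk i o r rest a b c)
    simp only [mk_rout, up_rout] at h1
    refine ⟨v, ?_⟩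
    cases f <;> simp only [decCmd, dif_pos h, hs] <;> simpa using h1
  | cons x t ih =>
    intro f w hf hw v
    have h : ¬ ∃ s, (e₁ s).ser = w := by
      rintro ⟨s', hs'⟩
      have h2 : (e₁ s').ser ++ (x :: t) = (e₁ s).ser ++ [] := by
        rw [hs', hw]; simp
      have := (D.ser_append_inj _ _ _ _ h2).2
      simp at this
    cases f with
    | zero => simp at hf
    | succ f =>
      simp only [decCmd, dif_neg h]
      have h1 := Cmd.runs_pop (Γ := SΓ Γ₀ Γ₁) .main setBit v (mk i o r (x :: (t ++ rest)) a b c)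
      simp only [mk_main, List.head?_cons, List.tail_cons, up_main] at h1
      obtain ⟨v', h2⟩ := ih f (w ++ [x]) (by simpa using hf) (by simpa using hw)
        (setBit v (some x))
      refine ⟨v', ?_⟩
      simp only [List.cons_append, List.length_cons]
      cases x
      · exact (h1.seq (Cmd.Runs.ite_false (by simp) h2)).mono (by omega)
      · exact (h1.seq (Cmd.Runs.ite_true (by simp) h2)).mono (by omega)

/-- Decode the whole list from `main` onto `rout` (reversed). -/
noncomputable def writeOut (e₁ : Γ₁ → D) (f : ℕ) : C Γ₀ Γ₁ :=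
  .loop (.pop .main setBit) bitVal (decCmd e₁ f []) skip

lemma hoare_writeOut (e₁ : Γ₁ → D) (he : Function.Injective e₁) (f : ℕ)
    (hf : ∀ s, (e₁ s).size ≤ f) (i : List Γ₀) (o : List Γ₁) (rest a b c : List Bool)
    (l : List Γ₁) : ∀ r,
    Hoare (writeOut e₁ f) (mk i o r ((D.ofList (l.map e₁)).ser ++ rest) a b c)
      (mk i o (l.reverse ++ r) rest a b c) (2 * (D.ofList (l.map e₁)).size) := by
  induction l with
  | nil =>
    intro r v
    have h1 := Cmd.runs_pop (Γ := SΓ Γ₀ Γ₁) .main setBit v (mk i o r (false :: rest) a b c)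
    simp only [mk_main, List.head?_cons, List.tail_cons, up_main] at h1
    exact ⟨_, (Cmd.Runs.loop_exit h1 (by simp) (runs_skip _ _)).mono (by simp)⟩
  | cons s l ih =>
    intro r v
    have h1 := Cmd.runs_pop (Γ := SΓ Γ₀ Γ₁) .main setBit v
      (mk i o r (true :: ((e₁ s).ser ++ ((D.ofList (l.map e₁)).ser ++ rest))) a b c)
    simp only [mk_main, List.head?_cons, List.tail_cons, up_main] at h1
    obtain ⟨v₁, h2⟩ := hoare_decCmd e₁ he i o r ((D.ofList (l.map e₁)).ser ++ rest) a b c s
      (e₁ s).ser f [] (by simpa using hf s) (by simp) (setBit v (some true))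
    obtain ⟨v', h3⟩ := ih (s :: r) v₁
    refine ⟨v', ?_⟩
    have := Cmd.Runs.loop_step h1 (by simp) h2 h3
    simp only [List.map_cons, D.ofList_cons, D.ser_cons, List.reverse_cons, List.cons_append,
      List.append_assoc, D.size_cons, D.length_ser, List.nil_append] at this ⊢
    exact this.mono (by omega)

def setOut (v : St Γ₀ Γ₁) (x : Option Γ₁) : St Γ₀ Γ₁ := (v.1, x, v.2.2)

/-- The initial (and final) state. -/
def st₀ : St Γ₀ Γ₁ := (none, none, none)

/-- Move `rout` to `out` and reset the state. -/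
def finish [Inhabited Γ₁] : C Γ₀ Γ₁ :=
  .loop (.pop .rout setOut) (fun v => v.2.1.isSome) (.push .out (fun v => v.2.1.getD default))
    (.load (fun _ => st₀))

lemma runs_finish [Inhabited Γ₁] (i : List Γ₀) (m a b c : List Bool) (r : List Γ₁) :
    ∀ (o : List Γ₁) (v : St Γ₀ Γ₁), Cmd.Runs finish v (mk i o r m a b c) st₀
      (mk i (r.reverse ++ o) [] m a b c) (2 * r.length + 2) := by
  induction r with
  | nil =>
    intro o v
    have h1 := Cmd.runs_pop (Γ := SΓ Γ₀ Γ₁) .rout setOut v (mk i o [] m a b c)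
    simp only [mk_rout, List.head?_nil, List.tail_nil, up_rout] at h1
    exact (Cmd.Runs.loop_exit h1 (by simp [setOut]) (Cmd.runs_load _ _ _)).mono (by simp)
  | cons s r ih =>
    intro o v
    have h1 := Cmd.runs_pop (Γ := SΓ Γ₀ Γ₁) .rout setOut v (mk i o (s :: r) m a b c)
    simp only [mk_rout, List.head?_cons, List.tail_cons, up_rout] at h1
    have h2 := Cmd.runs_push (Γ := SΓ Γ₀ Γ₁) .out (fun v : St Γ₀ Γ₁ => v.2.1.getD default)
      (setOut v (some s)) (mk i o r m a b c)
    simp only [mk_out, up_out, setOut, Option.getD_some] at h2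
    have h3 := ih (s :: o) (setOut v (some s))
    have := Cmd.Runs.loop_step h1 (by simp [setOut]) h2 h3
    simp only [List.reverse_cons, List.append_assoc, List.singleton_append, List.length_cons]
    exact this.mono (by omega)

/-- The whole machine. -/
noncomputable def whole [Inhabited Γ₁] (e₀ : Γ₀ → D) (L : List Γ₀) (e₁ : Γ₁ → D) (f : ℕ)
    (p : Prog) : C Γ₀ Γ₁ :=
  .seq (readIn e₀ L) (.seq restoreA (.seq (tr p) (.seq (writeOut e₁ f) finish)))

lemma runs_whole [Inhabited Γ₁] (e₀ : Γ₀ → D) (L : List Γ₀) (hL : ∀ s, s ∈ L) (e₁ : Γ₁ → D)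
    (he : Function.Injective e₁) (f : ℕ) (hf : ∀ s, (e₁ s).size ≤ f) (p : Prog)
    (l : List Γ₀) (l' : List Γ₁) (n : ℕ)
    (h : Eval p (D.ofList (l.map e₀)) (D.ofList (l'.map e₁)) n) :
    Cmd.Runs (whole e₀ L e₁ f p) st₀ (mk l [] [] [] [] [] []) st₀ (mk [] l' [] [] [] [] [])
      ((L.length + kost p + 13) * n) := by
  have h1 := hoare_readIn (Γ₁ := Γ₁) e₀ L hL [] [] [] [] [] l []
  have h2 := hoare_restoreA (Γ₀ := Γ₀) (Γ₁ := Γ₁) [] [] [] [] []
    (D.ofList (l.map e₀)).ser.reverse []
  have h3 := tr_correct (Γ₀ := Γ₀) (Γ₁ := Γ₁) h [] [] [] []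
  have h4 := hoare_writeOut (Γ₀ := Γ₀) e₁ he f hf [] [] [] [] [] [] l' []
  simp only [List.append_nil, List.reverse_reverse, List.length_reverse, D.length_ser]
    at h1 h2 h3 h4
  obtain ⟨v₁, e1⟩ := h1 st₀
  obtain ⟨v₂, e2⟩ := h2 v₁
  obtain ⟨v₃, e3⟩ := h3 v₂
  obtain ⟨v₄, e4⟩ := h4 v₃
  have e5 := runs_finish (Γ₀ := Γ₀) [] [] [] [] [] l'.reverse [] v₄
  simp only [List.append_nil, List.reverse_reverse, List.length_reverse] at e5
  refine (e1.seq (e2.seq (e3.seq (e4.seq e5)))).mono ?_
  have a1 := h.size_in_le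
  have a2 := h.size_out_le
  have a3 := h.pos
  have a4 := D.length_lt_size_ofList (l'.map e₁)
  simp only [List.length_map] at a4
  nlinarith [Nat.mul_le_mul_left (L.length + 3) a1]

end Comp

/-- **Compiler theorem.** A program of the tree language is executed by a bundled stack machine
with linear overhead; the input is the list `l` over `Γ₀`, presented to the program as the tree
`ofList (l.map e₀)`, and the output is read back in the same way through `e₁`. -/
theorem compile {Γ₀ Γ₁ : Type} [Fintype Γ₀] [Fintype Γ₁] [Inhabited Γ₁] (e₀ : Γ₀ → D)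
    (e₁ : Γ₁ → D) (he : Function.Injective e₁) (p : Prog) :
    ∃ (M : TM2ComputableAux Γ₀ Γ₁) (K : ℕ), ∀ (l : List Γ₀) (l' : List Γ₁) (n : ℕ),
      EvalLe p (D.ofList (l.map e₀)) (D.ofList (l'.map e₁)) n →
      Nonempty (TM2OutputsInTime M.tm (l.map M.inputAlphabet.invFun)
        (some (l'.map M.outputAlphabet.invFun)) (K * n)) := by
  classical
  let L : List Γ₀ := Finset.univ.toList
  let f : ℕ := Finset.univ.sup fun s => (e₁ s).size
  have hL : ∀ s, s ∈ L := fun s => by simp [L]
  have hf : ∀ s, (e₁ s).size ≤ f := fun s =>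
    Finset.le_sup (f := fun s => (e₁ s).size) (Finset.mem_univ s)
  let c := Comp.whole e₀ L e₁ f p
  let _ : Fintype (Comp.SΓ Γ₀ Γ₁ .inp) := ‹Fintype Γ₀›
  refine ⟨⟨Cmd.toFinTM2 Comp.Stk.inp Comp.Stk.out Comp.st₀ c, Equiv.refl _, Equiv.refl _⟩,
    L.length + Comp.kost p + 13, ?_⟩
  rintro l l' n ⟨m, hm, h⟩
  have h1 := (Comp.runs_whole e₀ L hL e₁ he f hf p l l' m h).mono
    (Nat.mul_le_mul_left (L.length + Comp.kost p + 13) hm)
  have e1 : Comp.mk (Γ₁ := Γ₁) l [] [] [] [] [] [] =
      Function.update (β := fun k => List (Comp.SΓ Γ₀ Γ₁ k)) (fun _ => []) Comp.Stk.inp l := by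
    funext k; cases k <;> simp
  have e2 : Comp.mk (Γ₀ := Γ₀) [] l' [] [] [] [] [] =
      Function.update (β := fun k => List (Comp.SΓ Γ₀ Γ₁ k)) (fun _ => []) Comp.Stk.out l' := by
    funext k; cases k <;> simp
  rw [e1, e2] at h1
  have h2 := Cmd.outputs_of_runs Comp.Stk.inp Comp.Stk.out Comp.st₀ c l l' h1
  have key : ∀ (a : List Γ₀) (b : List Γ₁), a = l → b = l' →
      Nonempty (TM2OutputsInTime (Cmd.toFinTM2 Comp.Stk.inp Comp.Stk.out Comp.st₀ c) a (some b)
        ((L.length + Comp.kost p + 13) * n)) := by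
    rintro _ _ rfl rfl
    exact h2
  exact key _ _ (List.map_id l) (List.map_id l')

/-- Explicit time bounds: if the program meets the cost bound `T` (in terms of the length of the
presented input), the machine meets `K * T`. -/
theorem timeBoundComputable_of_evalLe {α β Γ₀ Γ₁ : Type} [Fintype Γ₀] [Fintype Γ₁] [Inhabited Γ₁]
    (e₀ : Γ₀ → D) (e₁ : Γ₁ → D) (he : Function.Injective e₁) (ea : α → List Γ₀)
    (eb : β → List Γ₁) (f : α → β) (p : Prog) (T : ℕ → ℕ)
    (h : ∀ a, EvalLe p (D.ofList ((ea a).map e₀)) (D.ofList ((eb (f a)).map e₁))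
      (T (ea a).length)) :
    ∃ K : ℕ, Crest.DTime.TimeBoundComputable ea eb f (fun n => K * T n) := by
  obtain ⟨M, K, hM⟩ := compile e₀ e₁ he p
  exact ⟨K, ⟨M, fun n => K * T n, fun a => (hM _ _ _ (h a)).some⟩, fun _ => le_rfl⟩

/-- Polynomial time. -/
theorem polyTimeComputable_of_evalLe {α β Γ₀ Γ₁ : Type} [Fintype Γ₀] [Fintype Γ₁] [Inhabited Γ₁]
    (e₀ : Γ₀ → D) (e₁ : Γ₁ → D) (he : Function.Injective e₁) (ea : α → List Γ₀)
    (eb : β → List Γ₁) (f : α → β) (p : Prog) (P : Polynomial ℕ)
    (h : ∀ a, EvalLe p (D.ofList ((ea a).map e₀)) (D.ofList ((eb (f a)).map e₁))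
      (P.eval (ea a).length)) :
    Crest.Complexity.PolyTimeComputable ea eb f := by
  obtain ⟨M, K, hM⟩ := compile e₀ e₁ he p
  refine ⟨⟨M, Polynomial.C K * P, fun a => ?_⟩⟩
  rw [Polynomial.eval_mul, Polynomial.eval_C]
  exact (hM _ _ _ (h a)).some

end Crest.Agent.Lib.PT
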