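import Crest.Agent.Lib.PT.Nat

/-!
Polynomial-time toolkit: integers and rational numbers.
-/

set_option autoImplicit false
set_option linter.dupNamespace false

namespace Crest.Agent.Lib.PT

variable {α β γ δ σ : Type} [Enc α] [Enc β] [Enc γ] [Enc δ] [Enc σ]

/-- Left fold with additive growth of an arbitrary measure `μ` controlling the size. -/
protected lemma PT.foldl_meas {f : α → γ → β → γ} {l : α → List β} {ini : α → γ}
    (μ : γ → ℕ) (K : ℕ) (G : α × β → ℕ) (hK : ∀ x, sz x ≤ K * μ x + K)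
    (hf : PT (fun p : α × γ × β => f p.1 p.2.1 p.2.2)) (hl : PT l) (hi : PT ini)
    (hμ : PB (fun a => μ (ini a))) (hG : PB G)
    (h : ∀ a acc, ∀ x ∈ l a, μ (f a acc x) ≤ μ acc + G (a, x)) :
    PT (fun a => (l a).foldl (f a) (ini a)) := by
  obtain ⟨c, k, hG⟩ := hG.exists_bound
  refine PT.foldl (fun a => K * (μ (ini a) + (l a).length * (c * (sz a + sz (l a) + 1) ^ k)) + K)
    hf hl hi (((PB.const K).mul (hμ.add (by fun_prop))).add (PB.const K)) fun a i => ?_
  have : ∀ (m : List β) (acc : γ), (∀ x ∈ m, x ∈ l a) →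
      μ (m.foldl (f a) acc) ≤ μ acc + m.length * (c * (sz a + sz (l a) + 1) ^ k) := by
    intro m
    induction m with
    | nil => intro acc _; simp
    | cons x m ih =>
      intro acc hm
      have h1 := ih (f a acc x) (fun y hy => hm y (by simp [hy]))
      have hx := hm x (by simp)
      have h2 := h a acc x hx
      have h3 := hG (a, x) (sz a + sz (l a) + 1) (by have := sz_le_of_mem hx; simp; omega)
      simp only [List.foldl_cons, List.length_cons]
      nlinarith
  refine (hK _).trans (Nat.add_le_add_right (Nat.mul_le_mul_left _ ?_) _)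
  refine (this _ _ (fun x hx => List.mem_of_mem_take hx)).trans ?_
  have : ((l a).take i).length ≤ (l a).length := by simp
  have := Nat.mul_le_mul_right (c * (sz a + sz (l a) + 1) ^ k) this
  omega

/-- Right fold with additive growth of an arbitrary measure `μ` controlling the size. -/
protected lemma PT.foldr_meas {f : α → β → γ → γ} {l : α → List β} {ini : α → γ}
    (μ : γ → ℕ) (K : ℕ) (G : α × β → ℕ) (hK : ∀ x, sz x ≤ K * μ x + K)
    (hf : PT (fun p : α × β × γ => f p.1 p.2.1 p.2.2)) (hl : PT l) (hi : PT ini)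
    (hμ : PB (fun a => μ (ini a))) (hG : PB G)
    (h : ∀ a acc, ∀ x ∈ l a, μ (f a x acc) ≤ μ acc + G (a, x)) :
    PT (fun a => (l a).foldr (f a) (ini a)) := by
  have := PT.foldl_meas (f := fun a acc x => f a x acc) (l := fun a => (l a).reverse) (ini := ini)
    μ K G hK (hf.comp (f := fun p : α × γ × β => (p.1, p.2.2, p.2.1)) (by fun_prop)) hl.reverse hi
    hμ hG (fun a acc x hx => h a acc x (List.mem_reverse.1 hx))
  exact this.congr fun a => by rw [List.foldl_reverse]

/-- Iteration with additive growth of an arbitrary measure `μ` controlling the size. -/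
protected lemma PT.iterate_meas {f : α → β → β} {n : α → ℕ} {ini : α → β}
    (μ : β → ℕ) (K : ℕ) (G : α → ℕ) (hK : ∀ x, sz x ≤ K * μ x + K)
    (hf : PT (fun p : α × β => f p.1 p.2)) (hn : PT n) (hb : PB n) (hi : PT ini)
    (hμ : PB (fun a => μ (ini a))) (hG : PB G)
    (h : ∀ a x, μ (f a x) ≤ μ x + G a) : PT (fun a => (f a)^[n a] (ini a)) := by
  refine PT.iterate (fun a => K * (μ (ini a) + n a * G a) + K) hf hn hb hi
    (((PB.const K).mul (hμ.add (hb.mul hG))).add (PB.const K)) fun a i hi => ?_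
  have : ∀ i, μ ((f a)^[i] (ini a)) ≤ μ (ini a) + i * G a := by
    intro i
    induction i with
    | zero => simp
    | succ i ih =>
      rw [Function.iterate_succ_apply']
      have := h a ((f a)^[i] (ini a))
      nlinarith
  refine (hK _).trans (Nat.add_le_add_right (Nat.mul_le_mul_left _ ?_) _)
  have h1 := this i
  have := Nat.mul_le_mul_right (G a) hi
  omega

/-! ### integers -/

@[fun_prop] protected lemma PT.natAbs {z : α → ℤ} (hz : PT z) : PT (fun a => (z a).natAbs) :=
  (hz.of_enc (f := fun a => (decide (z a < 0), (z a).natAbs)) fun _ => rfl).snd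

lemma pt_isNeg {z : α → ℤ} (hz : PT z) : PT (fun a => decide (z a < 0)) :=
  (hz.of_enc (f := fun a => (decide (z a < 0), (z a).natAbs)) fun _ => rfl).fst

@[fun_prop] protected lemma PT.intNatCast {n : α → ℕ} (hn : PT n) : PT (fun a => (n a : ℤ)) :=
  ((PT.const false).pair hn).of_enc fun a => by
    show enc (decide ((n a : ℤ) < 0), (n a : ℤ).natAbs) = _
    have : ¬ ((n a : ℤ) < 0) := by omega
    rw [decide_eq_false this, Int.natAbs_natCast]

@[fun_prop] protected lemma PT.intOfNat {n : α → ℕ} (hn : PT n) :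
    PT (fun a => Int.ofNat (n a)) := hn.intNatCast

@[fun_prop] protected lemma PT.intNeg {z : α → ℤ} (hz : PT z) : PT (fun a => -z a) := by
  have h0 := pt_isNeg hz
  have h : PT (fun a => (!decide (z a < 0) && decide ((z a).natAbs ≠ 0), (z a).natAbs)) :=
    PT.pair (h0.not.and (by fun_prop)) hz.natAbs
  refine h.of_enc fun a => ?_
  show enc (decide (-z a < 0), (-z a).natAbs) = _
  congr 2
  · rw [Bool.eq_iff_iff]; simp; omega
  · simp

@[fun_prop] protected lemma PT.toNat' {z : α → ℤ} (hz : PT z) : PT (fun a => (z a).toNat) :=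
  (PT.ite (pt_isNeg hz) (PT.const 0) hz.natAbs).congr fun a => by split_ifs <;> omega

lemma pt_subNatNat {m n : α → ℕ} (hm : PT m) (hn : PT n) :
    PT (fun a => (m a : ℤ) - (n a : ℤ)) := by
  have h : PT (fun a => if n a ≤ m a then ((m a - n a : ℕ) : ℤ) else -((n a - m a : ℕ) : ℤ)) := by
    fun_prop
  exact h.congr fun a => by split_ifs <;> omega

@[fun_prop] protected lemma PT.intAdd {x y : α → ℤ} (hx : PT x) (hy : PT y) :
    PT (fun a => x a + y a) :=
  (pt_subNatNat (m := fun a => (x a).toNat + (y a).toNat)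
    (n := fun a => (-x a).toNat + (-y a).toNat) (by fun_prop) (by fun_prop)).congr
    fun a => by omega

@[fun_prop] protected lemma PT.intSub {x y : α → ℤ} (hx : PT x) (hy : PT y) :
    PT (fun a => x a - y a) := (hx.intAdd hy.intNeg).congr fun a => by omega

@[fun_prop] protected lemma PT.int_decide_lt {x y : α → ℤ} [∀ a, Decidable (x a < y a)]
    (hx : PT x) (hy : PT y) : PT (fun a => decide (x a < y a)) :=
  (pt_isNeg (hx.intSub hy)).congr fun a => by simp

@[fun_prop] protected lemma PT.int_decide_le {x y : α → ℤ} [∀ a, Decidable (x a ≤ y a)]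
    (hx : PT x) (hy : PT y) : PT (fun a => decide (x a ≤ y a)) :=
  (hy.int_decide_lt hx).not.congr fun a => by by_cases h : x a ≤ y a <;> simp [h]; omega

@[fun_prop] protected lemma PT.int_decide_gt {x y : α → ℤ} [∀ a, Decidable (x a > y a)]
    (hx : PT x) (hy : PT y) : PT (fun a => decide (x a > y a)) := hy.int_decide_lt hx

@[fun_prop] protected lemma PT.int_decide_ge {x y : α → ℤ} [∀ a, Decidable (x a ≥ y a)]
    (hx : PT x) (hy : PT y) : PT (fun a => decide (x a ≥ y a)) := hy.int_decide_le hx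

@[fun_prop] protected lemma PT.intMax {x y : α → ℤ} (hx : PT x) (hy : PT y) :
    PT (fun a => max (x a) (y a)) :=
  (PT.ite (hx.int_decide_le hy) hy hx).congr fun a => by rw [max_def]

@[fun_prop] protected lemma PT.intMin {x y : α → ℤ} (hx : PT x) (hy : PT y) :
    PT (fun a => min (x a) (y a)) :=
  (PT.ite (hx.int_decide_le hy) hx hy).congr fun a => by rw [min_def]

@[fun_prop] protected lemma PT.intAbs {x : α → ℤ} (hx : PT x) : PT (fun a => |x a|) :=
  hx.natAbs.intNatCast.congr fun a => by simp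

@[fun_prop] protected lemma PT.intSign {x : α → ℤ} (hx : PT x) : PT (fun a => (x a).sign) := by
  have h : PT (fun a => if x a < 0 then (-1 : ℤ) else if x a = 0 then 0 else 1) := by fun_prop
  refine h.congr fun a => ?_
  split_ifs with h1 h2
  · exact Int.sign_eq_neg_one_of_neg h1
  · simp [h2]
  · exact Int.sign_eq_one_of_pos (by omega)

@[fun_prop] protected lemma PT.intMul {x y : α → ℤ} (hx : PT x) (hy : PT y) :
    PT (fun a => x a * y a) := by
  have h : PT (fun a => if (x a < 0 ↔ y a < 0) then (((x a).natAbs * (y a).natAbs : ℕ) : ℤ)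
      else -(((x a).natAbs * (y a).natAbs : ℕ) : ℤ)) := by fun_prop
  refine h.congr fun a => ?_
  push_cast
  by_cases h1 : x a < 0 <;> by_cases h2 : y a < 0 <;> simp only [h1, h2, iff_self, iff_true,
    iff_false, true_iff, false_iff, not_true, if_true, if_false, not_false_eq_true]
  · rw [abs_of_neg h1, abs_of_neg h2]; ring
  · rw [abs_of_neg h1, abs_of_nonneg (not_lt.1 h2)]; ring
  · rw [abs_of_nonneg (not_lt.1 h1), abs_of_neg h2]; ring
  · rw [abs_of_nonneg (not_lt.1 h1), abs_of_nonneg (not_lt.1 h2)]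

@[fun_prop] protected lemma PT.intMod {x y : α → ℤ} (hx : PT x) (hy : PT y) :
    PT (fun a => x a % y a) := by
  have h : PT (fun a => if y a = 0 then x a else if 0 ≤ x a then
      (((x a).natAbs % (y a).natAbs : ℕ) : ℤ) else
      ((((y a).natAbs - (x a).natAbs % (y a).natAbs) % (y a).natAbs : ℕ) : ℤ)) := by fun_prop
  refine h.congr fun a => ?_
  split_ifs with h1 h2
  · simp [h1]
  · rw [← Int.emod_abs]; push_cast; rw [abs_of_nonneg h2]
  · have h3 : (x a).natAbs % (y a).natAbs ≤ (y a).natAbs :=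
      (Nat.mod_lt _ (Int.natAbs_pos.2 h1)).le
    rw [← Int.emod_abs]
    push_cast [Nat.cast_sub h3]
    rw [abs_of_neg (not_le.1 h2), Int.sub_emod, Int.emod_emod_of_dvd _ (dvd_refl _),
      ← Int.sub_emod, sub_neg_eq_add, Int.add_emod_left]

@[fun_prop] protected lemma PT.intDiv {x y : α → ℤ} (hx : PT x) (hy : PT y) :
    PT (fun a => x a / y a) := by
  have h : PT (fun a => (x a - x a % y a).sign * (y a).sign *
      (((x a - x a % y a).natAbs / (y a).natAbs : ℕ) : ℤ)) := by fun_prop
  refine h.congr fun a => ?_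
  by_cases h1 : y a = 0
  · simp [h1]
  have h2 : x a - x a % y a = y a * (x a / y a) := by
    have := Int.mul_ediv_add_emod (x a) (y a); omega
  rw [h2, Int.natAbs_mul, Nat.mul_div_cancel_left _ (Int.natAbs_pos.2 h1), Int.sign_mul]
  have h3 : (y a).sign * (y a).sign = 1 := by
    rcases lt_or_gt_of_ne h1 with h | h
    · rw [Int.sign_eq_neg_one_of_neg h]; rfl
    · rw [Int.sign_eq_one_of_pos h]; rfl
  calc x a / y a = (y a).sign * (y a).sign * ((x a / y a).sign * ((x a / y a).natAbs : ℤ)) := by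
        rw [h3, Int.sign_mul_natAbs, one_mul]
    _ = _ := by ring

@[fun_prop] protected lemma PT.intGcd {x y : α → ℤ} (hx : PT x) (hy : PT y) :
    PT (fun a => Int.gcd (x a) (y a)) := hx.natAbs.gcd hy.natAbs

@[fun_prop] protected lemma PT.int_decide_dvd {x y : α → ℤ} [∀ a, Decidable (x a ∣ y a)]
    (hx : PT x) (hy : PT y) : PT (fun a => decide (x a ∣ y a)) :=
  (hx.natAbs.decide_dvd hy.natAbs).congr fun a => by simp [Int.natAbs_dvd_natAbs]

lemma sz_int_neg (x : ℤ) : sz (-x) = sz x := by rw [sz_int, sz_int, Int.natAbs_neg]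

lemma sz_int_natCast (n : ℕ) : sz (n : ℤ) = sz n + 6 := by rw [sz_int, Int.natAbs_natCast]

lemma sz_int_mono {x y : ℤ} (h : x.natAbs ≤ y.natAbs) : sz x ≤ sz y := by
  have := sz_nat_mono h
  rw [sz_int, sz_int]; omega

lemma sz_int_le_of_abs_le {x : ℤ} {n : ℕ} (h : |x| ≤ n) : sz x ≤ sz n + 6 := by
  rw [← sz_int_natCast]
  exact sz_int_mono (by rw [Int.natAbs_natCast]; zify; exact h)

lemma sz_int_add_le (x y : ℤ) : sz (x + y) ≤ sz x + sz y := by
  have h1 := sz_nat_mono (Int.natAbs_add_le x y)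
  have h2 := sz_add_le x.natAbs y.natAbs
  rw [sz_int, sz_int, sz_int]; omega

lemma sz_int_sub_le (x y : ℤ) : sz (x - y) ≤ sz x + sz y := by
  rw [sub_eq_add_neg, ← sz_int_neg y]; exact sz_int_add_le _ _

lemma sz_int_mul_le (x y : ℤ) : sz (x * y) ≤ sz x + sz y := by
  have h2 := sz_mul_le x.natAbs y.natAbs
  rw [sz_int, sz_int, sz_int, Int.natAbs_mul]; omega

@[fun_prop] protected lemma PT.intPow {x : α → ℤ} {n : α → ℕ} (hx : PT x) (hn : PT n)
    (hb : PB n) : PT (fun a => x a ^ n a) := by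
  have := PT.iterate_add (f := fun a y => y * x a) (n := n) (ini := fun _ => 1)
    (fun a => sz (x a)) (by fun_prop) hn hb (by fun_prop) (by fun_prop)
    (fun a y => sz_int_mul_le _ _)
  refine this.congr fun a => ?_
  induction n a with
  | zero => simp
  | succ k ih => rw [Function.iterate_succ_apply', ← ih, pow_succ]

@[fun_prop] protected lemma PT.intSum {l : α → List ℤ} (hl : PT l) : PT (fun a => (l a).sum) :=
  PT.foldr_add (f := fun (_ : α) (x acc : ℤ) => x + acc) (l := l) (ini := fun _ => 0)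
    (fun p => sz p.2) (by fun_prop) hl (by fun_prop) (by fun_prop)
    (fun a acc x _ => by have := sz_int_add_le x acc; simp only; omega)

@[fun_prop] protected lemma PT.intProd {l : α → List ℤ} (hl : PT l) : PT (fun a => (l a).prod) :=
  PT.foldr_add (f := fun (_ : α) (x acc : ℤ) => x * acc) (l := l) (ini := fun _ => 1)
    (fun p => sz p.2) (by fun_prop) hl (by fun_prop) (by fun_prop)
    (fun a acc x _ => by have := sz_int_mul_le x acc; simp only; omega)

@[fun_prop] protected lemma PT.int_sum_range {n : α → ℕ} {g : α → ℕ → ℤ} (hn : PT n) (hb : PB n)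
    (hg : PT (fun p : α × ℕ => g p.1 p.2)) : PT (fun a => ∑ i ∈ Finset.range (n a), g a i) :=
  ((hn.range hb).map hg).intSum.congr fun _ => sum_range_eq_list _ _

@[fun_prop] protected lemma PT.int_prod_range {n : α → ℕ} {g : α → ℕ → ℤ} (hn : PT n) (hb : PB n)
    (hg : PT (fun p : α × ℕ => g p.1 p.2)) : PT (fun a => ∏ i ∈ Finset.range (n a), g a i) :=
  ((hn.range hb).map hg).intProd.congr fun _ => prod_range_eq_list _ _

/-! ### rationals -/

@[fun_prop] protected lemma PT.num {q : α → ℚ} (hq : PT q) : PT (fun a => (q a).num) :=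
  (hq.of_enc (f := fun a => ((q a).num, (q a).den)) fun _ => rfl).fst

@[fun_prop] protected lemma PT.den {q : α → ℚ} (hq : PT q) : PT (fun a => (q a).den) :=
  (hq.of_enc (f := fun a => ((q a).num, (q a).den)) fun _ => rfl).snd

@[fun_prop] protected lemma PT.mkRat {x : α → ℤ} {d : α → ℕ} (hx : PT x) (hd : PT d) :
    PT (fun a => mkRat (x a) (d a)) := by
  have h : PT (fun a => ((if d a = 0 then 0 else x a / (Nat.gcd (d a) (x a).natAbs : ℕ) : ℤ),
      (if d a = 0 then 1 else d a / Nat.gcd (d a) (x a).natAbs : ℕ))) := by fun_prop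
  refine h.of_enc fun a => ?_
  show enc ((mkRat (x a) (d a)).num, (mkRat (x a) (d a)).den) = _
  rw [Rat.num_mkRat, Rat.den_mkRat]

@[fun_prop] protected lemma PT.ratAdd {p q : α → ℚ} (hp : PT p) (hq : PT q) :
    PT (fun a => p a + q a) := by
  have h : PT (fun a => mkRat ((p a).num * (q a).den + (q a).num * (p a).den)
      ((p a).den * (q a).den)) := by fun_prop
  exact h.congr fun a => Rat.add_def' _ _

@[fun_prop] protected lemma PT.ratMul {p q : α → ℚ} (hp : PT p) (hq : PT q) :
    PT (fun a => p a * q a) := by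
  have h : PT (fun a => mkRat ((p a).num * (q a).num) ((p a).den * (q a).den)) := by fun_prop
  exact h.congr fun a => Rat.mul_def' _ _

@[fun_prop] protected lemma PT.ratNeg {p : α → ℚ} (hp : PT p) : PT (fun a => -p a) :=
  ((PT.const (-1)).ratMul hp).congr fun a => by simp

@[fun_prop] protected lemma PT.ratSub {p q : α → ℚ} (hp : PT p) (hq : PT q) :
    PT (fun a => p a - q a) := (hp.ratAdd hq.ratNeg).congr fun a => by ring

@[fun_prop] protected lemma PT.ratIntCast {x : α → ℤ} (hx : PT x) : PT (fun a => (x a : ℚ)) :=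
  (hx.mkRat (PT.const 1)).congr fun a => by simp [Rat.mkRat_eq_div]

@[fun_prop] protected lemma PT.ratNatCast {n : α → ℕ} (hn : PT n) : PT (fun a => (n a : ℚ)) :=
  hn.intNatCast.ratIntCast.congr fun a => by simp

@[fun_prop] protected lemma PT.ratInv {q : α → ℚ} (hq : PT q) : PT (fun a => (q a)⁻¹) := by
  have h : PT (fun a => mkRat (((q a).den : ℤ) * (q a).num)
      ((q a).num.natAbs * (q a).num.natAbs)) := by fun_prop
  refine h.congr fun a => ?_
  rw [Rat.mkRat_eq_div]
  by_cases hq : q a = 0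
  · simp [hq]
  have hn : ((q a).num : ℚ) ≠ 0 := by exact_mod_cast Rat.num_ne_zero.2 hq
  have hd : ((q a).den : ℚ) ≠ 0 := by exact_mod_cast (q a).den_nz
  have h2 : (((q a).num.natAbs * (q a).num.natAbs : ℕ) : ℚ) = ((q a).num : ℚ) * ((q a).num : ℚ) := by
    have := congrArg (Int.cast : ℤ → ℚ) (Int.natAbs_mul_self (a := (q a).num))
    rw [Int.cast_natCast, Int.cast_mul] at this
    exact this
  rw [h2]
  conv_lhs => rw [← Rat.num_div_den (q a)]
  push_cast
  field_simp

@[fun_prop] protected lemma PT.ratDiv {p q : α → ℚ} (hp : PT p) (hq : PT q) :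
    PT (fun a => p a / q a) := (hp.ratMul hq.ratInv).congr fun a => div_eq_mul_inv _ _

@[fun_prop] protected lemma PT.rat_decide_lt {p q : α → ℚ} [∀ a, Decidable (p a < q a)]
    (hp : PT p) (hq : PT q) : PT (fun a => decide (p a < q a)) :=
  (pt_isNeg (hp.ratSub hq).num).congr fun a => by simp [Rat.num_neg]

@[fun_prop] protected lemma PT.rat_decide_le {p q : α → ℚ} [∀ a, Decidable (p a ≤ q a)]
    (hp : PT p) (hq : PT q) : PT (fun a => decide (p a ≤ q a)) :=
  (hq.rat_decide_lt hp).not.congr fun a => by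
    by_cases h : p a ≤ q a <;> simp [h]
    exact not_le.1 h

@[fun_prop] protected lemma PT.rat_decide_gt {p q : α → ℚ} [∀ a, Decidable (p a > q a)]
    (hp : PT p) (hq : PT q) : PT (fun a => decide (p a > q a)) := hq.rat_decide_lt hp

@[fun_prop] protected lemma PT.rat_decide_ge {p q : α → ℚ} [∀ a, Decidable (p a ≥ q a)]
    (hp : PT p) (hq : PT q) : PT (fun a => decide (p a ≥ q a)) := hq.rat_decide_le hp

@[fun_prop] protected lemma PT.ratMax {p q : α → ℚ} (hp : PT p) (hq : PT q) :
    PT (fun a => max (p a) (q a)) :=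
  (PT.ite (hp.rat_decide_le hq) hq hp).congr fun a => by rw [max_def]

@[fun_prop] protected lemma PT.ratMin {p q : α → ℚ} (hp : PT p) (hq : PT q) :
    PT (fun a => min (p a) (q a)) :=
  (PT.ite (hp.rat_decide_le hq) hp hq).congr fun a => by rw [min_def]

@[fun_prop] protected lemma PT.ratAbs {p : α → ℚ} (hp : PT p) : PT (fun a => |p a|) :=
  (hp.ratMax hp.ratNeg).congr fun a => abs_eq_max_neg

@[fun_prop] protected lemma PT.ratFloor {p : α → ℚ} (hp : PT p) : PT (fun a => ⌊p a⌋) :=
  (hp.num.intDiv hp.den.intNatCast).congr fun a => Rat.floor_def' 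

@[fun_prop] protected lemma PT.ratCeil {p : α → ℚ} (hp : PT p) : PT (fun a => ⌈p a⌉) :=
  hp.ratNeg.ratFloor.intNeg.congr fun a => by rw [Int.floor_neg, neg_neg]

@[fun_prop] protected lemma PT.ratNatFloor {p : α → ℚ} (hp : PT p) : PT (fun a => ⌊p a⌋₊) :=
  hp.ratFloor.toNat'.congr fun a => (Int.floor_toNat _).symm

@[fun_prop] protected lemma PT.ratNatCeil {p : α → ℚ} (hp : PT p) : PT (fun a => ⌈p a⌉₊) :=
  hp.ratCeil.toNat'.congr fun a => (Int.ceil_toNat _).symm

/-- Height of a rational number: bit length of numerator or denominator, whichever is larger. -/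
def ht (q : ℚ) : ℕ := max (Nat.size q.num.natAbs) (Nat.size q.den)

lemma sz_le_ht (q : ℚ) : sz q ≤ 12 * ht q + 12 := by
  rw [sz_rat, sz_int, sz_nat, sz_nat, ht]; omega

lemma ht_le_sz (q : ℚ) : ht q ≤ sz q := by
  rw [sz_rat, sz_int, sz_nat, sz_nat, ht]; omega

@[fun_prop] protected lemma PB.ht {q : α → ℚ} (hq : PT q) : PB (fun a => ht (q a)) :=
  (PB.sz hq).of_le fun _ => ht_le_sz _

lemma ht_mkRat_le (x : ℤ) (d : ℕ) : ht (mkRat x d) ≤ max (max (Nat.size x.natAbs) (Nat.size d)) 1 := by
  rw [ht, Rat.num_mkRat, Rat.den_mkRat]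
  split_ifs with h
  · simp
  · have h1 : (x / (Nat.gcd d x.natAbs : ℕ)).natAbs ≤ x.natAbs := Int.natAbs_ediv_le_natAbs _ _
    have h2 := Nat.size_le_size h1
    have h3 := Nat.size_le_size (Nat.div_le_self d (Nat.gcd d x.natAbs))
    omega

lemma one_le_ht (q : ℚ) : 1 ≤ ht q := by
  have := Nat.size_pos.2 q.den_pos
  rw [ht]; omega

lemma ht_neg (q : ℚ) : ht (-q) = ht q := by simp [ht]

lemma ht_mul_le (p q : ℚ) : ht (p * q) ≤ ht p + ht q := by
  rw [Rat.mul_def']
  refine (ht_mkRat_le _ _).trans ?_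
  have h1 := size_mul_le p.num.natAbs q.num.natAbs
  have h2 := size_mul_le p.den q.den
  have := one_le_ht p
  rw [Int.natAbs_mul]
  unfold ht at *
  omega

lemma size_add_le_max (m n : ℕ) : Nat.size (m + n) ≤ max (Nat.size m) (Nat.size n) + 1 := by
  rw [Nat.size_le]
  have h1 := Nat.lt_size_self m
  have h2 := Nat.lt_size_self n
  have h3 : 2 ^ Nat.size m ≤ 2 ^ max (Nat.size m) (Nat.size n) :=
    Nat.pow_le_pow_right (by norm_num) (by omega)
  have h4 : 2 ^ Nat.size n ≤ 2 ^ max (Nat.size m) (Nat.size n) :=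
    Nat.pow_le_pow_right (by norm_num) (by omega)
  rw [pow_succ]; omega

lemma ht_add_le (p q : ℚ) : ht (p + q) ≤ ht p + ht q + 1 := by
  rw [Rat.add_def']
  refine (ht_mkRat_le _ _).trans ?_
  have h0 := Nat.size_le_size (Int.natAbs_add_le (p.num * q.den) (q.num * p.den))
  have h1 := size_add_le_max (p.num * q.den).natAbs (q.num * p.den).natAbs
  rw [Int.natAbs_mul, Int.natAbs_mul, Int.natAbs_natCast, Int.natAbs_natCast] at h0 h1
  have h2 := size_mul_le p.num.natAbs q.den
  have h3 := size_mul_le q.num.natAbs p.den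
  have h4 := size_mul_le p.den q.den
  unfold ht at *
  omega

lemma ht_sub_le (p q : ℚ) : ht (p - q) ≤ ht p + ht q + 1 := by
  rw [sub_eq_add_neg, ← ht_neg q]; exact ht_add_le _ _

lemma ht_inv_le (q : ℚ) : ht q⁻¹ ≤ ht q := by
  by_cases h : q = 0
  · simp [h]
  · unfold ht
    rw [Rat.num_inv, Rat.den_inv_of_ne_zero h, Int.natAbs_mul, Int.natAbs_sign_of_ne_zero
      (Rat.num_ne_zero.2 h)]
    simp [max_comm]

lemma ht_div_le (p q : ℚ) : ht (p / q) ≤ ht p + ht q := by
  rw [div_eq_mul_inv]
  exact (ht_mul_le _ _).trans (Nat.add_le_add_left (ht_inv_le q) _)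

@[fun_prop] protected lemma PT.ratPow {x : α → ℚ} {n : α → ℕ} (hx : PT x) (hn : PT n)
    (hb : PB n) : PT (fun a => x a ^ n a) := by
  have := PT.iterate_meas (f := fun a y => y * x a) (n := n) (ini := fun _ => 1) ht 12
    (fun a => ht (x a)) sz_le_ht (by fun_prop) hn hb (by fun_prop) (by fun_prop) (by fun_prop)
    (fun a y => ht_mul_le _ _)
  refine this.congr fun a => ?_
  induction n a with
  | zero => simp
  | succ k ih => rw [Function.iterate_succ_apply', ← ih, pow_succ]

@[fun_prop] protected lemma PT.ratSum {l : α → List ℚ} (hl : PT l) : PT (fun a => (l a).sum) :=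
  PT.foldr_meas (f := fun (_ : α) (x acc : ℚ) => x + acc) (l := l) (ini := fun _ => 0) ht 12
    (fun p => ht p.2 + 1) sz_le_ht (by fun_prop) hl (by fun_prop) (by fun_prop) (by fun_prop)
    (fun a acc x _ => by have := ht_add_le x acc; simp only; omega)

@[fun_prop] protected lemma PT.ratProd {l : α → List ℚ} (hl : PT l) : PT (fun a => (l a).prod) :=
  PT.foldr_meas (f := fun (_ : α) (x acc : ℚ) => x * acc) (l := l) (ini := fun _ => 1) ht 12
    (fun p => ht p.2) sz_le_ht (by fun_prop) hl (by fun_prop) (by fun_prop) (by fun_prop)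
    (fun a acc x _ => by have := ht_mul_le x acc; simp only; omega)

@[fun_prop] protected lemma PT.rat_sum_range {n : α → ℕ} {g : α → ℕ → ℚ} (hn : PT n) (hb : PB n)
    (hg : PT (fun p : α × ℕ => g p.1 p.2)) : PT (fun a => ∑ i ∈ Finset.range (n a), g a i) :=
  ((hn.range hb).map hg).ratSum.congr fun _ => sum_range_eq_list _ _

@[fun_prop] protected lemma PT.rat_prod_range {n : α → ℕ} {g : α → ℕ → ℚ} (hn : PT n) (hb : PB n)
    (hg : PT (fun p : α × ℕ => g p.1 p.2)) : PT (fun a => ∏ i ∈ Finset.range (n a), g a i) :=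
  ((hn.range hb).map hg).ratProd.congr fun _ => prod_range_eq_list _ _

end Crest.Agent.Lib.PT
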