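import Mathlib

/-!
A tiny first-order language on binary trees with a big-step cost semantics.

Every evaluation costs at least the size of its input and at least the size of its output
(`Eval.size_in_le`, `Eval.size_out_le`), so the compiler to stack machines
(`Crest.Agent.Lib.PT.Compile`) has a *linear* overhead: machine steps `≤ K * cost`, `K` depending on
the program only.
-/

set_option autoImplicit false

namespace Crest.Agent.Lib.PT

/-- Universal data: binary trees. -/
inductive D : Type
  | nil : D
  | cons : D → D → D
  deriving DecidableEq, Inhabited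

namespace D

/-- Number of nodes (leaves included); the length of the prefix serialisation. -/
def size : D → ℕ
  | nil => 1
  | cons a b => a.size + b.size + 1

/-- Left subtree (`nil` on `nil`). -/
def car : D → D
  | nil => nil
  | cons a _ => a

/-- Right subtree (`nil` on `nil`). -/
def cdr : D → D
  | nil => nil
  | cons _ b => b

/-- A list of trees as a right comb ending in `nil`. -/
def ofList : List D → D
  | [] => nil
  | a :: l => cons a (ofList l)

/-- `false` is `nil`, `true` is `cons nil nil`. -/
def ofBool : Bool → D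
  | false => nil
  | true => cons nil nil

@[simp] lemma size_nil : size nil = 1 := rfl
@[simp] lemma size_cons (a b : D) : size (cons a b) = a.size + b.size + 1 := rfl
@[simp] lemma car_nil : car nil = nil := rfl
@[simp] lemma car_cons (a b : D) : car (cons a b) = a := rfl
@[simp] lemma cdr_nil : cdr nil = nil := rfl
@[simp] lemma cdr_cons (a b : D) : cdr (cons a b) = b := rfl
@[simp] lemma ofList_nil : ofList [] = nil := rfl
@[simp] lemma ofList_cons (a : D) (l : List D) : ofList (a :: l) = cons a (ofList l) := rfl
@[simp] lemma ofBool_false : ofBool false = nil := rfl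
@[simp] lemma ofBool_true : ofBool true = cons nil nil := rfl

lemma size_pos (a : D) : 0 < a.size := by cases a <;> simp

lemma size_car_le (a : D) : a.car.size ≤ a.size := by cases a <;> simp; omega

lemma size_cdr_le (a : D) : a.cdr.size ≤ a.size := by cases a <;> simp; omega

lemma ofBool_injective : Function.Injective ofBool := by
  intro a b h; cases a <;> cases b <;> simp_all [ofBool]

lemma ofList_injective : Function.Injective ofList := by
  intro l
  induction l with
  | nil => intro m h; cases m <;> simp_all
  | cons a l ih =>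
    intro m h
    cases m with
    | nil => simp at h
    | cons b m =>
      simp only [ofList_cons, cons.injEq] at h
      rw [h.1, ih h.2]

lemma size_ofList (l : List D) : (ofList l).size = (l.map size).sum + l.length + 1 := by
  induction l with
  | nil => simp
  | cons a l ih => simp [ih]; omega

lemma length_lt_size_ofList (l : List D) : l.length < (ofList l).size := by
  rw [size_ofList]; omega

lemma size_ofList_le (l : List D) (M : ℕ) (h : ∀ a ∈ l, a.size ≤ M) :
    (ofList l).size ≤ (M + 1) * l.length + 1 := by
  induction l with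
  | nil => simp
  | cons a l ih =>
    have h1 := h a (by simp)
    have h2 := ih (fun b hb => h b (by simp [hb]))
    simp only [ofList_cons, size_cons, List.length_cons]
    nlinarith

end D

/-- Programs: each one maps a tree to a tree (or diverges). -/
inductive Prog : Type
  /-- the constant `nil` -/
  | nil : Prog
  /-- the identity -/
  | id : Prog
  /-- left subtree -/
  | car : Prog
  /-- right subtree -/
  | cdr : Prog
  /-- `x ↦ cons (p x) (q x)` -/
  | cons : Prog → Prog → Prog
  /-- `comp p q` is `x ↦ p (q x)` -/
  | comp : Prog → Prog → Prog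
  /-- `ite c p q` is `x ↦ if c x = nil then p x else q x` -/
  | ite : Prog → Prog → Prog → Prog
  /-- `loop c b` is `while c x ≠ nil do x := b x` -/
  | loop : Prog → Prog → Prog

/-- Big-step semantics with cost: `Eval p x y n` says that `p` maps `x` to `y` at cost `n`. -/
inductive Eval : Prog → D → D → ℕ → Prop
  | nil (x : D) : Eval .nil x .nil x.size
  | id (x : D) : Eval .id x x x.size
  | car (x : D) : Eval .car x x.car x.size
  | cdr (x : D) : Eval .cdr x x.cdr x.size
  | cons {p q : Prog} {x a b : D} {m n : ℕ} :
      Eval p x a m → Eval q x b n → Eval (.cons p q) x (.cons a b) (m + n + 1)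
  | comp {p q : Prog} {x y z : D} {m n : ℕ} :
      Eval q x y m → Eval p y z n → Eval (.comp p q) x z (m + n)
  | iteNil {c p q : Prog} {x y : D} {m n : ℕ} :
      Eval c x .nil m → Eval p x y n → Eval (.ite c p q) x y (m + n)
  | iteCons {c p q : Prog} {x a b y : D} {m n : ℕ} :
      Eval c x (.cons a b) m → Eval q x y n → Eval (.ite c p q) x y (m + n)
  | loopNil {c b : Prog} {x : D} {m : ℕ} :
      Eval c x .nil m → Eval (.loop c b) x x m
  | loopCons {c b : Prog} {x u v y z : D} {m n k : ℕ} :
      Eval c x (.cons u v) m → Eval b x y n → Eval (.loop c b) y z k →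
      Eval (.loop c b) x z (m + n + k)

namespace Eval

lemma size_in_le {p : Prog} {x y : D} {n : ℕ} (h : Eval p x y n) : x.size ≤ n := by
  induction h <;> omega

lemma size_out_le {p : Prog} {x y : D} {n : ℕ} (h : Eval p x y n) : y.size ≤ n := by
  induction h with
  | nil x => exact x.size_pos
  | id x => exact le_rfl
  | car x => exact x.size_car_le
  | cdr x => exact x.size_cdr_le
  | cons _ _ h1 h2 => simp; omega
  | comp _ _ _ h2 => omega
  | iteNil _ _ _ h2 => omega
  | iteCons _ _ _ h2 => omega
  | loopNil h _ => exact h.size_in_le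
  | loopCons _ _ _ _ _ h3 => omega

lemma pos {p : Prog} {x y : D} {n : ℕ} (h : Eval p x y n) : 0 < n :=
  lt_of_lt_of_le x.size_pos h.size_in_le

lemma unique {p : Prog} {x y y' : D} {n n' : ℕ} (h : Eval p x y n) (h' : Eval p x y' n') :
    y = y' ∧ n = n' := by
  induction h generalizing y' n' with
  | nil x => cases h'; simp
  | id x => cases h'; simp
  | car x => cases h'; simp
  | cdr x => cases h'; simp
  | cons _ _ h1 h2 =>
    cases h' with
    | cons a b => obtain ⟨rfl, rfl⟩ := h1 a; obtain ⟨rfl, rfl⟩ := h2 b; simp
  | comp _ _ h1 h2 =>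
    cases h' with
    | comp a b => obtain ⟨rfl, rfl⟩ := h1 a; obtain ⟨rfl, rfl⟩ := h2 b; simp
  | iteNil _ _ h1 h2 =>
    cases h' with
    | iteNil a b => obtain ⟨-, rfl⟩ := h1 a; obtain ⟨rfl, rfl⟩ := h2 b; simp
    | iteCons a b => exact absurd (h1 a).1 (by simp)
  | iteCons _ _ h1 h2 =>
    cases h' with
    | iteNil a b => exact absurd (h1 a).1 (by simp)
    | iteCons a b => obtain ⟨-, rfl⟩ := h1 a; obtain ⟨rfl, rfl⟩ := h2 b; simp
  | loopNil _ h1 =>
    cases h' with
    | loopNil a => obtain ⟨-, rfl⟩ := h1 a; simp
    | loopCons a b c => exact absurd (h1 a).1 (by simp)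
  | loopCons _ _ _ h1 h2 h3 =>
    cases h' with
    | loopNil a => exact absurd (h1 a).1 (by simp)
    | loopCons a b c =>
      obtain ⟨-, rfl⟩ := h1 a; obtain ⟨rfl, rfl⟩ := h2 b; obtain ⟨rfl, rfl⟩ := h3 c; simp

end Eval

/-- `p` maps `x` to `y` at cost at most `n`. -/
def EvalLe (p : Prog) (x y : D) (n : ℕ) : Prop := ∃ m, m ≤ n ∧ Eval p x y m

lemma Eval.evalLe {p : Prog} {x y : D} {n : ℕ} (h : Eval p x y n) : EvalLe p x y n :=
  ⟨n, le_rfl, h⟩

lemma EvalLe.mono {p : Prog} {x y : D} {n n' : ℕ} (h : EvalLe p x y n) (hn : n ≤ n') :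
    EvalLe p x y n' := by
  obtain ⟨m, hm, h⟩ := h
  exact ⟨m, hm.trans hn, h⟩

lemma EvalLe.size_out_le {p : Prog} {x y : D} {n : ℕ} (h : EvalLe p x y n) : y.size ≤ n := by
  obtain ⟨m, hm, h⟩ := h
  exact h.size_out_le.trans hm

lemma EvalLe.size_in_le {p : Prog} {x y : D} {n : ℕ} (h : EvalLe p x y n) : x.size ≤ n := by
  obtain ⟨m, hm, h⟩ := h
  exact h.size_in_le.trans hm

end Crest.Agent.Lib.PT
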