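import Mathlib
import Crest.Agent.Lib.PT.Lang

/-!
Polynomial-time programming toolkit, core layer.

* `Enc α`: an injective encoding of `α` into binary trees, `sz a` its size.
* `TimeF f T`: some program maps `enc a` to `enc (f a)` at cost at most `T a`.
* `PB n`: the number `n a` is bounded by a polynomial in `sz a`.
* `PT f`: `f` is computable at polynomially bounded cost.

`PT` and `PB` goals are discharged by `fun_prop`.
-/

set_option autoImplicit false
set_option linter.dupNamespace false

namespace Crest.Agent.Lib.PT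

/-- An injective encoding into binary trees. -/
class Enc (α : Type) where
  /-- the encoding -/
  enc : α → D
  /-- injectivity -/
  inj : Function.Injective enc

export Enc (enc)

/-- Size of the encoding. -/
def sz {α : Type} [Enc α] (a : α) : ℕ := (enc a).size

/-- Transport an encoding along an injective map. -/
@[reducible] def Enc.ofInj {α β : Type} [Enc β] (f : α → β) (hf : Function.Injective f) : Enc α :=
  ⟨fun a => enc (f a), fun _ _ h => hf (Enc.inj h)⟩

/-- Both Booleans get trees of the same size. -/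
def encBool : Bool → D
  | false => .cons .nil (.cons .nil .nil)
  | true => .cons (.cons .nil .nil) .nil

instance instEncD : Enc D := ⟨fun d => d, fun _ _ h => h⟩
instance instEncUnit : Enc Unit := ⟨fun _ => .nil, fun _ _ _ => rfl⟩
instance instEncBool : Enc Bool :=
  ⟨encBool, by intro a b h; cases a <;> cases b <;> simp_all [encBool]⟩
instance instEncProd {α β : Type} [Enc α] [Enc β] : Enc (α × β) :=
  ⟨fun p => .cons (enc p.1) (enc p.2), by
    rintro ⟨a, b⟩ ⟨c, d⟩ h
    simp only [D.cons.injEq] at h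
    rw [Enc.inj h.1, Enc.inj h.2]⟩
instance instEncList {α : Type} [Enc α] : Enc (List α) :=
  ⟨fun l => D.ofList (l.map enc), fun _ _ h =>
    List.map_injective_iff.2 Enc.inj (D.ofList_injective h)⟩
instance instEncOption {α : Type} [Enc α] : Enc (Option α) :=
  ⟨fun o => o.elim .nil (fun a => .cons .nil (enc a)), by
    intro a b h
    cases a <;> cases b <;> simp_all
    exact Enc.inj h⟩
instance instEncSum {α β : Type} [Enc α] [Enc β] : Enc (α ⊕ β) :=
  ⟨fun s => s.elim (fun a => .cons .nil (enc a)) (fun b => .cons (.cons .nil .nil) (enc b)), by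
    intro a b h
    cases a <;> cases b <;> simp_all
    · exact Enc.inj h
    · exact Enc.inj h⟩

/-- The number with the given binary digits, least significant first. -/
def ofBits (l : List Bool) : ℕ := l.foldr Nat.bit 0

@[simp] lemma ofBits_nil : ofBits [] = 0 := rfl
@[simp] lemma ofBits_cons (b : Bool) (l : List Bool) : ofBits (b :: l) = Nat.bit b (ofBits l) := rfl

@[simp] lemma ofBits_bits (n : ℕ) : ofBits n.bits = n := by
  induction n using Nat.binaryRec' with
  | zero => simp
  | bit b n h ih => rw [Nat.bits_append_bit _ _ h, ofBits_cons, ih]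

lemma bits_injective : Function.Injective Nat.bits :=
  Function.LeftInverse.injective ofBits_bits

instance instEncNat : Enc ℕ := Enc.ofInj Nat.bits bits_injective
instance instEncInt : Enc ℤ := Enc.ofInj (fun z : ℤ => (decide (z < 0), z.natAbs)) (by
  intro a b h
  simp only [Prod.mk.injEq, decide_eq_decide] at h
  omega)
instance instEncRat : Enc ℚ := Enc.ofInj (fun q : ℚ => (q.num, q.den)) (by
  intro a b h
  simp only [Prod.mk.injEq] at h
  exact Rat.ext h.1 h.2)
instance instEncFin {n : ℕ} : Enc (Fin n) := Enc.ofInj Fin.val Fin.val_injective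
instance instEncSubtype {α : Type} [Enc α] {p : α → Prop} : Enc (Subtype p) :=
  Enc.ofInj Subtype.val Subtype.val_injective

section sizes
variable {α β : Type} [Enc α] [Enc β]

lemma enc_D (d : D) : enc d = d := rfl
lemma enc_pair (a : α) (b : β) : enc (a, b) = D.cons (enc a) (enc b) := rfl
lemma enc_prod (p : α × β) : enc p = D.cons (enc p.1) (enc p.2) := rfl
lemma enc_nil : enc ([] : List α) = D.nil := rfl
lemma enc_cons (a : α) (l : List α) : enc (a :: l) = D.cons (enc a) (enc l) := rfl
lemma enc_none : enc (none : Option α) = D.nil := rfl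
lemma enc_some (a : α) : enc (some a) = D.cons D.nil (enc a) := rfl
lemma enc_inl (a : α) : enc (Sum.inl a : α ⊕ β) = D.cons D.nil (enc a) := rfl
lemma enc_inr (b : β) : enc (Sum.inr b : α ⊕ β) = D.cons (D.cons D.nil D.nil) (enc b) := rfl
lemma enc_false : enc false = D.cons .nil (.cons .nil .nil) := rfl
lemma enc_true : enc true = D.cons (.cons .nil .nil) .nil := rfl
lemma enc_nat (n : ℕ) : enc n = enc n.bits := rfl
lemma enc_list (l : List α) : enc l = D.ofList (l.map enc) := rfl

lemma sz_pos (a : α) : 0 < sz a := D.size_pos _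
lemma one_le_sz (a : α) : 1 ≤ sz a := D.size_pos _
lemma sz_D (d : D) : sz d = d.size := rfl
@[simp] lemma sz_enc (a : α) : sz (enc a) = sz a := rfl
@[simp] lemma sz_unit (u : Unit) : sz u = 1 := rfl
@[simp] lemma sz_bool (b : Bool) : sz b = 5 := by cases b <;> rfl
@[simp] lemma sz_pair (a : α) (b : β) : sz (a, b) = sz a + sz b + 1 := rfl
lemma sz_prod (p : α × β) : sz p = sz p.1 + sz p.2 + 1 := rfl
@[simp] lemma sz_nil : sz ([] : List α) = 1 := rfl
@[simp] lemma sz_cons (a : α) (l : List α) : sz (a :: l) = sz a + sz l + 1 := rfl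
@[simp] lemma sz_none : sz (none : Option α) = 1 := rfl
@[simp] lemma sz_some (a : α) : sz (some a) = sz a + 2 := by
  show 1 + sz a + 1 = _
  omega
@[simp] lemma sz_inl (a : α) : sz (Sum.inl a : α ⊕ β) = sz a + 2 := by
  show 1 + sz a + 1 = _
  omega
@[simp] lemma sz_inr (b : β) : sz (Sum.inr b : α ⊕ β) = sz b + 4 := by
  show (1 + 1 + 1) + sz b + 1 = _
  omega
@[simp] lemma sz_fin {n : ℕ} (i : Fin n) : sz i = sz (i : ℕ) := rfl
@[simp] lemma sz_subtype {p : α → Prop} (x : Subtype p) : sz x = sz x.1 := rfl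

lemma sz_fst_le (p : α × β) : sz p.1 ≤ sz p := by rw [sz_prod p]; omega
lemma sz_snd_le (p : α × β) : sz p.2 ≤ sz p := by rw [sz_prod p]; omega

lemma sz_list (l : List α) : sz l = (l.map sz).sum + l.length + 1 := by
  induction l with
  | nil => simp
  | cons a l ih => simp [ih]; omega

@[simp] lemma sz_append (l m : List α) : sz (l ++ m) + 1 = sz l + sz m := by
  induction l with
  | nil => simp; omega
  | cons a l ih => simp; omega

lemma sz_append_le (l m : List α) : sz (l ++ m) ≤ sz l + sz m := by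
  have := sz_append l m; omega

@[simp] lemma sz_reverse (l : List α) : sz l.reverse = sz l := by
  rw [sz_list, sz_list, List.map_reverse, List.sum_reverse, List.length_reverse]

lemma length_lt_sz (l : List α) : l.length < sz l := by rw [sz_list]; omega

lemma length_le_sz (l : List α) : l.length ≤ sz l := (length_lt_sz l).le

lemma sz_le_of_mem {l : List α} {a : α} (h : a ∈ l) : sz a ≤ sz l := by
  induction l with
  | nil => simp at h
  | cons b l ih =>
    rcases List.mem_cons.1 h with rfl | h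
    · simp; omega
    · have := ih h; simp; omega

lemma sz_sublist_le {l m : List α} (h : l.Sublist m) : sz l ≤ sz m := by
  induction h with
  | slnil => exact le_rfl
  | cons a _ ih => simp; omega
  | cons_cons a _ ih => simp; omega

lemma sz_perm {l m : List α} (h : l.Perm m) : sz l = sz m := by
  rw [sz_list, sz_list, (h.map sz).sum_eq, h.length_eq]

lemma sz_tail_le (l : List α) : sz l.tail ≤ sz l := sz_sublist_le (List.tail_sublist l)
lemma sz_drop_le (n : ℕ) (l : List α) : sz (l.drop n) ≤ sz l :=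
  sz_sublist_le (List.drop_sublist n l)
lemma sz_take_le (n : ℕ) (l : List α) : sz (l.take n) ≤ sz l :=
  sz_sublist_le (List.take_sublist n l)
lemma sz_filter_le (p : α → Bool) (l : List α) : sz (l.filter p) ≤ sz l :=
  sz_sublist_le List.filter_sublist

lemma sz_list_le (l : List α) (M : ℕ) (h : ∀ a ∈ l, sz a ≤ M) :
    sz l ≤ (M + 1) * l.length + 1 := by
  induction l with
  | nil => simp
  | cons a l ih =>
    have h1 := h a (by simp)
    have h2 := ih (fun b hb => h b (by simp [hb]))
    simp only [sz_cons, List.length_cons]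
    nlinarith

lemma sz_boolList (l : List Bool) : sz l = 6 * l.length + 1 := by
  induction l with
  | nil => simp
  | cons a l ih => simp [ih]; omega

lemma sz_unitList (l : List Unit) : sz l = 2 * l.length + 1 := by
  induction l with
  | nil => simp
  | cons a l ih => simp [ih]; omega

lemma sz_nat (n : ℕ) : sz n = 6 * Nat.size n + 1 := by
  rw [← Nat.size_eq_bits_len]; exact sz_boolList n.bits

lemma sz_nat_mono {m n : ℕ} (h : m ≤ n) : sz m ≤ sz n := by
  have := Nat.size_le_size h
  rw [sz_nat, sz_nat]; omega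

lemma sz_nat_le_of_lt_two_pow {m k : ℕ} (h : m < 2 ^ k) : sz m ≤ 6 * k + 1 := by
  have := Nat.size_le.2 h
  rw [sz_nat]; omega

lemma lt_two_pow_sz (n : ℕ) : n < 2 ^ sz n := by
  refine lt_of_lt_of_le (Nat.lt_size_self n) (Nat.pow_le_pow_right (by norm_num) ?_)
  rw [sz_nat]; omega

lemma size_le_self' (n : ℕ) : Nat.size n ≤ n := Nat.size_le.2 Nat.lt_two_pow_self

lemma sz_nat_le_self (n : ℕ) : sz n ≤ 6 * n + 1 := by
  have := size_le_self' n
  rw [sz_nat]; omega

@[simp] lemma sz_zero : sz (0 : ℕ) = 1 := rfl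

lemma size_mul_le (m n : ℕ) : Nat.size (m * n) ≤ Nat.size m + Nat.size n := by
  rw [Nat.size_le, pow_add]
  exact Nat.mul_lt_mul'' (Nat.lt_size_self m) (Nat.lt_size_self n)

lemma size_add_le (m n : ℕ) : Nat.size (m + n) ≤ Nat.size m + Nat.size n + 1 := by
  rw [Nat.size_le]
  have h1 := Nat.lt_size_self m
  have h2 := Nat.lt_size_self n
  have h3 : 2 ^ Nat.size m ≤ 2 ^ (Nat.size m + Nat.size n) :=
    Nat.pow_le_pow_right (by norm_num) (by omega)
  have h4 : 2 ^ Nat.size n ≤ 2 ^ (Nat.size m + Nat.size n) :=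
    Nat.pow_le_pow_right (by norm_num) (by omega)
  rw [pow_succ]; omega

lemma sz_mul_le (m n : ℕ) : sz (m * n) ≤ sz m + sz n := by
  have := size_mul_le m n
  rw [sz_nat, sz_nat, sz_nat]; omega

lemma sz_add_le (m n : ℕ) : sz (m + n) ≤ sz m + sz n + 6 := by
  have := size_add_le m n
  rw [sz_nat, sz_nat, sz_nat]; omega

lemma sz_pow_le (m k : ℕ) : sz (m ^ k) ≤ k * sz m + 7 := by
  induction k with
  | zero => simp [sz_nat]
  | succ k ih => have := sz_mul_le (m ^ k) m; rw [pow_succ]; nlinarith

lemma sz_int (z : ℤ) : sz z = sz z.natAbs + 6 := by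
  show sz (decide (z < 0), z.natAbs) = _
  simp; omega

lemma sz_rat (q : ℚ) : sz q = sz q.num + sz q.den + 1 := rfl

end sizes

/-- Some program computes `f`, at cost at most `T a` on input `a`. -/
def TimeF {α β : Type} [Enc α] [Enc β] (f : α → β) (T : α → ℕ) : Prop :=
  ∃ p : Prog, ∀ a, EvalLe p (enc a) (enc (f a)) (T a)

/-- `n a` is bounded by a polynomial in the size of `a`. -/
@[fun_prop] def PB {α : Type} [Enc α] (n : α → ℕ) : Prop :=
  ∃ c k : ℕ, ∀ a, n a ≤ c * sz a ^ k

/-- `f` is computable in polynomial time. -/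
@[fun_prop] def PT {α β : Type} [Enc α] [Enc β] (f : α → β) : Prop :=
  ∃ T : α → ℕ, PB T ∧ TimeF f T

variable {α β γ δ σ : Type} [Enc α] [Enc β] [Enc γ] [Enc δ] [Enc σ]

section PB

protected lemma PB.of_le {n m : α → ℕ} (hm : PB m) (h : ∀ a, n a ≤ m a) : PB n := by
  obtain ⟨c, k, hm⟩ := hm
  exact ⟨c, k, fun a => (h a).trans (hm a)⟩

@[fun_prop] protected lemma PB.const (c : ℕ) : PB (fun _ : α => c) :=
  ⟨c, 0, fun a => by simp⟩

protected lemma PB.sz_id : PB (fun a : α => sz a) := ⟨1, 1, fun a => by simp⟩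

@[fun_prop] protected lemma PB.add {n m : α → ℕ} (hn : PB n) (hm : PB m) : PB (fun a => n a + m a) := by
  obtain ⟨c, k, hn⟩ := hn
  obtain ⟨c', k', hm⟩ := hm
  refine ⟨c + c', k + k', fun a => ?_⟩
  have h1 : sz a ^ k ≤ sz a ^ (k + k') := Nat.pow_le_pow_right (sz_pos a) (by omega)
  have h2 : sz a ^ k' ≤ sz a ^ (k + k') := Nat.pow_le_pow_right (sz_pos a) (by omega)
  have h3 := Nat.mul_le_mul_left c h1
  have h4 := Nat.mul_le_mul_left c' h2
  have := hn a
  have := hm a
  beta_reduce
  rw [add_mul]; omega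

@[fun_prop] protected lemma PB.mul {n m : α → ℕ} (hn : PB n) (hm : PB m) : PB (fun a => n a * m a) := by
  obtain ⟨c, k, hn⟩ := hn
  obtain ⟨c', k', hm⟩ := hm
  refine ⟨c * c', k + k', fun a => ?_⟩
  calc n a * m a ≤ (c * sz a ^ k) * (c' * sz a ^ k') := Nat.mul_le_mul (hn a) (hm a)
    _ = _ := by ring

@[fun_prop] protected lemma PB.pow {n : α → ℕ} (hn : PB n) (k : ℕ) : PB (fun a => n a ^ k) := by
  induction k with
  | zero => simpa using PB.const 1
  | succ k ih => simpa [pow_succ] using ih.mul hn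

@[fun_prop] protected lemma PB.succ {n : α → ℕ} (hn : PB n) : PB (fun a => (n a).succ) :=
  hn.add (PB.const 1)

@[fun_prop] protected lemma PB.sub {n : α → ℕ} (hn : PB n) (m : α → ℕ) : PB (fun a => n a - m a) :=
  hn.of_le fun _ => Nat.sub_le _ _

@[fun_prop] protected lemma PB.div {n : α → ℕ} (hn : PB n) (m : α → ℕ) : PB (fun a => n a / m a) :=
  hn.of_le fun _ => Nat.div_le_self _ _

@[fun_prop] protected lemma PB.mod_left {n : α → ℕ} (hn : PB n) (m : α → ℕ) : PB (fun a => n a % m a) :=
  hn.of_le fun _ => Nat.mod_le _ _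

@[fun_prop] protected lemma PB.max {n m : α → ℕ} (hn : PB n) (hm : PB m) : PB (fun a => max (n a) (m a)) :=
  (hn.add hm).of_le fun a => by omega

@[fun_prop] protected lemma PB.min_left {n : α → ℕ} (hn : PB n) (m : α → ℕ) :
    PB (fun a => min (n a) (m a)) := hn.of_le fun a => by omega

@[fun_prop] protected lemma PB.min_right {m : α → ℕ} (n : α → ℕ) (hm : PB m) :
    PB (fun a => min (n a) (m a)) := hm.of_le fun a => by omega

@[fun_prop] protected lemma PB.polyEval (q : Polynomial ℕ) {n : α → ℕ} (hn : PB n) :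
    PB (fun a => q.eval (n a)) := by
  induction q using Polynomial.induction_on' with
  | add p q hp hq => simpa using hp.add hq
  | monomial k c => simpa using (PB.const c).mul (hn.pow k)

@[fun_prop] protected lemma PB.ite {n m : α → ℕ} (P : α → Prop) [∀ a, Decidable (P a)] (hn : PB n)
    (hm : PB m) : PB (fun a => if P a then n a else m a) :=
  (hn.add hm).of_le fun a => by split_ifs <;> omega

protected lemma PB.comp_sz {g : β → ℕ} {f : α → β} (hg : PB g) (hf : PB (fun a => sz (f a))) :
    PB (fun a => g (f a)) := by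
  obtain ⟨c, k, hg⟩ := hg
  exact ((PB.const c).mul (hf.pow k)).of_le fun a => hg (f a)

/-- A bound of the form `c * B ^ k` for the value on all inputs of size at most `B`. -/
protected lemma PB.exists_bound {g : β → ℕ} (hg : PB g) :
    ∃ c k : ℕ, ∀ b B, sz b ≤ B → g b ≤ c * B ^ k := by
  obtain ⟨c, k, hg⟩ := hg
  exact ⟨c, k, fun b B h => (hg b).trans (Nat.mul_le_mul_left c (Nat.pow_le_pow_left h k))⟩

end PB

section TimeF

protected lemma TimeF.mono {f : α → β} {T T' : α → ℕ} (h : TimeF f T) (hT : ∀ a, T a ≤ T' a) :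
    TimeF f T' := by
  obtain ⟨p, hp⟩ := h
  exact ⟨p, fun a => (hp a).mono (hT a)⟩

protected lemma TimeF.sz_le {f : α → β} {T : α → ℕ} (h : TimeF f T) (a : α) : sz (f a) ≤ T a := by
  obtain ⟨p, hp⟩ := h
  exact (hp a).size_out_le

protected lemma TimeF.sz_in_le {f : α → β} {T : α → ℕ} (h : TimeF f T) (a : α) : sz a ≤ T a := by
  obtain ⟨p, hp⟩ := h
  exact (hp a).size_in_le

protected lemma TimeF.of_enc {f : α → β} {g : α → γ} {T : α → ℕ} (h : TimeF g T)
    (hfg : ∀ a, enc (f a) = enc (g a)) : TimeF f T := by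
  obtain ⟨p, hp⟩ := h
  exact ⟨p, fun a => by rw [hfg]; exact hp a⟩

protected lemma TimeF.congr {f g : α → β} {T : α → ℕ} (h : TimeF g T) (hfg : ∀ a, f a = g a) :
    TimeF f T := h.of_enc fun a => by rw [hfg]

protected lemma TimeF.id : TimeF (fun a : α => a) (fun a => sz a) :=
  ⟨.id, fun a => (Eval.id (enc a)).evalLe⟩

protected lemma TimeF.comp {g : β → γ} {f : α → β} {S : β → ℕ} {T : α → ℕ} (hg : TimeF g S)
    (hf : TimeF f T) : TimeF (fun a => g (f a)) (fun a => T a + S (f a)) := by
  obtain ⟨p, hp⟩ := hg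
  obtain ⟨q, hq⟩ := hf
  refine ⟨.comp p q, fun a => ?_⟩
  obtain ⟨m, hm, h1⟩ := hq a
  obtain ⟨n, hn, h2⟩ := hp (f a)
  exact ⟨m + n, by beta_reduce; omega, h1.comp h2⟩

protected lemma TimeF.pair {f : α → β} {g : α → γ} {S T : α → ℕ} (hf : TimeF f S) (hg : TimeF g T) :
    TimeF (fun a => (f a, g a)) (fun a => S a + T a + 1) := by
  obtain ⟨p, hp⟩ := hf
  obtain ⟨q, hq⟩ := hg
  refine ⟨.cons p q, fun a => ?_⟩
  obtain ⟨m, hm, h1⟩ := hp a
  obtain ⟨n, hn, h2⟩ := hq a
  exact ⟨m + n + 1, by beta_reduce; omega, h1.cons h2⟩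

/-- The program writing a fixed tree. -/
def constProg : D → Prog
  | .nil => .nil
  | .cons a b => .cons (constProg a) (constProg b)

lemma constProg_eval (d x : D) : EvalLe (constProg d) x d (d.size * x.size) := by
  induction d with
  | nil => exact ⟨x.size, by simp, Eval.nil x⟩
  | cons a b iha ihb =>
    obtain ⟨m, hm, h1⟩ := iha
    obtain ⟨n, hn, h2⟩ := ihb
    refine ⟨m + n + 1, ?_, h1.cons h2⟩
    have := x.size_pos
    simp only [D.size_cons]
    nlinarith

protected lemma TimeF.const (b : β) : TimeF (fun _ : α => b) (fun a => sz b * sz a) :=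
  ⟨constProg (enc b), fun _ => constProg_eval _ _⟩

/-- Case distinction on a tree being `nil`. -/
def D.iteNil {β : Type} (c : D) (x y : β) : β :=
  match c with
  | .nil => x
  | .cons _ _ => y

@[simp] lemma D.iteNil_nil {β : Type} (x y : β) : D.iteNil .nil x y = x := rfl
@[simp] lemma D.iteNil_cons {β : Type} (a b : D) (x y : β) : D.iteNil (.cons a b) x y = y := rfl

protected lemma TimeF.iteNil {c : α → D} {f g : α → β} {R S T : α → ℕ} (hc : TimeF c R) (hf : TimeF f S)
    (hg : TimeF g T) :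
    TimeF (fun a => D.iteNil (c a) (f a) (g a)) (fun a => R a + D.iteNil (c a) (S a) (T a)) := by
  obtain ⟨r, hr⟩ := hc
  obtain ⟨p, hp⟩ := hf
  obtain ⟨q, hq⟩ := hg
  refine ⟨.ite r p q, fun a => ?_⟩
  obtain ⟨k, hk, h0⟩ := hr a
  obtain ⟨m, hm, h1⟩ := hp a
  obtain ⟨n, hn, h2⟩ := hq a
  rw [enc_D] at h0
  cases h : c a with
  | nil =>
    rw [h] at h0
    exact ⟨k + m, by simp [h]; omega, by simpa [h] using h0.iteNil h1⟩
  | cons u v =>
    rw [h] at h0
    exact ⟨k + n, by simp [h]; omega, by simpa [h] using h0.iteCons h2⟩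

/-- The `while` loop: `step` is applied as long as `c` holds. -/
protected lemma TimeF.whileLoop {step : σ → σ} {c : σ → Bool} {S C : σ → ℕ} (hs : TimeF step S)
    (hc : TimeF c C) {ini : α → σ} {T : α → ℕ} (hi : TimeF ini T) (N M : α → ℕ)
    (h1 : ∀ a i, i < N a → c (step^[i] (ini a)) = true)
    (h2 : ∀ a, c (step^[N a] (ini a)) = false)
    (hM : ∀ a i, i ≤ N a → C (step^[i] (ini a)) + 5 + S (step^[i] (ini a)) ≤ M a) :
    TimeF (fun a => step^[N a] (ini a)) (fun a => T a + (N a + 1) * M a) := by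
  obtain ⟨p, hp⟩ := hs
  obtain ⟨q, hq⟩ := hc
  obtain ⟨r, hr⟩ := hi
  have key : ∀ (n M : ℕ) (s : σ), (∀ i, i < n → c (step^[i] s) = true) →
      c (step^[n] s) = false → (∀ i, i ≤ n → C (step^[i] s) + 5 + S (step^[i] s) ≤ M) →
      EvalLe (.loop (.comp .car q) p) (enc s) (enc (step^[n] s)) ((n + 1) * M) := by
    intro n M
    induction n with
    | zero =>
      intro s _ h2 hM
      obtain ⟨k, hk, h0⟩ := hq s
      simp only [Function.iterate_zero, id_eq] at h2
      rw [h2] at h0
      have := hM 0 le_rfl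
      simp only [Function.iterate_zero, id_eq] at this
      refine ⟨k + 5, by omega, Eval.loopNil (h0.comp (Eval.car _))⟩
    | succ n ih =>
      intro s h1 h2 hM
      obtain ⟨k, hk, h0⟩ := hq s
      have hc0 := h1 0 (by omega)
      simp only [Function.iterate_zero, id_eq] at hc0
      rw [hc0] at h0
      obtain ⟨m, hm, h3⟩ := hp s
      obtain ⟨l, hl, h4⟩ := ih (step s) (fun i hi => h1 (i + 1) (by omega)) h2
        (fun i hi => hM (i + 1) (by omega))
      have := hM 0 (by omega)
      simp only [Function.iterate_zero, id_eq] at this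
      refine ⟨k + 5 + m + l, by nlinarith, Eval.loopCons (h0.comp (Eval.car _)) h3 h4⟩
  refine ⟨.comp (.loop (.comp .car q) p) r, fun a => ?_⟩
  obtain ⟨m, hm, h3⟩ := hr a
  obtain ⟨l, hl, h4⟩ := key (N a) (M a) (ini a) (h1 a) (h2 a) (hM a)
  exact ⟨m + l, by beta_reduce; omega, h3.comp h4⟩

end TimeF

section PT

protected lemma TimeF.pt {f : α → β} {T : α → ℕ} (h : TimeF f T) (hT : PB T) : PT f := ⟨T, hT, h⟩

protected lemma PT.exists_bound {f : α → β} (h : PT f) :
    ∃ c k : ℕ, TimeF f (fun a => c * sz a ^ k) := by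
  obtain ⟨T, ⟨c, k, hT⟩, h⟩ := h
  exact ⟨c, k, h.mono hT⟩

@[fun_prop] protected lemma PB.sz {f : α → β} (hf : PT f) : PB (fun a => sz (f a)) := by
  obtain ⟨T, hT, h⟩ := hf
  exact hT.of_le h.sz_le

@[fun_prop] protected lemma PB.comp {g : β → ℕ} {f : α → β} (hg : PB g) (hf : PT f) :
    PB (fun a => g (f a)) := hg.comp_sz (PB.sz hf)

@[fun_prop] protected lemma PB.length {l : α → List β} (hl : PT l) : PB (fun a => (l a).length) :=
  (PB.sz hl).of_le fun a => length_le_sz (l a)

@[fun_prop] protected lemma PB.size {n : α → ℕ} (hn : PT n) : PB (fun a => Nat.size (n a)) :=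
  (PB.sz hn).of_le fun a => by rw [sz_nat]; omega

@[fun_prop] protected lemma PB.log2 {n : α → ℕ} (hn : PT n) : PB (fun a => Nat.log 2 (n a)) :=
  (PB.size hn).of_le fun a => by
    rcases Nat.eq_zero_or_pos (n a) with h | h
    · simp [h]
    · exact (Nat.lt_size.2 (Nat.pow_log_le_self 2 h.ne')).le

@[fun_prop] protected lemma PB.finVal {m : ℕ} (i : α → Fin m) : PB (fun a => (i a : ℕ)) :=
  (PB.const m).of_le fun a => (i a).2.le

protected lemma PT.of_enc {f : α → β} {g : α → γ} (h : PT g) (hfg : ∀ a, enc (f a) = enc (g a)) : PT f := by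
  obtain ⟨T, hT, h⟩ := h
  exact ⟨T, hT, h.of_enc hfg⟩

protected lemma PT.congr {f g : α → β} (h : PT g) (hfg : ∀ a, f a = g a) : PT f :=
  h.of_enc fun a => by rw [hfg]

@[fun_prop] protected lemma PT.id : PT (fun a : α => a) := TimeF.id.pt PB.sz_id

@[fun_prop] protected lemma PT.id' : PT (_root_.id : α → α) := PT.id

@[fun_prop] protected lemma PT.const (b : β) : PT (fun _ : α => b) :=
  (TimeF.const b).pt ((PB.const _).mul PB.sz_id)

@[fun_prop] protected lemma PT.comp {g : β → γ} {f : α → β} (hg : PT g) (hf : PT f) :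
    PT (fun a => g (f a)) := by
  have h0 := hf
  obtain ⟨S, hS, hg⟩ := hg
  obtain ⟨T, hT, hf⟩ := hf
  exact (hg.comp hf).pt (hT.add (hS.comp h0))

protected lemma PT.comp' {g : β → γ} {f : α → β} (hg : PT g) (hf : PT f) : PT (g ∘ f) := hg.comp hf

@[fun_prop] protected lemma PT.pair {f : α → β} {g : α → γ} (hf : PT f) (hg : PT g) :
    PT (fun a => (f a, g a)) := by
  obtain ⟨S, hS, hf⟩ := hf
  obtain ⟨T, hT, hg⟩ := hg
  exact (hf.pair hg).pt ((hS.add hT).add (PB.const 1))

@[fun_prop] protected lemma PT.enc {f : α → β} (hf : PT f) : PT (fun a => enc (f a)) :=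
  hf.of_enc fun _ => rfl

@[fun_prop] protected lemma PT.car {f : α → D} (hf : PT f) : PT (fun a => (f a).car) :=
  PT.comp (g := D.car) ⟨_, PB.sz_id, .car, fun a => (Eval.car a).evalLe⟩ hf

@[fun_prop] protected lemma PT.cdr {f : α → D} (hf : PT f) : PT (fun a => (f a).cdr) :=
  PT.comp (g := D.cdr) ⟨_, PB.sz_id, .cdr, fun a => (Eval.cdr a).evalLe⟩ hf

@[fun_prop] protected lemma PT.dcons {f g : α → D} (hf : PT f) (hg : PT g) :
    PT (fun a => D.cons (f a) (g a)) := (hf.pair hg).of_enc fun _ => rfl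

@[fun_prop] protected lemma PT.iteNil {c : α → D} {f g : α → β} (hc : PT c) (hf : PT f) (hg : PT g) :
    PT (fun a => D.iteNil (c a) (f a) (g a)) := by
  obtain ⟨R, hR, hc⟩ := hc
  obtain ⟨S, hS, hf⟩ := hf
  obtain ⟨T, hT, hg⟩ := hg
  refine (hc.iteNil hf hg).pt ((hR.add (hS.add hT)).of_le fun a => ?_)
  cases c a <;> simp

@[fun_prop] protected lemma PT.fst {f : α → β × γ} (hf : PT f) : PT (fun a => (f a).1) :=
  hf.enc.car.of_enc fun _ => rfl

@[fun_prop] protected lemma PT.snd {f : α → β × γ} (hf : PT f) : PT (fun a => (f a).2) :=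
  hf.enc.cdr.of_enc fun _ => rfl

@[fun_prop] protected lemma PT.swap {f : α → β × γ} (hf : PT f) : PT (fun a => (f a).swap) :=
  hf.snd.pair hf.fst

/-- Two-argument composition. -/
protected lemma PT.comp₂ {g : β → γ → δ} {f₁ : α → β} {f₂ : α → γ} (hg : PT (fun p : β × γ => g p.1 p.2))
    (h₁ : PT f₁) (h₂ : PT f₂) : PT (fun a => g (f₁ a) (f₂ a)) :=
  hg.comp (h₁.pair h₂)

@[fun_prop] protected lemma PT.cond {c : α → Bool} {f g : α → β} (hc : PT c) (hf : PT f) (hg : PT g) :
    PT (fun a => cond (c a) (f a) (g a)) :=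
  (hc.enc.car.iteNil hg hf).congr fun a => by cases c a <;> rfl

@[fun_prop] protected lemma PT.ite {P : α → Prop} [∀ a, Decidable (P a)] {f g : α → β}
    (hP : PT (fun a => decide (P a))) (hf : PT f) (hg : PT g) :
    PT (fun a => if P a then f a else g a) :=
  (hP.cond hf hg).congr fun a => by by_cases h : P a <;> simp [h]

@[fun_prop] protected lemma PT.not {c : α → Bool} (hc : PT c) : PT (fun a => !(c a)) :=
  (hc.cond (PT.const false) (PT.const true)).congr fun a => by cases c a <;> rfl

@[fun_prop] protected lemma PT.and {c d : α → Bool} (hc : PT c) (hd : PT d) : PT (fun a => (c a && d a)) :=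
  (hc.cond hd (PT.const false)).congr fun a => by cases c a <;> rfl

@[fun_prop] protected lemma PT.or {c d : α → Bool} (hc : PT c) (hd : PT d) : PT (fun a => (c a || d a)) :=
  (hc.cond (PT.const true) hd).congr fun a => by cases c a <;> rfl

@[fun_prop] protected lemma PT.xor {c d : α → Bool} (hc : PT c) (hd : PT d) :
    PT (fun a => xor (c a) (d a)) :=
  (hc.cond hd.not hd).congr fun a => by cases c a <;> cases d a <;> rfl

@[fun_prop] protected lemma PT.decide_eq_true {c : α → Bool} [∀ a, Decidable (c a = true)] (hc : PT c) :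
    PT (fun a => decide (c a = true)) := hc.congr fun a => by simp

@[fun_prop] protected lemma PT.decide_eq_false {c : α → Bool} [∀ a, Decidable (c a = false)] (hc : PT c) :
    PT (fun a => decide (c a = false)) := hc.not.congr fun a => by simp

@[fun_prop] protected lemma PT.decide_not {P : α → Prop} [∀ a, Decidable (P a)] [∀ a, Decidable (¬ P a)]
    (hP : PT (fun a => decide (P a))) : PT (fun a => decide (¬ P a)) :=
  hP.not.congr fun a => by by_cases h : P a <;> simp [h]

@[fun_prop] protected lemma PT.decide_and {P Q : α → Prop} [∀ a, Decidable (P a)] [∀ a, Decidable (Q a)]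
    [∀ a, Decidable (P a ∧ Q a)] (hP : PT (fun a => decide (P a)))
    (hQ : PT (fun a => decide (Q a))) : PT (fun a => decide (P a ∧ Q a)) :=
  (hP.and hQ).congr fun a => by by_cases h : P a <;> by_cases h' : Q a <;> simp [h, h']

@[fun_prop] protected lemma PT.decide_or {P Q : α → Prop} [∀ a, Decidable (P a)] [∀ a, Decidable (Q a)]
    [∀ a, Decidable (P a ∨ Q a)] (hP : PT (fun a => decide (P a)))
    (hQ : PT (fun a => decide (Q a))) : PT (fun a => decide (P a ∨ Q a)) :=
  (hP.or hQ).congr fun a => by by_cases h : P a <;> by_cases h' : Q a <;> simp [h, h']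

@[fun_prop] protected lemma PT.decide_imp {P Q : α → Prop} [∀ a, Decidable (P a)] [∀ a, Decidable (Q a)]
    [∀ a, Decidable (P a → Q a)] (hP : PT (fun a => decide (P a)))
    (hQ : PT (fun a => decide (Q a))) : PT (fun a => decide (P a → Q a)) :=
  (hP.not.or hQ).congr fun a => by by_cases h : P a <;> by_cases h' : Q a <;> simp [h, h']

@[fun_prop] protected lemma PT.decide_iff {P Q : α → Prop} [∀ a, Decidable (P a)] [∀ a, Decidable (Q a)]
    [∀ a, Decidable (P a ↔ Q a)] (hP : PT (fun a => decide (P a)))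
    (hQ : PT (fun a => decide (Q a))) : PT (fun a => decide (P a ↔ Q a)) :=
  (hP.xor hQ).not.congr fun a => by by_cases h : P a <;> by_cases h' : Q a <;> simp [h, h']

/-! ### options and sums -/

@[fun_prop] protected lemma PT.some {f : α → β} (hf : PT f) : PT (fun a => some (f a)) :=
  ((PT.const D.nil).dcons hf.enc).of_enc fun _ => rfl

@[fun_prop] protected lemma PT.isSome {o : α → Option β} (ho : PT o) : PT (fun a => (o a).isSome) :=
  (ho.enc.iteNil (PT.const false) (PT.const true)).congr fun a => by cases o a <;> rfl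

@[fun_prop] protected lemma PT.isNone {o : α → Option β} (ho : PT o) : PT (fun a => (o a).isNone) :=
  (ho.enc.iteNil (PT.const true) (PT.const false)).congr fun a => by cases o a <;> rfl

@[fun_prop] protected lemma PT.optionGetD {o : α → Option β} {d : α → β} (ho : PT o) (hd : PT d) :
    PT (fun a => (o a).getD (d a)) :=
  (ho.enc.iteNil hd.enc ho.enc.cdr).of_enc fun a => by cases o a <;> rfl

/-- Run `g` on the data `x a` only when `c a ≠ nil`, where then `x a` encodes a value `v`. -/
protected lemma PT.guarded {c : α → D} {x : α → D} {f : α → γ} {g : α → β → γ} {r : α → γ}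
    (hc : PT c) (hx : PT x) (hf : PT f) (hg : PT (fun p : α × β => g p.1 p.2))
    (h : ∀ a, (c a = .nil ∧ r a = f a) ∨ (c a ≠ .nil ∧ ∃ v, x a = enc v ∧ r a = g a v)) :
    PT r := by
  obtain ⟨R, hR, ⟨pc, hc⟩⟩ := hc
  obtain ⟨S, hS, ⟨pf, hf⟩⟩ := hf
  have hx' := PT.id.pair hx
  have hxs := PB.sz hx'
  obtain ⟨X, hX, ⟨px, hx'⟩⟩ := hx'
  obtain ⟨G, hG, ⟨pg, hg⟩⟩ := hg
  obtain ⟨cg, kg, hG⟩ := hG.exists_bound
  refine ⟨fun a => R a + S a + X a + cg * sz (a, x a) ^ kg, by fun_prop,
    .ite pc pf (.comp pg px), fun a => ?_⟩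
  obtain ⟨k, hk, h0⟩ := hc a
  rw [enc_D] at h0
  rcases h a with ⟨h1, h2⟩ | ⟨h1, v, h2, h3⟩
  · obtain ⟨m, hm, h4⟩ := hf a
    rw [h1] at h0
    rw [h2]
    exact ⟨k + m, by simp only; omega, h0.iteNil h4⟩
  · obtain ⟨m, hm, h4⟩ := hx' a
    obtain ⟨n, hn, h5⟩ := hg (a, v)
    have h6 : enc (a, x a) = enc (a, v) := by rw [enc_pair, enc_pair, h2]; rfl
    have h7 := hG (a, v) (sz (a, x a)) (by unfold sz; rw [h6])
    simp only at h4
    rw [h6] at h4
    rw [h3]
    cases hca : c a with
    | nil => exact absurd hca h1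
    | cons u w =>
      rw [hca] at h0
      exact ⟨k + (m + n), by simp only at hn ⊢; omega, h0.iteCons (h4.comp h5)⟩

@[fun_prop] protected lemma PT.optionElim {o : α → Option β} {d : α → γ} {g : α → β → γ} (ho : PT o)
    (hd : PT d) (hg : PT (fun p : α × β => g p.1 p.2)) :
    PT (fun a => (o a).elim (d a) (g a)) :=
  PT.guarded ho.enc ho.enc.cdr hd hg fun a => by
    cases o a with
    | none => exact Or.inl ⟨rfl, rfl⟩
    | some v => exact Or.inr ⟨by simp [enc_some], v, rfl, rfl⟩

@[fun_prop] protected lemma PT.optionCasesOn {o : α → Option β} {d : α → γ} {g : α → β → γ} (ho : PT o)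
    (hd : PT d) (hg : PT (fun p : α × β => g p.1 p.2)) :
    PT (fun a => (Option.casesOn (o a) (d a) (g a) : γ)) :=
  (ho.optionElim hd hg).congr fun a => by cases o a <;> rfl

@[fun_prop] protected lemma PT.optionBind {o : α → Option β} {g : α → β → Option γ} (ho : PT o)
    (hg : PT (fun p : α × β => g p.1 p.2)) : PT (fun a => (o a).bind (g a)) :=
  (ho.optionElim (PT.const none) hg).congr fun a => by cases o a <;> rfl

@[fun_prop] protected lemma PT.optionMap {o : α → Option β} {g : α → β → γ} (ho : PT o)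
    (hg : PT (fun p : α × β => g p.1 p.2)) : PT (fun a => (o a).map (g a)) :=
  (ho.optionElim (g := fun a b => Option.some (g a b)) (PT.const none) hg.some).congr
    fun a => by cases o a <;> rfl

@[fun_prop] protected lemma PT.inl {f : α → β} (hf : PT f) : PT (fun a => (Sum.inl (f a) : β ⊕ γ)) :=
  ((PT.const D.nil).dcons hf.enc).of_enc fun _ => rfl

@[fun_prop] protected lemma PT.inr {f : α → γ} (hf : PT f) : PT (fun a => (Sum.inr (f a) : β ⊕ γ)) :=
  ((PT.const (D.cons .nil .nil)).dcons hf.enc).of_enc fun _ => rfl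

@[fun_prop] protected lemma PT.getLeft? {s : α → β ⊕ γ} (hs : PT s) : PT (fun a => (s a).getLeft?) :=
  (hs.enc.car.iteNil hs.enc (PT.const D.nil)).of_enc fun a => by cases s a <;> rfl

@[fun_prop] protected lemma PT.getRight? {s : α → β ⊕ γ} (hs : PT s) : PT (fun a => (s a).getRight?) :=
  (hs.enc.car.iteNil (PT.const D.nil) ((PT.const D.nil).dcons hs.enc.cdr)).of_enc
    fun a => by cases s a <;> rfl

@[fun_prop] protected lemma PT.isLeft {s : α → β ⊕ γ} (hs : PT s) : PT (fun a => (s a).isLeft) :=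
  hs.getLeft?.isSome.congr fun a => by cases s a <;> rfl

@[fun_prop] protected lemma PT.isRight {s : α → β ⊕ γ} (hs : PT s) : PT (fun a => (s a).isRight) :=
  hs.getRight?.isSome.congr fun a => by cases s a <;> rfl

@[fun_prop] protected lemma PT.sumElim {s : α → β ⊕ γ} {f : α → β → δ} {g : α → γ → δ} (hs : PT s)
    (hf : PT (fun p : α × β => f p.1 p.2)) (hg : PT (fun p : α × γ => g p.1 p.2)) :
    PT (fun a => Sum.elim (f a) (g a) (s a)) := by
  have h1 : PT (fun a => (s a).getLeft?.elim ((s a).getRight?.elim D.nil (fun c => enc (g a c)))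
      (fun b => enc (f a b))) :=
    hs.getLeft?.optionElim (g := fun a b => enc (f a b))
      (hs.getRight?.optionElim (g := fun a c => enc (g a c)) (PT.const D.nil) hg.enc) hf.enc
  exact h1.of_enc fun a => by cases s a <;> rfl

@[fun_prop] protected lemma PT.subtypeVal {p : β → Prop} {f : α → Subtype p} (hf : PT f) :
    PT (fun a => (f a).1) := hf.of_enc fun _ => rfl

protected lemma PT.subtypeMk {p : β → Prop} {f : α → β} (hf : PT f) (h : ∀ a, p (f a)) :
    PT (fun a => (⟨f a, h a⟩ : Subtype p)) := hf.of_enc fun _ => rfl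

@[fun_prop] protected lemma PT.finVal {n : ℕ} {f : α → Fin n} (hf : PT f) : PT (fun a => (f a).val) :=
  hf.of_enc fun _ => rfl

protected lemma PT.finMk {n : ℕ} {f : α → ℕ} (hf : PT f) (h : ∀ a, f a < n) :
    PT (fun a => (⟨f a, h a⟩ : Fin n)) := hf.of_enc fun _ => rfl

/-! ### loops -/

/-- The `while` loop with polynomially many rounds and states of polynomial size. -/
protected lemma PT.whileLoop {step : σ → σ} {c : σ → Bool} (hs : PT step) (hc : PT c) {ini : α → σ}
    (hi : PT ini) {N B : α → ℕ} (hN : PB N) (hB : PB B)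
    (h1 : ∀ a i, i < N a → c (step^[i] (ini a)) = true)
    (h2 : ∀ a, c (step^[N a] (ini a)) = false)
    (hsz : ∀ a i, i ≤ N a → sz (step^[i] (ini a)) ≤ B a) :
    PT (fun a => step^[N a] (ini a)) := by
  obtain ⟨S, hS, hs⟩ := hs
  obtain ⟨C, hC, hc⟩ := hc
  obtain ⟨T, hT, hi⟩ := hi
  obtain ⟨c1, k1, hS⟩ := hS.exists_bound
  obtain ⟨c2, k2, hC⟩ := hC.exists_bound
  refine (hs.whileLoop hc hi N (fun a => c2 * B a ^ k2 + 5 + c1 * B a ^ k1) h1 h2 ?_).pt
    (by fun_prop)
  intro a i hi
  have := hS _ _ (hsz a i hi)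
  have := hC _ _ (hsz a i hi)
  omega

end PT

end Crest.Agent.Lib.PT
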