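import Crest.Agent.Lib.PT.Exp

/-!
Polynomial-time toolkit: sorting, maxima, matrix operations, determinants and inverses.
-/

set_option autoImplicit false
set_option linter.dupNamespace false

namespace Crest.Agent.Lib.PT

variable {α β γ : Type} [Enc α] [Enc β] [Enc γ]

/-! ### sorting and extrema -/

@[fun_prop] protected lemma PT.orderedInsert {r : α → β → β → Prop} [∀ a, DecidableRel (r a)]
    {x : α → β} {l : α → List β} (hr : PT (fun p : α × β × β => decide (r p.1 p.2.1 p.2.2)))
    (hx : PT x) (hl : PT l) : PT (fun a => (l a).orderedInsert (r a) (x a)) := by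
  have h1 : PT (fun p : α × β => !decide (r p.1 (x p.1) p.2)) :=
    (hr.comp (f := fun p : α × β => (p.1, x p.1, p.2)) (by fun_prop)).not
  have h := (hl.takeWhile (g := fun a y => !decide (r a (x a) y)) h1).append
    (hx.cons (hl.dropWhile (g := fun a y => !decide (r a (x a) y)) h1))
  refine h.congr fun a => ?_
  rw [List.orderedInsert_eq_take_drop]
  simp

@[fun_prop] protected lemma PT.insertionSort {r : α → β → β → Prop} [∀ a, DecidableRel (r a)]
    {l : α → List β} (hr : PT (fun p : α × β × β => decide (r p.1 p.2.1 p.2.2))) (hl : PT l) :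
    PT (fun a => (l a).insertionSort (r a)) := by
  have h1 : PT (fun p : α × β × List β => p.2.2.orderedInsert (r p.1) p.2.1) :=
    PT.orderedInsert (r := fun p : α × β × List β => r p.1)
      (hr.comp (f := fun p : (α × β × List β) × β × β => (p.1.1, p.2)) (by fun_prop))
      (by fun_prop) (by fun_prop)
  have := PT.foldr_add (f := fun a (x : β) (acc : List β) => acc.orderedInsert (r a) x) (l := l)
    (ini := fun _ => []) (fun p => sz p.2 + 1) h1 hl (by fun_prop) (by fun_prop)
    (fun a acc x _ => by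
      rw [sz_perm (List.perm_orderedInsert (r a) x acc)]; simp only [sz_cons]; omega)
  exact this.congr fun a => by
    induction l a with
    | nil => rfl
    | cons x m ih => simp [ih]

/-- A fold that always returns one of its two arguments (`max`, `min`, `argmin`, …). -/
protected lemma PT.foldr_select {f : α → β → β → β} {l : α → List β} {ini : α → β}
    (hf : PT (fun p : α × β × β => f p.1 p.2.1 p.2.2)) (hl : PT l) (hi : PT ini)
    (h : ∀ a x y, f a x y = x ∨ f a x y = y) : PT (fun a => (l a).foldr (f a) (ini a)) :=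
  PT.foldr_add (fun p => sz p.2) hf hl hi (by fun_prop) fun a acc x _ => by
    rcases h a x acc with h | h <;> rw [h] <;> simp only <;> omega

protected lemma PT.foldl_select {f : α → β → β → β} {l : α → List β} {ini : α → β}
    (hf : PT (fun p : α × β × β => f p.1 p.2.1 p.2.2)) (hl : PT l) (hi : PT ini)
    (h : ∀ a x y, f a x y = x ∨ f a x y = y) : PT (fun a => (l a).foldl (f a) (ini a)) :=
  PT.foldl_add (fun p => sz p.2) hf hl hi (by fun_prop) fun a acc x _ => by
    rcases h a acc x with h | h <;> rw [h] <;> simp only <;> omega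

@[fun_prop] protected lemma PT.foldr_max {l : α → List ℕ} {ini : α → ℕ} (hl : PT l) (hi : PT ini) :
    PT (fun a => (l a).foldr max (ini a)) :=
  PT.foldr_select (f := fun _ => max) (by fun_prop) hl hi fun _ x y => max_choice x y

@[fun_prop] protected lemma PT.foldr_min {l : α → List ℕ} {ini : α → ℕ} (hl : PT l) (hi : PT ini) :
    PT (fun a => (l a).foldr min (ini a)) :=
  PT.foldr_select (f := fun _ => min) (by fun_prop) hl hi fun _ x y => min_choice x y

@[fun_prop] protected lemma PT.foldr_ratMax {l : α → List ℚ} {ini : α → ℚ} (hl : PT l)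
    (hi : PT ini) : PT (fun a => (l a).foldr max (ini a)) :=
  PT.foldr_select (f := fun _ => max) (by fun_prop) hl hi fun _ x y => max_choice x y

@[fun_prop] protected lemma PT.foldr_ratMin {l : α → List ℚ} {ini : α → ℚ} (hl : PT l)
    (hi : PT ini) : PT (fun a => (l a).foldr min (ini a)) :=
  PT.foldr_select (f := fun _ => min) (by fun_prop) hl hi fun _ x y => min_choice x y

@[fun_prop] protected lemma PT.sup_fin {n : α → ℕ} {f : (a : α) → Fin (n a) → ℕ} (hn : PT n)
    (hb : PB n) (hf : PT (fun p : Σ a, Fin (n a) => f p.1 p.2)) :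
    PT (fun a => Finset.univ.sup (f a)) :=
  ((PT.ofFn hn hb hf).foldr_max (PT.const 0)).congr fun a => by
    apply le_antisymm
    · exact Finset.sup_le fun i _ => List.le_max_of_le (List.mem_ofFn.2 ⟨i, rfl⟩) le_rfl
    · exact List.max_le_of_forall_le _ _ fun x hx => by
        obtain ⟨i, rfl⟩ := List.mem_ofFn.1 hx
        exact Finset.le_sup (f := f a) (Finset.mem_univ i)

/-- `List.argmin` for a `PT`-comparable key. -/
protected lemma PT.argAux {r : α → β → β → Prop} [∀ a, DecidableRel (r a)] {l : α → List β}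
    (hr : PT (fun p : α × β × β => decide (r p.1 p.2.1 p.2.2))) (hl : PT l) :
    PT (fun a => (l a).foldl (List.argAux (r a)) none) := by
  have h1 : PT (fun p : (α × Option β × β) × β => decide (r p.1.1 p.1.2.2 p.2)) :=
    hr.comp (f := fun p : (α × Option β × β) × β => (p.1.1, p.1.2.2, p.2)) (by fun_prop)
  have h2 : PT (fun p : α × Option β × β => List.argAux (r p.1) p.2.1 p.2.2) :=
    (PT.optionElim (o := fun p : α × Option β × β => p.2.1) (d := fun p => some p.2.2)
      (g := fun p c => if r p.1 p.2.2 c then some p.2.2 else some c) (by fun_prop) (by fun_prop)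
      (PT.ite h1 (by fun_prop) (by fun_prop))).congr fun p => by
        obtain ⟨a, o, b⟩ := p
        cases o <;> rfl
  exact PT.foldl_add (f := fun a => List.argAux (r a)) (fun p => sz p.2 + 2) h2 hl (by fun_prop)
    (by fun_prop) fun a acc x _ => by
      cases acc with
      | none => simp [List.argAux]
      | some c => simp only [List.argAux]; split_ifs <;> simp

@[fun_prop] protected lemma PT.argmin_nat {l : α → List β} {f : α → β → ℕ} (hl : PT l)
    (hf : PT (fun p : α × β => f p.1 p.2)) : PT (fun a => (l a).argmin (f a)) :=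
  PT.argAux (r := fun a b c => f a b < f a c)
    ((hf.comp (f := fun p : α × β × β => (p.1, p.2.1)) (by fun_prop)).decide_lt
      (hf.comp (f := fun p : α × β × β => (p.1, p.2.2)) (by fun_prop))) hl

@[fun_prop] protected lemma PT.argmax_nat {l : α → List β} {f : α → β → ℕ} (hl : PT l)
    (hf : PT (fun p : α × β => f p.1 p.2)) : PT (fun a => (l a).argmax (f a)) :=
  PT.argAux (r := fun a b c => f a c < f a b)
    ((hf.comp (f := fun p : α × β × β => (p.1, p.2.2)) (by fun_prop)).decide_lt
      (hf.comp (f := fun p : α × β × β => (p.1, p.2.1)) (by fun_prop))) hl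

@[fun_prop] protected lemma PT.argmin_rat {l : α → List β} {f : α → β → ℚ} (hl : PT l)
    (hf : PT (fun p : α × β => f p.1 p.2)) : PT (fun a => (l a).argmin (f a)) :=
  PT.argAux (r := fun a b c => f a b < f a c)
    ((hf.comp (f := fun p : α × β × β => (p.1, p.2.1)) (by fun_prop)).rat_decide_lt
      (hf.comp (f := fun p : α × β × β => (p.1, p.2.2)) (by fun_prop))) hl

@[fun_prop] protected lemma PT.argmax_rat {l : α → List β} {f : α → β → ℚ} (hl : PT l)
    (hf : PT (fun p : α × β => f p.1 p.2)) : PT (fun a => (l a).argmax (f a)) :=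
  PT.argAux (r := fun a b c => f a c < f a b)
    ((hf.comp (f := fun p : α × β × β => (p.1, p.2.2)) (by fun_prop)).rat_decide_lt
      (hf.comp (f := fun p : α × β × β => (p.1, p.2.1)) (by fun_prop))) hl

/-! ### entries of dependent matrices under binders -/

section Mat

variable {l m n : α → ℕ}

/-- The entries of a `PT` matrix, in the shape required by `PT.mat`. -/
protected lemma PT.entries {A : (a : α) → Matrix (Fin (m a)) (Fin (n a)) β}
    (hA : PT (fun a => enc (A a))) :
    PT (fun p : Σ q : (Σ a, Fin (m a)), Fin (n q.1) => A p.1.1 p.1.2 p.2) :=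
  PT.entry (hA.comp PT.id.sigmaFst.sigmaFst) PT.id.sigmaFst.sigmaFinVal PT.id.sigmaFinVal

protected lemma PT.entries₁ {v : (a : α) → Fin (n a) → β} (hv : PT (fun a => enc (v a))) :
    PT (fun p : Σ a, Fin (n a) => v p.1 p.2) :=
  PT.apply (hv.comp PT.id.sigmaFst) PT.id.sigmaFinVal

protected lemma PT.mat_dim {τ : α → Type} [∀ a, Enc (τ a)]
    {A : (a : α) → Matrix (Fin (m a)) (Fin (n a)) (τ a)} (hA : PT (fun a => enc (A a))) : PT m :=
  PT.vec_dim (τ := fun a => Fin (n a) → τ a) (v := A) hA

protected lemma PB.mat_dim {τ : α → Type} [∀ a, Enc (τ a)]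
    {A : (a : α) → Matrix (Fin (m a)) (Fin (n a)) (τ a)} (hA : PT (fun a => enc (A a))) : PB m :=
  PB.vec_dim (τ := fun a => Fin (n a) → τ a) (v := A) hA

protected lemma PT.matMap {A : (a : α) → Matrix (Fin (m a)) (Fin (n a)) β} {g : α → β → γ}
    (hA : PT (fun a => enc (A a))) (hg : PT (fun p : α × β => g p.1 p.2)) :
    PT (fun a => enc ((A a).map (g a))) := by
  have h1 : PT (fun a => List.ofFn fun i => List.ofFn (A a i)) :=
    hA.of_enc fun a => (enc_matrix (A a)).symm
  have h2 : PT (fun p : (α × List β) × β => g p.1.1 p.2) :=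
    hg.comp (f := fun p : (α × List β) × β => (p.1.1, p.2)) (by fun_prop)
  refine (h1.map (g := fun a row => row.map (g a))
    (PT.map (g := fun p : α × List β => g p.1) PT.id.snd h2)).of_enc fun a => ?_
  rw [enc_D, enc_matrix]
  simp only [List.map_ofFn, Function.comp_def]
  rfl

protected lemma PT.transpose {A : (a : α) → Matrix (Fin (m a)) (Fin (n a)) β}
    (hA : PT (fun a => enc (A a))) (hn : PT n) (hnb : PB n) :
    PT (fun a => enc (A a).transpose) :=
  PT.mat hn hnb (PT.mat_dim hA) (PB.mat_dim hA)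
    (PT.entry (hA.comp PT.id.sigmaFst.sigmaFst) PT.id.sigmaFinVal PT.id.sigmaFst.sigmaFinVal)

protected lemma PT.rat_matMul {A : (a : α) → Matrix (Fin (l a)) (Fin (m a)) ℚ}
    {B : (a : α) → Matrix (Fin (m a)) (Fin (n a)) ℚ} (hA : PT (fun a => enc (A a)))
    (hB : PT (fun a => enc (B a))) (hn : PT n) (hnb : PB n) : PT (fun a => enc (A a * B a)) := by
  have hm := PT.mat_dim hB
  have hmb := PB.mat_dim hB
  refine PT.mat (PT.mat_dim hA) (PB.mat_dim hA) hn hnb ?_
  simp only [Matrix.mul_apply]
  refine PT.rat_sum_fin (by fun_prop) (by fun_prop) (PT.ratMul ?_ ?_)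
  · exact PT.entry (hA.comp (by fun_prop)) (by fun_prop) (by fun_prop)
  · exact PT.entry (hB.comp (by fun_prop)) (by fun_prop) (by fun_prop)

protected lemma PT.int_matMul {A : (a : α) → Matrix (Fin (l a)) (Fin (m a)) ℤ}
    {B : (a : α) → Matrix (Fin (m a)) (Fin (n a)) ℤ} (hA : PT (fun a => enc (A a)))
    (hB : PT (fun a => enc (B a))) (hn : PT n) (hnb : PB n) : PT (fun a => enc (A a * B a)) := by
  have hm := PT.mat_dim hB
  have hmb := PB.mat_dim hB
  refine PT.mat (PT.mat_dim hA) (PB.mat_dim hA) hn hnb ?_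
  simp only [Matrix.mul_apply]
  refine PT.int_sum_fin (by fun_prop) (by fun_prop) (PT.intMul ?_ ?_)
  · exact PT.entry (hA.comp (by fun_prop)) (by fun_prop) (by fun_prop)
  · exact PT.entry (hB.comp (by fun_prop)) (by fun_prop) (by fun_prop)

protected lemma PT.rat_mulVec {A : (a : α) → Matrix (Fin (m a)) (Fin (n a)) ℚ}
    {v : (a : α) → Fin (n a) → ℚ} (hA : PT (fun a => enc (A a))) (hv : PT (fun a => enc (v a))) :
    PT (fun a => enc ((A a).mulVec (v a))) := by
  have hn := PT.vec_dim hv
  have hnb := PB.vec_dim hv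
  refine PT.vec (PT.mat_dim hA) (PB.mat_dim hA) ?_
  simp only [Matrix.mulVec, dotProduct]
  refine PT.rat_sum_fin (by fun_prop) (by fun_prop) (PT.ratMul ?_ ?_)
  · exact PT.entry (hA.comp (by fun_prop)) (by fun_prop) (by fun_prop)
  · exact PT.apply (hv.comp (by fun_prop)) (by fun_prop)

protected lemma PT.rat_dotProduct {v w : (a : α) → Fin (n a) → ℚ} (hv : PT (fun a => enc (v a)))
    (hw : PT (fun a => enc (w a))) : PT (fun a => v a ⬝ᵥ w a) :=
  PT.rat_sum_fin (f := fun a i => v a i * w a i) (PT.vec_dim hv) (PB.vec_dim hv)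
    (hv.entries₁.ratMul hw.entries₁)

/-- Comparison of indices. -/
protected lemma PT.fin_decide_eq {i j : (a : α) → Fin (n a)} [∀ a, Decidable (i a = j a)]
    (hi : PT (fun a => (i a : ℕ))) (hj : PT (fun a => (j a : ℕ))) :
    PT (fun a => decide (i a = j a)) :=
  (hi.decide_eq hj).congr fun a => by simp [Fin.ext_iff]

protected lemma PT.fin_decide_lt {i j : (a : α) → Fin (n a)} [∀ a, Decidable (i a < j a)]
    (hi : PT (fun a => (i a : ℕ))) (hj : PT (fun a => (j a : ℕ))) :
    PT (fun a => decide (i a < j a)) :=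
  (hi.decide_lt hj).congr fun a => by simp

protected lemma PT.fin_decide_le {i j : (a : α) → Fin (n a)} [∀ a, Decidable (i a ≤ j a)]
    (hi : PT (fun a => (i a : ℕ))) (hj : PT (fun a => (j a : ℕ))) :
    PT (fun a => decide (i a ≤ j a)) :=
  (hi.decide_le hj).congr fun a => by simp

/-! ### determinants (Bird's division-free algorithm) -/

/-- One step of Bird's algorithm. -/
def birdStep {R : Type} [CommRing R] {k : ℕ} (A F : Matrix (Fin k) (Fin k) R) :
    Matrix (Fin k) (Fin k) R :=
  .of fun i j => (-∑ t, if i < t then F t t else 0) * A i j + ∑ t, if i < t then F i t * A t j else 0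

lemma sumFrom_eq {R : Type} [CommRing R] (k lo : ℕ) (f : ℕ → R) :
    BirdDet.sumFrom k lo f = ∑ t : Fin k, if lo ≤ t then f t else 0 := by
  rw [Fin.sum_univ_eq_sum_range (fun t => if lo ≤ t then f t else 0), ← Finset.sum_filter]
  induction lo using BirdDet.sumFrom_induct k with
  | step lo hlo ih =>
    rw [BirdDet.sumFrom_step k lo f hlo, ih, ← Finset.sum_insert (by simp)]
    congr 1
    ext t
    simp only [Finset.mem_insert, Finset.mem_filter, Finset.mem_range]
    omega
  | stop lo hlo =>
    rw [BirdDet.sumFrom_stop k lo f hlo, Finset.filter_eq_empty_iff.2, Finset.sum_empty]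
    intro t ht
    simp only [Finset.mem_range] at ht
    omega

lemma det_eq_bird {R : Type} [CommRing R] {k : ℕ} (A : Matrix (Fin (k + 1)) (Fin (k + 1)) R) :
    A.det = (-1) ^ k * (birdStep A)^[k] A 0 0 := by
  let arr : Array R := Array.ofFn fun t : Fin ((k + 1) * (k + 1)) => A t.divNat t.modNat
  have hs : arr.size = (k + 1) * (k + 1) := by simp [arr]
  have hget : ∀ i j : Fin (k + 1), BirdDet.get (k + 1) arr i j = A i j := by
    intro i j
    have h1 : (k + 1) * i + j < (k + 1) * (k + 1) := by
      have := i.2; have := j.2; nlinarith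
    rw [BirdDet.get_eq, Array.getD_eq_getD_getElem?, Array.getElem?_eq_getElem (by rwa [hs])]
    simp only [arr, Array.getElem_ofFn, Option.getD_some]
    congr 1
    · ext; simp [Fin.divNat, Nat.mul_add_div, Nat.div_eq_of_lt j.2]
    · ext; simp [Fin.modNat, Nat.mod_eq_of_lt j.2]
  have hA : Matrix.ofArray arr hs = A := by
    rw [Matrix.ofArray_eq_of_getD]
    ext i j
    exact hget i j
  have key : ∀ (t : ℕ) (i j : Fin (k + 1)),
      (BirdDet.stepEntry (k + 1) arr)^[t] (BirdDet.get (k + 1) arr) i j =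
        (birdStep A)^[t] A i j := by
    intro t
    induction t with
    | zero => exact hget
    | succ t ih =>
      intro i j
      rw [Function.iterate_succ_apply', Function.iterate_succ_apply', BirdDet.stepEntry_eq,
        sumFrom_eq, sumFrom_eq]
      simp only [ih, hget, birdStep, Matrix.of_apply, Nat.succ_le_iff, Fin.val_fin_lt]
  rw [← hA, BirdDet.det_eq_birdDet, BirdDet.birdDet_succ, hA]
  exact congrArg _ (key k 0 0)

lemma abs_birdStep_le {k : ℕ} (A F : Matrix (Fin k) (Fin k) ℤ) (M N : ℤ)
    (hA : ∀ i j, |A i j| ≤ M) (hF : ∀ i j, |F i j| ≤ N) (i j : Fin k) :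
    |birdStep A F i j| ≤ 2 * k * M * N := by
  have hM : 0 ≤ M := (abs_nonneg _).trans (hA i j)
  have hN : 0 ≤ N := (abs_nonneg _).trans (hF i j)
  have h1 : |∑ t, if i < t then F t t else 0| ≤ k * N := by
    refine (Finset.abs_sum_le_sum_abs _ _).trans ?_
    refine (Finset.sum_le_card_nsmul _ _ N fun t _ => ?_).trans (by simp)
    split_ifs
    · exact hF _ _
    · simpa using hN
  have h2 : |∑ t, if i < t then F i t * A t j else 0| ≤ k * (N * M) := by
    refine (Finset.abs_sum_le_sum_abs _ _).trans ?_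
    refine (Finset.sum_le_card_nsmul _ _ (N * M) fun t _ => ?_).trans (by simp)
    split_ifs
    · rw [abs_mul]; exact mul_le_mul (hF _ _) (hA _ _) (abs_nonneg _) hN
    · simpa using mul_nonneg hN hM
  simp only [birdStep, Matrix.of_apply]
  refine (abs_add_le _ _).trans ?_
  rw [abs_mul, abs_neg]
  have := mul_le_mul h1 (hA i j) (abs_nonneg _) (by positivity)
  nlinarith

lemma abs_lt_two_pow_sz (z : ℤ) : |z| ≤ 2 ^ sz z := by
  have h1 := lt_two_pow_sz z.natAbs
  have h2 : 2 ^ sz z.natAbs ≤ 2 ^ sz z := Nat.pow_le_pow_right (by norm_num) (by rw [sz_int]; omega)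
  have : z.natAbs ≤ 2 ^ sz z := by omega
  rw [← Int.natCast_natAbs]
  exact_mod_cast this

lemma sz_int_le_of_abs_le_two_pow {z : ℤ} {k : ℕ} (h : |z| ≤ 2 ^ k) : sz z ≤ 6 * k + 13 := by
  have h1 := sz_int_le_of_abs_le (x := z) (n := 2 ^ k) (by exact_mod_cast h)
  have h2 := sz_nat_le_of_lt_two_pow (m := 2 ^ k) (k := k + 1)
    (Nat.pow_lt_pow_right (by norm_num) (by omega))
  omega

protected lemma PT.int_det {A : (a : α) → Matrix (Fin (n a)) (Fin (n a)) ℤ}
    (hA : PT (fun a => enc (A a))) : PT (fun a => (A a).det) := by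
  have hn := PT.mat_dim hA
  have hb := PB.mat_dim hA
  have hsA : PB (fun a => sz (A a)) := PB.sz hA
  have hF : PT (fun p : Σ a, Matrix (Fin (n a)) (Fin (n a)) ℤ => enc p.2) := PT.id.sigmaSnd
  have hstep : PT (fun p : Σ a, Matrix (Fin (n a)) (Fin (n a)) ℤ =>
      enc (birdStep (A p.1) p.2)) := by
    refine PT.mat (by fun_prop) (by fun_prop) (by fun_prop) (by fun_prop) ?_
    simp only [birdStep, Matrix.of_apply]
    refine PT.intAdd (PT.intMul (PT.intNeg (PT.int_sum_fin (by fun_prop) (by fun_prop)
      (PT.ite (PT.fin_decide_lt (by fun_prop) (by fun_prop)) ?_ (PT.const _)))) ?_)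
      (PT.int_sum_fin (by fun_prop) (by fun_prop)
        (PT.ite (PT.fin_decide_lt (by fun_prop) (by fun_prop)) (PT.intMul ?_ ?_) (PT.const _)))
    · exact PT.entry (hF.comp (by fun_prop)) (by fun_prop) (by fun_prop)
    · exact PT.entry (hA.comp (by fun_prop)) (by fun_prop) (by fun_prop)
    · exact PT.entry (hF.comp (by fun_prop)) (by fun_prop) (by fun_prop)
    · exact PT.entry (hA.comp (by fun_prop)) (by fun_prop) (by fun_prop)
  have hit := PT.diterate (f := fun a F => birdStep (A a) F) (n := fun a => n a - 1) (ini := A)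
    (fun a => ((6 * ((n a + 1 + sz (A a)) * (n a + 1)) + 13 + 1) * n a + 2) * n a + 1) hstep
    (by fun_prop) (by fun_prop) hA (by fun_prop) (fun a t ht => by
      refine sz_matrix_le _ _ fun i j => ?_
      have key : ∀ t i j, |(birdStep (A a))^[t] (A a) i j| ≤ 2 ^ ((n a + 1 + sz (A a)) * (t + 1)) := by
        have e0 : ∀ i j, |A a i j| ≤ 2 ^ sz (A a) := fun i j =>
          (abs_lt_two_pow_sz _).trans (pow_le_pow_right₀ (by norm_num) (sz_entry_le _ i j))
        intro t
        induction t with
        | zero => exact fun i j => (e0 i j).trans (pow_le_pow_right₀ (by norm_num) (by omega))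
        | succ t ih =>
          intro i j
          rw [Function.iterate_succ_apply']
          refine (abs_birdStep_le _ _ _ _ e0 ih i j).trans ?_
          have e1 : (n a : ℤ) ≤ 2 ^ n a := by exact_mod_cast Nat.lt_two_pow_self.le
          rw [mul_add _ (t + 1), mul_one, pow_add, pow_add, pow_succ]
          have : (0 : ℤ) < 2 ^ sz (A a) * 2 ^ ((n a + 1 + sz (A a)) * (t + 1)) := by positivity
          nlinarith
      refine (sz_int_le_of_abs_le_two_pow (key t i j)).trans ?_
      have := Nat.mul_le_mul_left (n a + 1 + sz (A a)) (show t + 1 ≤ n a + 1 by omega)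
      omega)
  have h00 : PT (fun a => if n a = 0 then enc (1 : ℤ) else
      (enc ((birdStep (A a))^[n a - 1] (A a))).car.car) := by fun_prop
  have h01 : PT (fun a => (-1 : ℤ) ^ (n a - 1) * (Dec.dec (if n a = 0 then enc (1 : ℤ) else
      (enc ((birdStep (A a))^[n a - 1] (A a))).car.car) : ℤ)) :=
    PT.intMul (by fun_prop) (Dec.pt.comp h00)
  refine h01.congr fun a => ?_
  generalize A a = M
  generalize n a = k at M
  cases k with
  | zero => simp [Dec.dec_enc]
  | succ k =>
    rw [det_eq_bird, if_neg (by omega), Nat.add_sub_cancel, enc_matrix, List.ofFn_succ, enc_cons,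
      D.car_cons, List.ofFn_succ, enc_cons, D.car_cons, Dec.dec_enc]

protected lemma PT.rat_det {A : (a : α) → Matrix (Fin (n a)) (Fin (n a)) ℚ}
    (hA : PT (fun a => enc (A a))) : PT (fun a => (A a).det) := by
  have hn := PT.mat_dim hA
  have hb := PB.mat_dim hA
  have hd : PT (fun a => ∏ i, ∏ j, (A a i j).den) :=
    PT.prod_fin hn hb (PT.prod_fin (by fun_prop) (by fun_prop) hA.entries.den)
  have h1 := PT.int_det (PT.matMap 
    (g := fun a (q : ℚ) => (q * ((∏ i, ∏ j, (A a i j).den : ℕ) : ℚ)).num) hA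
    (PT.ratMul PT.id.snd (hd.comp PT.id.fst).ratNatCast).num)
  refine (h1.ratIntCast.ratDiv (hd.ratNatCast.ratPow hn hb)).congr fun a => ?_
  generalize A a = M
  have hpos : (0 : ℚ) < (∏ i, ∏ j, (M i j).den : ℕ) := by
    exact_mod_cast Finset.prod_pos fun i _ => Finset.prod_pos fun j _ => (M i j).den_pos
  have hdvd : ∀ i j, (M i j).den ∣ ∏ i, ∏ j, (M i j).den := fun i j =>
    (Finset.dvd_prod_of_mem (fun j => (M i j).den) (Finset.mem_univ j)).trans
      (Finset.dvd_prod_of_mem (fun i => ∏ j, (M i j).den) (Finset.mem_univ i))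
  generalize (∏ i, ∏ j, (M i j).den : ℕ) = d at hpos hdvd
  rw [eq_div_iff (by positivity), Int.cast_det]
  have : ((M.map fun q => (q * (d : ℚ)).num).map fun x : ℤ => (x : ℚ)) = (d : ℚ) • M := by
    ext i j
    obtain ⟨c, hc⟩ := hdvd i j
    have e : M i j * (d : ℚ) = (((M i j).num * c : ℤ) : ℚ) := by
      rw [hc]; push_cast; rw [← mul_assoc, Rat.mul_den_eq_num]
    simp only [Matrix.map_apply, Matrix.smul_apply, smul_eq_mul]
    rw [e, Rat.num_intCast, ← e, mul_comm]
  rw [this, Matrix.det_smul, Fintype.card_fin, mul_comm]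

protected lemma PT.zmod_det {p : α → ℕ} [∀ a, NeZero (p a)]
    {A : (a : α) → Matrix (Fin (n a)) (Fin (n a)) (ZMod (p a))} (hp : PT p)
    (hA : PT (fun a => enc (A a))) : PT (fun a => (A a).det.val) := by
  have h0 : PT (fun a => enc ((A a).map ZMod.val)) := hA.of_enc fun a => by
    rw [enc_D, enc_D, enc_matrix, enc_matrix]
    exact enc_ofFn_congr _ _ fun i => enc_ofFn_congr _ _ fun j => rfl
  have h1 := PT.int_det (PT.matMap (g := fun _ (x : ℕ) => (x : ℤ)) h0 (by fun_prop))
  refine (PT.zmod_intCast hp h1).congr fun a => ?_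
  rw [Int.cast_det]
  congr 2
  ext i j
  simp

protected lemma PT.updateRow {A : (a : α) → Matrix (Fin (m a)) (Fin (n a)) β}
    {i : (a : α) → Fin (m a)} {v : (a : α) → Fin (n a) → β} (hA : PT (fun a => enc (A a)))
    (hi : PT (fun a => (i a : ℕ))) (hv : PT (fun a => enc (v a))) :
    PT (fun a => enc ((A a).updateRow (i a) (v a))) := by
  refine PT.mat (PT.mat_dim hA) (PB.mat_dim hA) (PT.vec_dim hv) (PB.vec_dim hv) ?_
  simp only [Matrix.updateRow_apply]
  exact PT.ite (PT.fin_decide_eq (by fun_prop) (hi.comp PT.id.sigmaFst.sigmaFst))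
    (PT.apply (hv.comp (by fun_prop)) (by fun_prop)) hA.entries

protected lemma PT.rat_adjugate {A : (a : α) → Matrix (Fin (n a)) (Fin (n a)) ℚ}
    (hA : PT (fun a => enc (A a))) : PT (fun a => enc (A a).adjugate) := by
  have hn := PT.mat_dim hA
  have hb := PB.mat_dim hA
  refine PT.mat hn hb hn hb ?_
  simp only [Matrix.adjugate_apply]
  refine PT.rat_det (PT.updateRow (hA.comp (by fun_prop)) (by fun_prop)
    (PT.vec (by fun_prop) (by fun_prop) ?_))
  simp only [Pi.single_apply]
  exact PT.ite (PT.fin_decide_eq (by fun_prop) (by fun_prop)) (PT.const _) (PT.const _)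

protected lemma PT.rat_matInv {A : (a : α) → Matrix (Fin (n a)) (Fin (n a)) ℚ}
    (hA : PT (fun a => enc (A a))) : PT (fun a => enc (A a)⁻¹) := by
  refine (PT.matMap (g := fun a q => ((A a).det)⁻¹ * q) hA.rat_adjugate
    ((hA.rat_det.comp PT.id.fst).ratInv.ratMul PT.id.snd)).congr fun a => ?_
  congr 1
  ext i j
  simp [Matrix.inv_def]

end Mat

end Crest.Agent.Lib.PT
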