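import Crest.Agent.Lib.PT.Basic

/-!
Polynomial-time toolkit: Hoare-style loops, folds, equality, list operations not involving numbers.
-/

set_option autoImplicit false
set_option linter.dupNamespace false

namespace Crest.Agent.Lib.PT

variable {α β γ δ σ : Type} [Enc α] [Enc β] [Enc γ] [Enc δ] [Enc σ]

/-- Hoare-style `while` loop with explicit cost: invariant `Inv`, decreasing measure `μ`. -/
protected lemma TimeF.of_while {f : α → σ} (step : σ → σ) (c : σ → Bool) (ini : α → σ)
    (Inv : α → σ → Prop) (μ : σ → ℕ) {S C : σ → ℕ} {T : α → ℕ} (M : α → ℕ)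
    (hs : TimeF step S) (hc : TimeF c C) (hi : TimeF ini T)
    (h0 : ∀ a, Inv a (ini a))
    (hstep : ∀ a s, Inv a s → c s = true → Inv a (step s) ∧ μ (step s) < μ s)
    (hM : ∀ a s, Inv a s → C s + 5 + S s ≤ M a)
    (hout : ∀ a s, Inv a s → c s = false → s = f a) :
    TimeF f (fun a => T a + (μ (ini a) + 1) * M a) := by
  have key : ∀ a n s, Inv a s → μ s ≤ n → ∃ N, N ≤ n ∧ (∀ i, i < N → c (step^[i] s) = true) ∧
      c (step^[N] s) = false ∧ ∀ i, i ≤ N → Inv a (step^[i] s) := by
    intro a n
    induction n with
    | zero =>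
      intro s hs hμ
      refine ⟨0, le_rfl, fun i hi => absurd hi (by omega), ?_, fun i hi => ?_⟩
      · by_contra h
        have := (hstep a s hs (by simpa using h)).2
        omega
      · obtain rfl : i = 0 := by omega
        exact hs
    | succ n ih =>
      intro s hs hμ
      by_cases h : c s = true
      · obtain ⟨h1, h2⟩ := hstep a s hs h
        obtain ⟨N, hN, h3, h4, h5⟩ := ih (step s) h1 (by omega)
        refine ⟨N + 1, by omega, fun i hi => ?_, h4, fun i hi => ?_⟩
        · cases i with
          | zero => exact h
          | succ i => exact h3 i (by omega)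
        · cases i with
          | zero => exact hs
          | succ i => exact h5 i (by omega)
      · refine ⟨0, by omega, fun i hi => absurd hi (by omega), by simpa using h, fun i hi => ?_⟩
        obtain rfl : i = 0 := by omega
        exact hs
  choose N hN h1 h2 h3 using fun a => key a _ (ini a) (h0 a) le_rfl
  have := hs.whileLoop hc hi N M h1 h2 (fun a i hi => hM a _ (h3 a i hi))
  refine (this.congr fun a => (hout a _ (h3 a _ le_rfl) (h2 a)).symm).mono fun a => ?_
  have := Nat.mul_le_mul_right (M a) (Nat.add_le_add_right (hN a) 1)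
  omega

/-- Hoare-style `while` loop: run `step` while `c` holds, starting from `ini a`, then apply `out`.
The invariant `Inv a` bounds the size of the state, the measure `μ` decreases. -/
protected lemma PT.of_while {f : α → β} (step : σ → σ) (c : σ → Bool) (ini : α → σ)
    (out : σ → β) (Inv : α → σ → Prop) (μ : σ → ℕ) (B : α → ℕ)
    (hs : PT step) (hc : PT c) (hi : PT ini) (ho : PT out)
    (hμ : PB (fun a => μ (ini a))) (hB : PB B)
    (h0 : ∀ a, Inv a (ini a))
    (hstep : ∀ a s, Inv a s → c s = true → Inv a (step s) ∧ μ (step s) < μ s)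
    (hsz : ∀ a s, Inv a s → sz s ≤ B a)
    (hout : ∀ a s, Inv a s → c s = false → out s = f a) : PT f := by
  have key : ∀ a n s, Inv a s → μ s ≤ n → ∃ N, N ≤ n ∧ (∀ i, i < N → c (step^[i] s) = true) ∧
      c (step^[N] s) = false ∧ ∀ i, i ≤ N → Inv a (step^[i] s) := by
    intro a n
    induction n with
    | zero =>
      intro s hs hμ
      refine ⟨0, le_rfl, fun i hi => absurd hi (by omega), ?_, fun i hi => ?_⟩
      · by_contra h
        have := (hstep a s hs (by simpa using h)).2
        omega
      · obtain rfl : i = 0 := by omega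
        exact hs
    | succ n ih =>
      intro s hs hμ
      by_cases h : c s = true
      · obtain ⟨h1, h2⟩ := hstep a s hs h
        obtain ⟨N, hN, h3, h4, h5⟩ := ih (step s) h1 (by omega)
        refine ⟨N + 1, by omega, fun i hi => ?_, h4, fun i hi => ?_⟩
        · cases i with
          | zero => exact h
          | succ i => exact h3 i (by omega)
        · cases i with
          | zero => exact hs
          | succ i => exact h5 i (by omega)
      · refine ⟨0, by omega, fun i hi => absurd hi (by omega), by simpa using h, fun i hi => ?_⟩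
        obtain rfl : i = 0 := by omega
        exact hs
  choose N hN h1 h2 h3 using fun a => key a _ (ini a) (h0 a) le_rfl
  have := hs.whileLoop hc hi (hμ.of_le hN) hB h1 h2 (fun a i hi => hsz a _ (h3 a i hi))
  exact (ho.comp this).congr fun a => (hout a _ (h3 a _ le_rfl) (h2 a)).symm

/-! ### basic list operations -/

@[fun_prop] protected lemma PT.cons {x : α → β} {l : α → List β} (hx : PT x) (hl : PT l) :
    PT (fun a => x a :: l a) := (hx.pair hl).of_enc fun _ => rfl

@[fun_prop] protected lemma PT.tail {l : α → List β} (hl : PT l) : PT (fun a => (l a).tail) :=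
  hl.enc.cdr.of_enc fun a => by cases l a <;> rfl

@[fun_prop] protected lemma PT.head? {l : α → List β} (hl : PT l) : PT (fun a => (l a).head?) :=
  (hl.enc.iteNil (PT.const D.nil) ((PT.const D.nil).dcons hl.enc.car)).of_enc
    fun a => by cases l a <;> rfl

@[fun_prop] protected lemma PT.headD {l : α → List β} {d : α → β} (hl : PT l) (hd : PT d) :
    PT (fun a => (l a).headD (d a)) :=
  (hl.head?.optionGetD hd).congr fun a => by cases l a <;> rfl

@[fun_prop] protected lemma PT.headI [Inhabited β] {l : α → List β} (hl : PT l) :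
    PT (fun a => (l a).headI) :=
  (hl.headD (PT.const default)).congr fun a => by cases l a <;> rfl

@[fun_prop] protected lemma PT.isEmpty {l : α → List β} (hl : PT l) :
    PT (fun a => (l a).isEmpty) :=
  hl.head?.isNone.congr fun a => by cases l a <;> rfl

@[fun_prop] protected lemma PT.listCasesOn {l : α → List β} {d : α → γ}
    {g : α → β → List β → γ} (hl : PT l) (hd : PT d)
    (hg : PT (fun p : α × β × List β => g p.1 p.2.1 p.2.2)) :
    PT (fun a => (List.casesOn (l a) (d a) (g a) : γ)) := by
  have h1 : PT (fun p : α × β => g p.1 p.2 (l p.1).tail) :=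
    hg.comp (f := fun p : α × β => (p.1, p.2, (l p.1).tail)) (by fun_prop)
  exact (hl.head?.optionElim (g := fun a x => g a x (l a).tail) hd h1).congr
    fun a => by cases l a <;> rfl

/-! ### folds -/

/-- Left fold whose partial results have polynomial size. -/
protected lemma PT.foldl {f : α → γ → β → γ} {l : α → List β} {ini : α → γ} (B : α → ℕ)
    (hf : PT (fun p : α × γ × β => f p.1 p.2.1 p.2.2)) (hl : PT l) (hi : PT ini) (hB : PB B)
    (hsz : ∀ a i, sz (((l a).take i).foldl (f a) (ini a)) ≤ B a) :
    PT (fun a => (l a).foldl (f a) (ini a)) := by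
  have h1 : PT (fun p : (α × List β × γ) × β => f p.1.1 p.1.2.2 p.2) :=
    hf.comp (f := fun p : (α × List β × γ) × β => (p.1.1, p.1.2.2, p.2)) (by fun_prop)
  refine PT.of_while (σ := α × List β × γ)
    (fun s => (s.1, s.2.1.tail, s.2.1.head?.elim s.2.2 (fun x => f s.1 s.2.2 x)))
    (fun s => !s.2.1.isEmpty) (fun a => (a, l a, ini a)) (fun s => s.2.2)
    (fun a s => s.1 = a ∧ ∃ i, s.2.1 = (l a).drop i ∧ s.2.2 = ((l a).take i).foldl (f a) (ini a))
    (fun s => s.2.1.length) (fun a => sz a + sz (l a) + B a + 2)
    (by fun_prop) (by fun_prop) (by fun_prop) (by fun_prop) (by fun_prop) (by fun_prop)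
    (fun a => ⟨rfl, 0, by simp, by simp⟩) ?_ ?_ ?_
  · rintro a ⟨a', m, acc⟩ ⟨rfl, i, h2, h3⟩ hc
    simp only at h2 h3 hc
    cases m with
    | nil => simp at hc
    | cons x m =>
      have hi : i < (l a').length := by
        by_contra h
        rw [List.drop_of_length_le (by omega)] at h2
        simp at h2
      rw [List.drop_eq_getElem_cons hi] at h2
      simp only [List.cons.injEq] at h2
      refine ⟨⟨rfl, i + 1, by simpa using h2.2, ?_⟩, by simp⟩
      rw [List.take_succ_eq_append_getElem hi, List.foldl_append, ← h3, ← h2.1]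
      simp
  · rintro a ⟨a', m, acc⟩ ⟨rfl, i, h2, h3⟩
    simp only at h2 h3
    have := sz_drop_le i (l a')
    have := hsz a' i
    subst h2 h3
    simp only [sz_pair]
    omega
  · rintro a ⟨a', m, acc⟩ ⟨rfl, i, h2, h3⟩ hc
    simp only at h2 h3 hc
    have : m = [] := by simpa using hc
    subst this
    rw [h3, List.take_of_length_le (List.drop_eq_nil_iff.1 h2.symm)]

/-- Left fold with an invariant bounding the size of the accumulator. -/
protected lemma PT.foldl_inv {f : α → γ → β → γ} {l : α → List β} {ini : α → γ}
    (Inv : α → γ → Prop) (B : α → ℕ)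
    (hf : PT (fun p : α × γ × β => f p.1 p.2.1 p.2.2)) (hl : PT l) (hi : PT ini) (hB : PB B)
    (h0 : ∀ a, Inv a (ini a)) (hstep : ∀ a acc, ∀ x ∈ l a, Inv a acc → Inv a (f a acc x))
    (hsz : ∀ a acc, Inv a acc → sz acc ≤ B a) :
    PT (fun a => (l a).foldl (f a) (ini a)) := by
  refine PT.foldl B hf hl hi hB fun a i => hsz a _ ?_
  have : ∀ (m : List β) (acc : γ), (∀ x ∈ m, x ∈ l a) → Inv a acc → Inv a (m.foldl (f a) acc) := by
    intro m
    induction m with
    | nil => intro acc _ h; exact h
    | cons x m ih =>
      intro acc hm h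
      exact ih _ (fun y hy => hm y (by simp [hy])) (hstep a acc x (hm x (by simp)) h)
  exact this _ _ (fun x hx => List.mem_of_mem_take hx) (h0 a)

/-- Left fold in which each round increases the size of the accumulator by at most `G (a, x)`. -/
protected lemma PT.foldl_add {f : α → γ → β → γ} {l : α → List β} {ini : α → γ}
    (G : α × β → ℕ)
    (hf : PT (fun p : α × γ × β => f p.1 p.2.1 p.2.2)) (hl : PT l) (hi : PT ini) (hG : PB G)
    (h : ∀ a acc, ∀ x ∈ l a, sz (f a acc x) ≤ sz acc + G (a, x)) :
    PT (fun a => (l a).foldl (f a) (ini a)) := by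
  obtain ⟨c, k, hG⟩ := hG.exists_bound
  refine PT.foldl (fun a => sz (ini a) + (l a).length * (c * (sz a + sz (l a) + 1) ^ k))
    hf hl hi (by fun_prop) fun a i => ?_
  have : ∀ (m : List β) (acc : γ), (∀ x ∈ m, x ∈ l a) →
      sz (m.foldl (f a) acc) ≤ sz acc + m.length * (c * (sz a + sz (l a) + 1) ^ k) := by
    intro m
    induction m with
    | nil => intro acc _; simp
    | cons x m ih =>
      intro acc hm
      have h1 := ih (f a acc x) (fun y hy => hm y (by simp [hy]))
      have hx := hm x (by simp)
      have h2 := h a acc x hx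
      have h3 := hG (a, x) (sz a + sz (l a) + 1) (by have := sz_le_of_mem hx; simp; omega)
      simp only [List.foldl_cons, List.length_cons]
      nlinarith
  refine (this _ _ (fun x hx => List.mem_of_mem_take hx)).trans ?_
  have : ((l a).take i).length ≤ (l a).length := by simp
  have := Nat.mul_le_mul_right (c * (sz a + sz (l a) + 1) ^ k) this
  omega

@[fun_prop] protected lemma PT.reverse {l : α → List β} (hl : PT l) :
    PT (fun a => (l a).reverse) := by
  have := PT.foldl_add (f := fun (_ : α) (acc : List β) (x : β) => x :: acc) (l := l)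
    (ini := fun _ => []) (fun p => sz p.2 + 1) (by fun_prop) hl (by fun_prop) (by fun_prop)
    (fun a acc x _ => by simp; omega)
  exact this.congr fun a => by simp

/-- Right fold whose partial results have polynomial size. -/
protected lemma PT.foldr {f : α → β → γ → γ} {l : α → List β} {ini : α → γ} (B : α → ℕ)
    (hf : PT (fun p : α × β × γ => f p.1 p.2.1 p.2.2)) (hl : PT l) (hi : PT ini) (hB : PB B)
    (hsz : ∀ a i, sz (((l a).drop i).foldr (f a) (ini a)) ≤ B a) :
    PT (fun a => (l a).foldr (f a) (ini a)) := by
  have := PT.foldl (f := fun a acc x => f a x acc) (l := fun a => (l a).reverse) (ini := ini) B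
    (hf.comp (f := fun p : α × γ × β => (p.1, p.2.2, p.2.1)) (by fun_prop)) hl.reverse hi hB
    (fun a i => by rw [List.take_reverse, List.foldl_reverse]; exact hsz a _)
  exact this.congr fun a => by rw [List.foldl_reverse]

/-- Right fold with an invariant bounding the size of the accumulator. -/
protected lemma PT.foldr_inv {f : α → β → γ → γ} {l : α → List β} {ini : α → γ}
    (Inv : α → γ → Prop) (B : α → ℕ)
    (hf : PT (fun p : α × β × γ => f p.1 p.2.1 p.2.2)) (hl : PT l) (hi : PT ini) (hB : PB B)
    (h0 : ∀ a, Inv a (ini a)) (hstep : ∀ a acc, ∀ x ∈ l a, Inv a acc → Inv a (f a x acc))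
    (hsz : ∀ a acc, Inv a acc → sz acc ≤ B a) :
    PT (fun a => (l a).foldr (f a) (ini a)) := by
  have := PT.foldl_inv (f := fun a acc x => f a x acc) (l := fun a => (l a).reverse) (ini := ini)
    Inv B (hf.comp (f := fun p : α × γ × β => (p.1, p.2.2, p.2.1)) (by fun_prop)) hl.reverse hi hB
    h0 (fun a acc x hx => hstep a acc x (List.mem_reverse.1 hx)) hsz
  exact this.congr fun a => by rw [List.foldl_reverse]

/-- Right fold in which each round increases the size of the accumulator by at most `G (a, x)`. -/
protected lemma PT.foldr_add {f : α → β → γ → γ} {l : α → List β} {ini : α → γ}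
    (G : α × β → ℕ)
    (hf : PT (fun p : α × β × γ => f p.1 p.2.1 p.2.2)) (hl : PT l) (hi : PT ini) (hG : PB G)
    (h : ∀ a acc, ∀ x ∈ l a, sz (f a x acc) ≤ sz acc + G (a, x)) :
    PT (fun a => (l a).foldr (f a) (ini a)) := by
  have := PT.foldl_add (f := fun a acc x => f a x acc) (l := fun a => (l a).reverse) (ini := ini)
    G (hf.comp (f := fun p : α × γ × β => (p.1, p.2.2, p.2.1)) (by fun_prop)) hl.reverse hi hG
    (fun a acc x hx => h a acc x (List.mem_reverse.1 hx))
  exact this.congr fun a => by rw [List.foldl_reverse]

@[fun_prop] protected lemma PT.append {l m : α → List β} (hl : PT l) (hm : PT m) :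
    PT (fun a => l a ++ m a) := by
  have := PT.foldr_add (f := fun (_ : α) (x : β) (acc : List β) => x :: acc) (l := l)
    (ini := m) (fun p => sz p.2 + 1) (by fun_prop) hl hm (by fun_prop)
    (fun a acc x _ => by simp; omega)
  exact this.congr fun a => by simp

@[fun_prop] protected lemma PT.concat {l : α → List β} {x : α → β} (hl : PT l) (hx : PT x) :
    PT (fun a => (l a).concat (x a)) :=
  (hl.append (hx.cons (PT.const []))).congr fun a => by simp

@[fun_prop] protected lemma PT.flatMap {l : α → List β} {g : α → β → List γ} (hl : PT l)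
    (hg : PT (fun p : α × β => g p.1 p.2)) : PT (fun a => (l a).flatMap (g a)) := by
  have h1 : PT (fun p : α × β × List γ => g p.1 p.2.1) :=
    hg.comp (f := fun p : α × β × List γ => (p.1, p.2.1)) (by fun_prop)
  have := PT.foldr_add (f := fun (a : α) (x : β) (acc : List γ) => g a x ++ acc) (l := l)
    (ini := fun _ => []) (fun p => sz (g p.1 p.2)) (by fun_prop) hl (by fun_prop) (by fun_prop)
    (fun a acc x _ => by have := sz_append_le (g a x) acc; simp only; omega)
  exact this.congr fun a => by
    induction l a with
    | nil => simp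
    | cons x m ih => simp [ih]

@[fun_prop] protected lemma PT.map {l : α → List β} {g : α → β → γ} (hl : PT l)
    (hg : PT (fun p : α × β => g p.1 p.2)) : PT (fun a => (l a).map (g a)) :=
  (hl.flatMap (g := fun a x => [g a x]) (by fun_prop)).congr fun a => by
    induction l a with
    | nil => simp
    | cons x m ih => simp [ih]

@[fun_prop] protected lemma PT.flatten {l : α → List (List β)} (hl : PT l) :
    PT (fun a => (l a).flatten) :=
  (hl.flatMap (g := fun _ x => x) (by fun_prop)).congr fun a => by simp [List.flatMap]

@[fun_prop] protected lemma PT.optionToList {o : α → Option β} (ho : PT o) :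
    PT (fun a => (o a).toList) :=
  (ho.optionElim (g := fun _ x => [x]) (PT.const []) (by fun_prop)).congr
    fun a => by cases o a <;> rfl

@[fun_prop] protected lemma PT.filterMap {l : α → List β} {g : α → β → Option γ} (hl : PT l)
    (hg : PT (fun p : α × β => g p.1 p.2)) : PT (fun a => (l a).filterMap (g a)) :=
  (hl.flatMap (g := fun a x => (g a x).toList) (by fun_prop)).congr fun a => by
    rw [List.filterMap_eq_flatMap_toList]

@[fun_prop] protected lemma PT.filter {l : α → List β} {g : α → β → Bool} (hl : PT l)
    (hg : PT (fun p : α × β => g p.1 p.2)) : PT (fun a => (l a).filter (g a)) :=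
  (hl.flatMap (g := fun a x => cond (g a x) [x] []) (by fun_prop)).congr fun a => by
    induction l a with
    | nil => simp
    | cons x m ih => cases h : g a x <;> simp [h, ih]

@[fun_prop] protected lemma PT.all {l : α → List β} {g : α → β → Bool} (hl : PT l)
    (hg : PT (fun p : α × β => g p.1 p.2)) : PT (fun a => (l a).all (g a)) :=
  (hl.filter (g := fun a x => !g a x) (by fun_prop)).isEmpty.congr fun a => by
    induction l a with
    | nil => simp
    | cons x m ih => cases h : g a x <;> simp [h, ih]

@[fun_prop] protected lemma PT.any {l : α → List β} {g : α → β → Bool} (hl : PT l)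
    (hg : PT (fun p : α × β => g p.1 p.2)) : PT (fun a => (l a).any (g a)) :=
  (hl.filter hg).isEmpty.not.congr fun a => by
    induction l a with
    | nil => simp
    | cons x m ih => cases h : g a x <;> simp [h, ih]

@[fun_prop] protected lemma PT.find? {l : α → List β} {g : α → β → Bool} (hl : PT l)
    (hg : PT (fun p : α × β => g p.1 p.2)) : PT (fun a => (l a).find? (g a)) :=
  (hl.filter hg).head?.congr fun a => by simp

@[fun_prop] protected lemma PT.findSome? {l : α → List β} {g : α → β → Option γ} (hl : PT l)
    (hg : PT (fun p : α × β => g p.1 p.2)) : PT (fun a => (l a).findSome? (g a)) :=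
  (hl.filterMap hg).head?.congr fun a => by simp

@[fun_prop] protected lemma PT.getLast? {l : α → List β} (hl : PT l) :
    PT (fun a => (l a).getLast?) := hl.reverse.head?.congr fun a => by simp

@[fun_prop] protected lemma PT.getLastD {l : α → List β} {d : α → β} (hl : PT l) (hd : PT d) :
    PT (fun a => (l a).getLastD (d a)) :=
  (hl.getLast?.optionGetD hd).congr fun a => by simp

@[fun_prop] protected lemma PT.dropLast {l : α → List β} (hl : PT l) :
    PT (fun a => (l a).dropLast) := hl.reverse.tail.reverse.congr fun a => by simp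

@[fun_prop] protected lemma PT.decide_forall_mem {l : α → List β} {P : α → β → Prop}
    [∀ a x, Decidable (P a x)] [∀ a, Decidable (∀ x ∈ l a, P a x)] (hl : PT l)
    (hP : PT (fun p : α × β => decide (P p.1 p.2))) :
    PT (fun a => decide (∀ x ∈ l a, P a x)) :=
  (hl.all (g := fun a x => decide (P a x)) hP).congr fun a => by
    rw [Bool.eq_iff_iff]; simp

@[fun_prop] protected lemma PT.decide_exists_mem {l : α → List β} {P : α → β → Prop}
    [∀ a x, Decidable (P a x)] [∀ a, Decidable (∃ x ∈ l a, P a x)] (hl : PT l)
    (hP : PT (fun p : α × β => decide (P p.1 p.2))) :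
    PT (fun a => decide (∃ x ∈ l a, P a x)) :=
  (hl.any (g := fun a x => decide (P a x)) hP).congr fun a => by
    rw [Bool.eq_iff_iff]; simp

@[fun_prop] protected lemma PT.zip {l : α → List β} {m : α → List γ} (hl : PT l) (hm : PT m) :
    PT (fun a => (l a).zip (m a)) := by
  have h := PT.foldl_add
    (f := fun (_ : α) (acc : List γ × List (β × γ)) (x : β) =>
      (acc.1.tail, acc.1.head?.elim acc.2 (fun y => (x, y) :: acc.2)))
    (l := l) (ini := fun a => (m a, [])) (fun p => sz p.2 + 1) (by fun_prop) hl (by fun_prop)
    (by fun_prop) (by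
      rintro a ⟨u, v⟩ x _
      cases u <;> simp
      omega)
  refine h.snd.reverse.congr fun a => ?_
  have : ∀ (l : List β) (u : List γ) (v : List (β × γ)),
      (l.foldl (fun (acc : List γ × List (β × γ)) (x : β) =>
        (acc.1.tail, acc.1.head?.elim acc.2 (fun y => (x, y) :: acc.2))) (u, v)).2
        = (l.zip u).reverse ++ v := by
    intro l
    induction l with
    | nil => intro u v; simp
    | cons x l ih =>
      intro u v
      cases u with
      | nil => simp [ih]
      | cons y u => simp [ih]
  rw [this]; simp

@[fun_prop] protected lemma PT.zipWith {l : α → List β} {m : α → List γ} {g : α → β → γ → δ}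
    (hl : PT l) (hm : PT m) (hg : PT (fun p : α × β × γ => g p.1 p.2.1 p.2.2)) :
    PT (fun a => List.zipWith (g a) (l a) (m a)) :=
  ((hl.zip hm).map (g := fun a p => g a p.1 p.2) hg).congr fun a => by
    rw [List.map_zip_eq_zipWith]; rfl

@[fun_prop] protected lemma PT.product {l : α → List β} {m : α → List γ} (hl : PT l)
    (hm : PT m) : PT (fun a => (l a).product (m a)) :=
  (hl.flatMap (g := fun a x => (m a).map (fun y => (x, y))) (by fun_prop)).congr fun _ => rfl

@[fun_prop] protected lemma PT.sprod {l : α → List β} {m : α → List γ} (hl : PT l)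
    (hm : PT m) : PT (fun a => (l a ×ˢ m a : List (β × γ))) := hl.product hm

@[fun_prop] protected lemma PT.dropWhile {l : α → List β} {g : α → β → Bool} (hl : PT l)
    (hg : PT (fun p : α × β => g p.1 p.2)) : PT (fun a => (l a).dropWhile (g a)) := by
  have h1 : PT (fun p : (α × List β) × β => g p.1.1 p.2) :=
    hg.comp (f := fun p : (α × List β) × β => (p.1.1, p.2)) (by fun_prop)
  refine PT.of_while (σ := α × List β) (fun s => (s.1, s.2.tail))
    (fun s => s.2.head?.elim false (fun x => g s.1 x)) (fun a => (a, l a)) (fun s => s.2)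
    (fun a s => s.1 = a ∧ s.2.dropWhile (g a) = (l a).dropWhile (g a) ∧ sz s.2 ≤ sz (l a))
    (fun s => s.2.length) (fun a => sz a + sz (l a) + 1)
    (by fun_prop) (by fun_prop) (by fun_prop) (by fun_prop) (by fun_prop) (by fun_prop)
    (fun a => ⟨rfl, rfl, le_rfl⟩) ?_ ?_ ?_
  · rintro a ⟨a', m⟩ ⟨rfl, h2, h3⟩ hc
    cases m with
    | nil => simp at hc
    | cons x m =>
      simp only [List.head?_cons, Option.elim_some] at hc
      simp only [List.dropWhile_cons, hc, if_true, sz_cons] at h2 h3
      exact ⟨⟨rfl, h2, by simp; omega⟩, by simp⟩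
  · rintro a ⟨a', m⟩ ⟨rfl, h2, h3⟩
    simp only at h3
    simp only [sz_pair]; omega
  · rintro a ⟨a', m⟩ ⟨rfl, h2, h3⟩ hc
    rw [← h2]
    cases m with
    | nil => simp
    | cons x m =>
      simp only [List.head?_cons, Option.elim_some] at hc
      simp [hc]

@[fun_prop] protected lemma PT.takeWhile {l : α → List β} {g : α → β → Bool} (hl : PT l)
    (hg : PT (fun p : α × β => g p.1 p.2)) : PT (fun a => (l a).takeWhile (g a)) := by
  have h1 : PT (fun p : α × β × List β => g p.1 p.2.1) :=
    hg.comp (f := fun p : α × β × List β => (p.1, p.2.1)) (by fun_prop)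
  have := PT.foldr_add (f := fun (a : α) (x : β) (acc : List β) => cond (g a x) (x :: acc) [])
    (l := l) (ini := fun _ => []) (fun p => sz p.2 + 1) (by fun_prop) hl (by fun_prop)
    (by fun_prop) (fun a acc x _ => by
      have := sz_pos acc
      cases g a x <;> simp <;> omega)
  exact this.congr fun a => by
    induction l a with
    | nil => simp
    | cons x m ih => cases h : g a x <;> simp [h, ih]

/-! ### equality -/

private def eqStep (s : List (D × D) × Bool) : List (D × D) × Bool :=
  s.1.head?.elim s (fun p =>
    D.iteNil p.1 (D.iteNil p.2 (s.1.tail, s.2) ([], false))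
      (D.iteNil p.2 ([], false) ((p.1.car, p.2.car) :: (p.1.cdr, p.2.cdr) :: s.1.tail, s.2)))

lemma pt_eqD : PT (fun p : D × D => decide (p.1 = p.2)) := by
  refine PT.of_while (σ := List (D × D) × Bool) eqStep (fun s => !s.1.isEmpty)
    (fun p => ([p], true)) (fun s => s.2)
    (fun p s => ((s.2 = true ∧ ∀ q ∈ s.1, q.1 = q.2) ↔ p.1 = p.2) ∧
      (s.1.map (fun q => sz q.1 + sz q.2)).sum ≤ sz p)
    (fun s => (s.1.map (fun q => sz q.1 + sz q.2)).sum) (fun p => 3 * sz p + 7)
    (by unfold eqStep; fun_prop) (by fun_prop) (by fun_prop) (by fun_prop)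
    (PB.sz_id.of_le fun p => by simp [sz_prod p]) (by have := @PB.sz_id (D × D) _; fun_prop)
    (fun p => ⟨by simp, by simp [sz_prod p]⟩) ?_ ?_ ?_
  · rintro p ⟨st, ok⟩ ⟨h1, h2⟩ hc
    cases st with
    | nil => simp at hc
    | cons q st =>
      obtain ⟨u, v⟩ := q
      have hu := u.size_pos
      have hv := v.size_pos
      simp only [List.map_cons, List.sum_cons, List.mem_cons, forall_eq_or_imp, sz_D] at h1 h2 ⊢
      rw [← h1]
      cases u <;> cases v <;> simp [eqStep] at h2 ⊢ <;> (try omega)
      refine ⟨⟨by tauto, by omega⟩, by omega⟩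
  · rintro p ⟨st, ok⟩ ⟨-, h2⟩
    have : ∀ l : List (D × D), sz l ≤ 3 * (l.map (fun q => sz q.1 + sz q.2)).sum + 1 := by
      intro l
      induction l with
      | nil => simp
      | cons q l ih =>
        have := sz_pos q.1
        simp only [sz_cons, List.map_cons, List.sum_cons, sz_prod q]
        omega
    have := this st
    simp only [sz_pair, sz_bool] at h2 ⊢
    omega
  · rintro p ⟨st, ok⟩ ⟨h1, -⟩ hc
    have : st = [] := by simpa using hc
    subst this
    rw [Bool.eq_iff_iff]
    simpa using h1

@[fun_prop] protected lemma PT.decide_eq {f g : α → β} [∀ a, Decidable (f a = g a)] (hf : PT f)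
    (hg : PT g) : PT (fun a => decide (f a = g a)) :=
  (pt_eqD.comp (hf.enc.pair hg.enc)).congr fun a => by
    simp only [Enc.inj.eq_iff]

@[fun_prop] protected lemma PT.decide_ne {f g : α → β} [∀ a, Decidable (f a ≠ g a)] (hf : PT f)
    (hg : PT g) : PT (fun a => decide (f a ≠ g a)) := by
  classical
  exact (hf.decide_eq hg).not.congr fun a => by by_cases h : f a = g a <;> simp [h]

@[fun_prop] protected lemma PT.beq [BEq β] [LawfulBEq β] {f g : α → β} (hf : PT f)
    (hg : PT g) : PT (fun a => f a == g a) := by
  classical
  exact (hf.decide_eq hg).congr fun a => by by_cases h : f a = g a <;> simp [h]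

@[fun_prop] protected lemma PT.bne [BEq β] [LawfulBEq β] {f g : α → β} (hf : PT f)
    (hg : PT g) : PT (fun a => f a != g a) := (hf.beq hg).not

@[fun_prop] protected lemma PT.decide_mem {x : α → β} {l : α → List β}
    [∀ a, Decidable (x a ∈ l a)] (hx : PT x) (hl : PT l) : PT (fun a => decide (x a ∈ l a)) := by
  classical
  exact (hl.any (g := fun a y => decide (y = x a)) (by fun_prop)).congr fun a => by
    rw [Bool.eq_iff_iff]; simp

@[fun_prop] protected lemma PT.contains [BEq β] [LawfulBEq β] {x : α → β} {l : α → List β}
    (hx : PT x) (hl : PT l) : PT (fun a => (l a).contains (x a)) := by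
  classical
  exact (hx.decide_mem hl).congr fun a => by rw [Bool.eq_iff_iff]; simp

@[fun_prop] protected lemma PT.lookup [BEq β] [LawfulBEq β] {x : α → β} {l : α → List (β × γ)}
    (hx : PT x) (hl : PT l) : PT (fun a => (l a).lookup (x a)) :=
  ((hl.find? (g := fun a p => x a == p.1) (by fun_prop)).optionMap (g := fun _ p => p.2)
    (by fun_prop)).congr fun a => by
    induction l a with
    | nil => simp
    | cons p m ih =>
      obtain ⟨u, v⟩ := p
      cases h : x a == u <;> simp [List.lookup, h, ih]

@[fun_prop] protected lemma PT.dedup [DecidableEq β] {l : α → List β} (hl : PT l) :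
    PT (fun a => (l a).dedup) := by
  have := PT.foldr_add (f := fun (_ : α) (x : β) (acc : List β) => if x ∈ acc then acc else x :: acc)
    (l := l) (ini := fun _ => []) (fun p => sz p.2 + 1) (by fun_prop) hl (by fun_prop)
    (by fun_prop) (fun a acc x _ => by split_ifs <;> simp; omega)
  exact this.congr fun a => by
    induction l a with
    | nil => simp
    | cons x m ih =>
      rw [List.foldr_cons, ← ih, List.dedup_cons']

@[fun_prop] protected lemma PT.decide_nodup {l : α → List β} [∀ a, Decidable (l a).Nodup]
    (hl : PT l) : PT (fun a => decide (l a).Nodup) := by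
  classical
  exact (hl.dedup.decide_eq hl).congr fun a => by simp [List.dedup_eq_self]

/-- Every map out of a finite type is polynomial time. -/
protected lemma PT.of_finite [Finite α] (f : α → β) : PT f := by
  classical
  have := Fintype.ofFinite α
  have h : PT (fun a : α => ((Finset.univ.toList.map (fun x => (x, enc (f x)))).lookup a).getD
      D.nil) := by fun_prop
  refine h.of_enc fun a => ?_
  have : ∀ l : List α, a ∈ l → (l.map (fun x => (x, enc (f x)))).lookup a = some (enc (f a)) := by
    intro l
    induction l with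
    | nil => simp
    | cons x l ih =>
      intro hx
      by_cases h : a = x
      · subst h; simp
      · have h' : (a == x) = false := by simpa using h
        simp only [List.map_cons, List.lookup, h']
        exact ih (by simpa [h] using hx)
  rw [this _ (by simp)]
  rfl

/-- A fixed map on a finite type applied to a polynomial-time argument. -/
protected lemma PT.finite_comp [Finite β] (f : β → γ) {x : α → β} (hx : PT x) :
    PT (fun a => f (x a)) := (PT.of_finite f).comp hx

end Crest.Agent.Lib.PT
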