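import Crest.Agent.Lib.PT.List

/-!
Polynomial-time toolkit: binary arithmetic on natural numbers, counting loops, list operations
involving numbers.

A number `n a` with `PT n` and `PB n` may be used as a loop counter (`PT.range`, `PT.iterate`).
-/

set_option autoImplicit false
set_option linter.dupNamespace false

namespace Crest.Agent.Lib.PT

variable {α β γ δ σ : Type} [Enc α] [Enc β] [Enc γ] [Enc δ] [Enc σ]

@[fun_prop] protected lemma PT.bits {n : α → ℕ} (hn : PT n) : PT (fun a => (n a).bits) :=
  hn.of_enc fun _ => rfl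

@[fun_prop] protected lemma PT.bodd {n : α → ℕ} (hn : PT n) : PT (fun a => (n a).bodd) :=
  hn.bits.headI.congr fun a => Nat.bodd_eq_bits_head (n a)

@[fun_prop] protected lemma PT.div2 {n : α → ℕ} (hn : PT n) : PT (fun a => (n a).div2) :=
  hn.bits.tail.of_enc fun a => by rw [enc_nat, Nat.div2_bits_eq_tail]

@[fun_prop] protected lemma PT.bit {b : α → Bool} {n : α → ℕ} (hb : PT b) (hn : PT n) :
    PT (fun a => Nat.bit (b a) (n a)) := by
  have h : PT (fun a => if n a = 0 ∧ b a = false then [] else b a :: (n a).bits) := by fun_prop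
  refine h.of_enc fun a => ?_
  rw [enc_nat]
  split_ifs with h1
  · rw [h1.1, h1.2]; rfl
  · rw [Nat.bits_append_bit]
    intro h2
    by_contra h3
    exact h1 ⟨h2, by simpa using h3⟩

lemma sz_bit_le (b : Bool) (n : ℕ) : sz (Nat.bit b n) ≤ sz n + 6 := by
  have : Nat.size (Nat.bit b n) ≤ Nat.size n + 1 := by
    rw [Nat.size_le, pow_succ]
    have := Nat.lt_size_self n
    cases b <;> simp [Nat.bit_val] <;> omega
  rw [sz_nat, sz_nat]; omega

@[fun_prop] protected lemma PT.ofBits {l : α → List Bool} (hl : PT l) :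
    PT (fun a => ofBits (l a)) :=
  PT.foldr_add (f := fun (_ : α) (b : Bool) (n : ℕ) => Nat.bit b n) (l := l) (ini := fun _ => 0)
    (fun _ => 6) (by fun_prop) hl (by fun_prop) (by fun_prop) (fun _ acc x _ => sz_bit_le x acc)

@[fun_prop] protected lemma PT.toNat {b : α → Bool} (hb : PT b) : PT (fun a => (b a).toNat) :=
  PT.finite_comp _ hb

lemma ofBits_append_singleton (l : List Bool) (b : Bool) :
    ofBits (l ++ [b]) = ofBits l + 2 ^ l.length * b.toNat := by
  induction l with
  | nil => cases b <;> simp [Nat.bit_val]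
  | cons x l ih => simp [ih, Nat.bit_val, pow_succ]; ring

lemma ofBits_lt (l : List Bool) : ofBits l < 2 ^ l.length := by
  induction l with
  | nil => simp
  | cons x l ih => cases x <;> simp [Nat.bit_val, pow_succ] <;> omega

lemma size_div2 (n : ℕ) : Nat.size n.div2 = Nat.size n - 1 := by
  rw [← Nat.size_eq_bits_len, ← Nat.size_eq_bits_len, Nat.div2_bits_eq_tail, List.length_tail]

lemma pt_add : PT (fun p : ℕ × ℕ => p.1 + p.2) := by
  refine PT.of_while (σ := ℕ × ℕ × Bool × List Bool)
    (fun s => (s.1.div2, s.2.1.div2,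
      (s.1.bodd && s.2.1.bodd || s.2.2.1 && (s.1.bodd || s.2.1.bodd)),
      xor (xor s.1.bodd s.2.1.bodd) s.2.2.1 :: s.2.2.2))
    (fun s => decide (s.1 ≠ 0 ∨ s.2.1 ≠ 0 ∨ s.2.2.1 = true))
    (fun p => (p.1, p.2, false, [])) (fun s => ofBits s.2.2.2.reverse)
    (fun p s => ofBits s.2.2.2.reverse + 2 ^ s.2.2.2.length * (s.1 + s.2.1 + s.2.2.1.toNat)
        = p.1 + p.2 ∧ s.1 ≤ p.1 ∧ s.2.1 ≤ p.2 ∧
        s.2.2.2.length + (2 * (s.1.size + s.2.1.size) + s.2.2.1.toNat)
          ≤ 2 * (p.1.size + p.2.size))
    (fun s => 2 * (s.1.size + s.2.1.size) + s.2.2.1.toNat)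
    (fun p => sz p.1 + sz p.2 + 12 * (p.1.size + p.2.size) + 9)
    (by fun_prop) (by fun_prop) (by fun_prop) (by fun_prop) (by simp only; fun_prop) (by fun_prop)
    (fun p => by simp) ?_ ?_ ?_
  · rintro p ⟨x, y, c, acc⟩ ⟨h1, h2, h3, h4⟩ hc
    simp only [decide_eq_true_eq] at h1 h2 h3 h4 hc ⊢
    have hx := Nat.bodd_add_div2 x
    have hy := Nat.bodd_add_div2 y
    have hsx := size_div2 x
    have hsy := size_div2 y
    have hx0 : x.size = 0 ↔ x = 0 := Nat.size_eq_zero
    have hy0 : y.size = 0 ↔ y = 0 := Nat.size_eq_zero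
    have key : 2 * (x.div2.size + y.div2.size)
        + (x.bodd && y.bodd || c && (x.bodd || y.bodd)).toNat
        < 2 * (x.size + y.size) + c.toNat := by
      by_cases h : x = 0 ∧ y = 0
      · obtain ⟨rfl, rfl⟩ := h
        simp_all
      · have := Bool.toNat_le (x.bodd && y.bodd || c && (x.bodd || y.bodd))
        omega
    refine ⟨⟨?_, by omega, by omega, by simp only [List.length_cons]; omega⟩, key⟩
    rw [← h1, List.reverse_cons, ofBits_append_singleton, List.length_reverse, List.length_cons,
      pow_succ, add_assoc, mul_assoc, ← mul_add]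
    congr 2
    revert hx hy
    cases x.bodd <;> cases y.bodd <;> cases c <;> simp <;> omega
  · rintro p ⟨x, y, c, acc⟩ ⟨h1, h2, h3, h4⟩
    have := sz_nat_mono h2
    have := sz_nat_mono h3
    simp only [sz_pair, sz_bool, sz_boolList] at *
    omega
  · rintro p ⟨x, y, c, acc⟩ ⟨h1, -⟩ hc
    simp only [ne_eq, decide_eq_false_iff_not, not_or, not_not, Bool.not_eq_true] at hc h1 ⊢
    obtain ⟨rfl, rfl, rfl⟩ := hc
    simpa using h1

@[fun_prop] protected lemma PT.add {n m : α → ℕ} (hn : PT n) (hm : PT m) :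
    PT (fun a => n a + m a) := pt_add.comp (hn.pair hm)

@[fun_prop] protected lemma PT.succ {n : α → ℕ} (hn : PT n) : PT (fun a => (n a).succ) :=
  hn.add (PT.const 1)

lemma pt_sub_lt : PT (fun p : ℕ × ℕ => (p.1 - p.2, decide (p.1 < p.2))) := by
  refine PT.of_while (σ := ℕ × ℕ × Bool × List Bool)
    (fun s => (s.1.div2, s.2.1.div2,
      (!s.1.bodd && (s.2.1.bodd || s.2.2.1) || s.2.1.bodd && s.2.2.1),
      xor (xor s.1.bodd s.2.1.bodd) s.2.2.1 :: s.2.2.2))
    (fun s => decide (s.1 ≠ 0 ∨ s.2.1 ≠ 0))
    (fun p => (p.1, p.2, false, []))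
    (fun s => (cond s.2.2.1 0 (ofBits s.2.2.2.reverse), s.2.2.1))
    (fun p s => ofBits s.2.2.2.reverse + 2 ^ s.2.2.2.length * s.1 + p.2
        = p.1 + 2 ^ s.2.2.2.length * (s.2.1 + s.2.2.1.toNat) ∧ s.1 ≤ p.1 ∧ s.2.1 ≤ p.2 ∧
        s.2.2.2.length + (s.1.size + s.2.1.size) ≤ p.1.size + p.2.size)
    (fun s => s.1.size + s.2.1.size)
    (fun p => sz p.1 + sz p.2 + 6 * (p.1.size + p.2.size) + 9)
    (by fun_prop) (by fun_prop) (by fun_prop) (by fun_prop) (by simp only; fun_prop) (by fun_prop)
    (fun p => by simp) ?_ ?_ ?_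
  · rintro p ⟨x, y, c, acc⟩ ⟨h1, h2, h3, h4⟩ hc
    simp only [decide_eq_true_eq] at h1 h2 h3 h4 hc ⊢
    have hx := Nat.bodd_add_div2 x
    have hy := Nat.bodd_add_div2 y
    have hsx := size_div2 x
    have hsy := size_div2 y
    have hx0 : x.size = 0 ↔ x = 0 := Nat.size_eq_zero
    have hy0 : y.size = 0 ↔ y = 0 := Nat.size_eq_zero
    refine ⟨⟨?_, by omega, by omega, by simp only [List.length_cons]; omega⟩, by omega⟩
    rw [List.reverse_cons, ofBits_append_singleton, List.length_reverse, List.length_cons,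
      pow_succ]
    have e : (xor (xor x.bodd y.bodd) c).toNat + 2 * x.div2 + (y + c.toNat)
        = x + 2 * (y.div2 + (!x.bodd && (y.bodd || c) || y.bodd && c).toNat) := by
      revert hx hy
      cases x.bodd <;> cases y.bodd <;> cases c <;> simp <;> omega
    have e2 := congrArg (fun t => 2 ^ acc.length * t) e
    simp only [mul_add] at e2 h1 ⊢
    simp only [mul_assoc]
    omega
  · rintro p ⟨x, y, c, acc⟩ ⟨h1, h2, h3, h4⟩
    have := sz_nat_mono h2
    have := sz_nat_mono h3
    simp only [sz_pair, sz_bool, sz_boolList] at *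
    omega
  · rintro p ⟨x, y, c, acc⟩ ⟨h1, -⟩ hc
    simp only [ne_eq, decide_eq_false_iff_not, not_or, not_not] at hc h1 ⊢
    obtain ⟨rfl, rfl⟩ := hc
    have := ofBits_lt acc.reverse
    rw [List.length_reverse] at this
    cases c <;> simp at h1 ⊢ <;> omega

@[fun_prop] protected lemma PT.sub {n m : α → ℕ} (hn : PT n) (hm : PT m) :
    PT (fun a => n a - m a) := (pt_sub_lt.comp (hn.pair hm)).fst

@[fun_prop] protected lemma PT.pred {n : α → ℕ} (hn : PT n) : PT (fun a => (n a).pred) :=
  hn.sub (PT.const 1)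

@[fun_prop] protected lemma PT.decide_lt {n m : α → ℕ} [∀ a, Decidable (n a < m a)] (hn : PT n)
    (hm : PT m) : PT (fun a => decide (n a < m a)) :=
  (pt_sub_lt.comp (hn.pair hm)).snd.congr fun a => by simp

@[fun_prop] protected lemma PT.decide_le {n m : α → ℕ} [∀ a, Decidable (n a ≤ m a)] (hn : PT n)
    (hm : PT m) : PT (fun a => decide (n a ≤ m a)) :=
  (hm.decide_lt hn).not.congr fun a => by by_cases h : n a ≤ m a <;> simp [h]; omega

@[fun_prop] protected lemma PT.decide_gt {n m : α → ℕ} [∀ a, Decidable (n a > m a)] (hn : PT n)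
    (hm : PT m) : PT (fun a => decide (n a > m a)) := hm.decide_lt hn

@[fun_prop] protected lemma PT.decide_ge {n m : α → ℕ} [∀ a, Decidable (n a ≥ m a)] (hn : PT n)
    (hm : PT m) : PT (fun a => decide (n a ≥ m a)) := hm.decide_le hn

@[fun_prop] protected lemma PT.max {n m : α → ℕ} (hn : PT n) (hm : PT m) :
    PT (fun a => max (n a) (m a)) :=
  (PT.ite (hn.decide_le hm) hm hn).congr fun a => by rw [max_def]

@[fun_prop] protected lemma PT.min {n m : α → ℕ} (hn : PT n) (hm : PT m) :
    PT (fun a => min (n a) (m a)) :=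
  (PT.ite (hn.decide_le hm) hn hm).congr fun a => by rw [min_def]

lemma foldr_bits_mul (l : List Bool) (m : ℕ) :
    l.foldr (fun b acc => acc + acc + cond b m 0) 0 = ofBits l * m := by
  induction l with
  | nil => simp
  | cons b l ih => cases b <;> simp [ih, Nat.bit_val] <;> ring

@[fun_prop] protected lemma PT.mul {n m : α → ℕ} (hn : PT n) (hm : PT m) :
    PT (fun a => n a * m a) := by
  have := PT.foldr (f := fun (a : α) (b : Bool) (acc : ℕ) => acc + acc + cond b (m a) 0)
    (l := fun a => (n a).bits) (ini := fun _ => 0) (fun a => sz (n a) + sz (m a))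
    (by fun_prop) (by fun_prop) (by fun_prop) (by fun_prop) (fun a i => by
      rw [foldr_bits_mul]
      refine (sz_mul_le _ _).trans ?_
      have h1 := sz_nat_le_of_lt_two_pow (ofBits_lt ((n a).bits.drop i))
      have h2 : ((n a).bits.drop i).length ≤ (n a).size := by
        rw [← Nat.size_eq_bits_len]; simp
      have := sz_nat (n a)
      omega)
  exact this.congr fun a => by rw [foldr_bits_mul, ofBits_bits]

lemma foldr_bits_divmod (l : List Bool) (m : ℕ) (hm : 0 < m) :
    l.foldr (fun b (acc : ℕ × ℕ) => if m ≤ Nat.bit b acc.2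
      then (Nat.bit true acc.1, Nat.bit b acc.2 - m) else (Nat.bit false acc.1, Nat.bit b acc.2))
      (0, 0) = (ofBits l / m, ofBits l % m) := by
  induction l with
  | nil => simp
  | cons b l ih =>
    rw [List.foldr_cons, ih, ofBits_cons]
    have h1 := Nat.div_add_mod (ofBits l) m
    have h2 := Nat.mod_lt (ofBits l) hm
    have hb := Bool.toNat_le b
    simp only [Nat.bit_val]
    split_ifs with h
    · have : (2 * ofBits l + b.toNat) / m = 2 * (ofBits l / m) + 1 ∧
          (2 * ofBits l + b.toNat) % m = 2 * (ofBits l % m) + b.toNat - m := by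
        rw [Nat.div_mod_unique hm]
        constructor
        · rw [mul_add, mul_left_comm]; omega
        · omega
      rw [this.1, this.2]; rfl
    · have : (2 * ofBits l + b.toNat) / m = 2 * (ofBits l / m) ∧
          (2 * ofBits l + b.toNat) % m = 2 * (ofBits l % m) + b.toNat := by
        rw [Nat.div_mod_unique hm]
        constructor
        · rw [mul_left_comm]; omega
        · omega
      rw [this.1, this.2]; rfl

lemma pt_divmod : PT (fun p : ℕ × ℕ => (p.1 / p.2, p.1 % p.2)) := by
  have := PT.foldr (f := fun (p : ℕ × ℕ) (b : Bool) (acc : ℕ × ℕ) =>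
      if max p.2 1 ≤ Nat.bit b acc.2
      then (Nat.bit true acc.1, Nat.bit b acc.2 - max p.2 1)
      else (Nat.bit false acc.1, Nat.bit b acc.2))
    (l := fun p => p.1.bits) (ini := fun _ => (0, 0)) (fun p => 2 * sz p.1 + 1)
    (by fun_prop) (by fun_prop) (by fun_prop) (by fun_prop) (fun p i => by
      rw [foldr_bits_divmod _ _ (by omega)]
      have h1 := sz_nat_le_of_lt_two_pow (ofBits_lt (p.1.bits.drop i))
      have h2 : (p.1.bits.drop i).length ≤ p.1.size := by
        rw [← Nat.size_eq_bits_len]; simp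
      have := sz_nat p.1
      have := sz_nat_mono (Nat.div_le_self (ofBits (p.1.bits.drop i)) (max p.2 1))
      have := sz_nat_mono (Nat.mod_le (ofBits (p.1.bits.drop i)) (max p.2 1))
      simp only [sz_pair]
      omega)
  have h2 : PT (fun p : ℕ × ℕ => (p.1 / max p.2 1, p.1 % max p.2 1)) :=
    this.congr fun p => by rw [foldr_bits_divmod _ _ (by omega), ofBits_bits]
  have h3 : PT (fun p : ℕ × ℕ => if p.2 = 0 then ((0 : ℕ), p.1)
      else (p.1 / max p.2 1, p.1 % max p.2 1)) := PT.ite (by fun_prop) (by fun_prop) h2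
  refine h3.congr fun p => ?_
  split_ifs with h
  · simp [h]
  · rw [max_eq_left (by omega)]

@[fun_prop] protected lemma PT.div {n m : α → ℕ} (hn : PT n) (hm : PT m) :
    PT (fun a => n a / m a) := (pt_divmod.comp (hn.pair hm)).fst

@[fun_prop] protected lemma PT.mod {n m : α → ℕ} (hn : PT n) (hm : PT m) :
    PT (fun a => n a % m a) := (pt_divmod.comp (hn.pair hm)).snd

@[fun_prop] protected lemma PT.decide_dvd {n m : α → ℕ} [∀ a, Decidable (n a ∣ m a)] (hn : PT n)
    (hm : PT m) : PT (fun a => decide (n a ∣ m a)) :=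
  ((hm.mod hn).decide_eq (PT.const 0)).congr fun a => by simp [Nat.dvd_iff_mod_eq_zero]

@[fun_prop] protected lemma PT.decide_even {n : α → ℕ} [∀ a, Decidable (Even (n a))] (hn : PT n) :
    PT (fun a => decide (Even (n a))) :=
  ((hn.mod (PT.const 2)).decide_eq (PT.const 0)).congr fun a => by simp [Nat.even_iff]

@[fun_prop] protected lemma PT.decide_odd {n : α → ℕ} [∀ a, Decidable (Odd (n a))] (hn : PT n) :
    PT (fun a => decide (Odd (n a))) :=
  ((hn.mod (PT.const 2)).decide_eq (PT.const 1)).congr fun a => by simp [Nat.odd_iff]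

/-! ### lengths, counters -/

@[fun_prop] protected lemma PT.length {l : α → List β} (hl : PT l) :
    PT (fun a => (l a).length) := by
  have := PT.foldr_add (f := fun (_ : α) (_ : β) (acc : ℕ) => acc + 1) (l := l)
    (ini := fun _ => 0) (fun _ => 13) (by fun_prop) hl (by fun_prop) (by fun_prop)
    (fun a acc x _ => by
      have := sz_add_le acc 1
      have h1 : sz (1 : ℕ) = 7 := by simp [sz_nat]
      omega)
  exact this.congr fun a => by
    induction l a with
    | nil => simp
    | cons x m ih => rw [List.length_cons, List.foldr_cons, ← ih]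

@[fun_prop] protected lemma PT.size {n : α → ℕ} (hn : PT n) : PT (fun a => Nat.size (n a)) :=
  hn.bits.length.congr fun _ => (Nat.size_eq_bits_len _).symm

lemma log2_eq_size_sub_one (n : ℕ) : Nat.log 2 n = Nat.size n - 1 := by
  rcases Nat.eq_zero_or_pos n with rfl | h
  · simp
  · have h1 : 0 < Nat.size n := Nat.size_pos.2 h
    rw [Nat.log_eq_iff (Or.inr ⟨by norm_num, h.ne'⟩)]
    constructor
    · exact Nat.lt_size.1 (by omega)
    · rw [Nat.sub_add_cancel h1]; exact Nat.lt_size_self n

@[fun_prop] protected lemma PT.log2 {n : α → ℕ} (hn : PT n) : PT (fun a => Nat.log 2 (n a)) :=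
  (hn.size.sub (PT.const 1)).congr fun _ => log2_eq_size_sub_one _

@[fun_prop] protected lemma PT.range {n : α → ℕ} (hn : PT n) (hb : PB n) :
    PT (fun a => List.range (n a)) := by
  refine PT.of_while (σ := ℕ × List ℕ) (fun s => (s.1 - 1, (s.1 - 1) :: s.2))
    (fun s => decide (s.1 ≠ 0)) (fun a => (n a, [])) (fun s => s.2)
    (fun a s => s.1 ≤ n a ∧ s.2 = List.range' s.1 (n a - s.1)) (fun s => s.1)
    (fun a => sz (n a) + (sz (n a) + 1) * n a + 2)
    (by fun_prop) (by fun_prop) (by fun_prop) (by fun_prop) hb (by fun_prop)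
    (fun a => by simp) ?_ ?_ ?_
  · rintro a ⟨k, l⟩ ⟨h1, h2⟩ hc
    simp only [decide_eq_true_eq] at h1 h2 hc ⊢
    refine ⟨⟨by omega, ?_⟩, by omega⟩
    rw [h2, show n a - (k - 1) = (n a - k) + 1 by omega, List.range'_succ,
      show k - 1 + 1 = k by omega]
  · rintro a ⟨k, l⟩ ⟨h1, h2⟩
    simp only at h1 h2
    have h3 := sz_nat_mono h1
    have h4 := sz_list_le l (sz (n a)) (fun x hx => by
      rw [h2, List.mem_range'_1] at hx
      exact sz_nat_mono (by omega))
    have h5 : l.length ≤ n a := by rw [h2]; simp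
    have := Nat.mul_le_mul_left (sz (n a) + 1) h5
    simp only [sz_pair]
    omega
  · rintro a ⟨k, l⟩ ⟨h1, h2⟩ hc
    simp only [ne_eq, decide_eq_false_iff_not, not_not] at h1 h2 hc ⊢
    subst hc
    rw [h2, List.range_eq_range']; simp

@[fun_prop] protected lemma PT.range' {s n : α → ℕ} (hs : PT s) (hn : PT n) (hb : PB n) :
    PT (fun a => List.range' (s a) (n a)) :=
  ((hn.range hb).map (g := fun a i => s a + i) (by fun_prop)).congr fun a => by
    rw [List.range'_eq_map_range]

@[fun_prop] protected lemma PT.replicate {n : α → ℕ} {x : α → β} (hn : PT n) (hb : PB n)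
    (hx : PT x) : PT (fun a => List.replicate (n a) (x a)) :=
  ((hn.range hb).map (g := fun a _ => x a) (by fun_prop)).congr fun a => by simp

/-- Iteration `n a` times, all intermediate results being of polynomial size. -/
protected lemma PT.iterate {f : α → β → β} {n : α → ℕ} {ini : α → β} (B : α → ℕ)
    (hf : PT (fun p : α × β => f p.1 p.2)) (hn : PT n) (hb : PB n) (hi : PT ini) (hB : PB B)
    (hsz : ∀ a i, i ≤ n a → sz ((f a)^[i] (ini a)) ≤ B a) :
    PT (fun a => (f a)^[n a] (ini a)) := by
  have h1 : PT (fun p : α × β × ℕ => f p.1 p.2.1) :=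
    hf.comp (f := fun p : α × β × ℕ => (p.1, p.2.1)) (by fun_prop)
  have key : ∀ a (l : List ℕ) (x : β), l.foldl (fun acc _ => f a acc) x = (f a)^[l.length] x := by
    intro a l
    induction l with
    | nil => simp
    | cons y l ih => intro x; simp [ih]
  have := PT.foldl (f := fun (a : α) (acc : β) (_ : ℕ) => f a acc)
    (l := fun a => List.range (n a)) (ini := ini) B h1 (hn.range hb) hi hB
    (fun a i => by rw [key]; exact hsz a _ (by simp))
  exact this.congr fun a => by rw [key]; simp

/-- Iteration with an invariant bounding the size. -/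
protected lemma PT.iterate_inv {f : α → β → β} {n : α → ℕ} {ini : α → β} (Inv : α → β → Prop)
    (B : α → ℕ) (hf : PT (fun p : α × β => f p.1 p.2)) (hn : PT n) (hb : PB n) (hi : PT ini)
    (hB : PB B) (h0 : ∀ a, Inv a (ini a)) (hstep : ∀ a x, Inv a x → Inv a (f a x))
    (hsz : ∀ a x, Inv a x → sz x ≤ B a) : PT (fun a => (f a)^[n a] (ini a)) := by
  refine PT.iterate B hf hn hb hi hB fun a i _ => hsz a _ ?_
  induction i with
  | zero => exact h0 a
  | succ i ih => rw [Function.iterate_succ_apply']; exact hstep a _ (ih (by omega))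

/-- Iteration in which each round increases the size by at most `G a`. -/
protected lemma PT.iterate_add {f : α → β → β} {n : α → ℕ} {ini : α → β} (G : α → ℕ)
    (hf : PT (fun p : α × β => f p.1 p.2)) (hn : PT n) (hb : PB n) (hi : PT ini) (hG : PB G)
    (h : ∀ a x, sz (f a x) ≤ sz x + G a) : PT (fun a => (f a)^[n a] (ini a)) := by
  refine PT.iterate (fun a => sz (ini a) + n a * G a) hf hn hb hi (by fun_prop) fun a i hi => ?_
  have : ∀ i, sz ((f a)^[i] (ini a)) ≤ sz (ini a) + i * G a := by
    intro i
    induction i with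
    | zero => simp
    | succ i ih =>
      rw [Function.iterate_succ_apply']
      have := h a ((f a)^[i] (ini a))
      nlinarith
  have h1 := this i
  have := Nat.mul_le_mul_right (G a) hi
  omega

/-- Primitive recursion on a polynomially bounded number. -/
protected lemma PT.natRec {f : α → ℕ → β → β} {n : α → ℕ} {ini : α → β} (B : α → ℕ)
    (hf : PT (fun p : α × ℕ × β => f p.1 p.2.1 p.2.2)) (hn : PT n) (hb : PB n) (hi : PT ini)
    (hB : PB B) (hsz : ∀ a i, i ≤ n a → sz (Nat.rec (ini a) (f a) i : β) ≤ B a) :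
    PT (fun a => (Nat.rec (ini a) (f a) (n a) : β)) := by
  have h1 : PT (fun p : α × β × ℕ => f p.1 p.2.2 p.2.1) :=
    hf.comp (f := fun p : α × β × ℕ => (p.1, p.2.2, p.2.1)) (by fun_prop)
  have key : ∀ a (k : ℕ), (List.range k).foldl (fun acc i => f a i acc) (ini a)
      = (Nat.rec (ini a) (f a) k : β) := by
    intro a k
    induction k with
    | zero => simp
    | succ k ih => rw [List.range_succ, List.foldl_append, ih]; rfl
  have := PT.foldl (f := fun (a : α) (acc : β) (i : ℕ) => f a i acc)
    (l := fun a => List.range (n a)) (ini := ini) B h1 (hn.range hb) hi hB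
    (fun a i => by rw [List.take_range, key]; exact hsz a _ (by omega))
  exact this.congr fun a => (key a _).symm

@[fun_prop] protected lemma PT.pow {m n : α → ℕ} (hm : PT m) (hn : PT n) (hb : PB n) :
    PT (fun a => m a ^ n a) := by
  have := PT.iterate_add (f := fun a x => x * m a) (n := n) (ini := fun _ => 1)
    (fun a => sz (m a)) (by fun_prop) hn hb (by fun_prop) (by fun_prop)
    (fun a x => sz_mul_le _ _)
  refine this.congr fun a => ?_
  induction n a with
  | zero => simp
  | succ k ih => rw [Function.iterate_succ_apply', ← ih, pow_succ]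

@[fun_prop] protected lemma PT.polyEval (q : Polynomial ℕ) {n : α → ℕ} (hn : PT n) :
    PT (fun a => q.eval (n a)) := by
  induction q using Polynomial.induction_on' with
  | add p q hp hq => simpa using hp.add hq
  | monomial k c => simpa using (PT.const c).mul (hn.pow (PT.const k) (PB.const k))

@[fun_prop] protected lemma PT.factorial {n : α → ℕ} (hn : PT n) (hb : PB n) :
    PT (fun a => (n a).factorial) := by
  have key : ∀ k : ℕ, (Nat.rec 1 (fun i x => (i + 1) * x) k : ℕ) = k.factorial := by
    intro k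
    induction k with
    | zero => rfl
    | succ k ih => rw [Nat.factorial_succ, ← ih]
  have := PT.natRec (f := fun (_ : α) i (x : ℕ) => (i + 1) * x) (n := n) (ini := fun _ => 1)
    (fun a => n a * sz (n a) + 7) (by fun_prop) hn hb (by fun_prop) (by fun_prop)
    (fun a i hi => by
      rw [key]
      exact (sz_nat_mono ((Nat.factorial_le hi).trans (Nat.factorial_le_pow _))).trans
        (sz_pow_le _ _))
  exact this.congr fun a => (key _).symm

@[fun_prop] protected lemma PT.choose {n k : α → ℕ} (hn : PT n) (hb : PB n) (hk : PT k) :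
    PT (fun a => (n a).choose (k a)) := by
  have h : PT (fun a => if k a ≤ n a then
      (n a).factorial / ((min (n a) (k a)).factorial * (n a - k a).factorial) else 0) := by
    fun_prop
  refine h.congr fun a => ?_
  split_ifs with h1
  · rw [min_eq_right h1, Nat.choose_eq_factorial_div_factorial h1]
  · exact Nat.choose_eq_zero_of_lt (by omega)

lemma foldr_bits_powMod (l : List Bool) (x m : ℕ) :
    l.foldr (fun b acc => acc * acc * cond b x 1 % m) (1 % m) = x ^ ofBits l % m := by
  induction l with
  | nil => simp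
  | cons b l ih =>
    rw [List.foldr_cons, ih, ofBits_cons, Nat.bit_val, pow_add, two_mul, pow_add]
    cases b <;> simp [Nat.mul_mod]

/-- Modular exponentiation with a binary exponent (positive modulus). -/
protected lemma PT.powMod {x e m : α → ℕ} (hx : PT x) (he : PT e) (hm : PT m)
    (hpos : ∀ a, 0 < m a) : PT (fun a => x a ^ e a % m a) := by
  have := PT.foldr (f := fun (a : α) (b : Bool) (acc : ℕ) => acc * acc * cond b (x a) 1 % m a)
    (l := fun a => (e a).bits) (ini := fun a => 1 % m a) (fun a => sz (m a))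
    (by fun_prop) (by fun_prop) (by fun_prop) (by fun_prop) (fun a i => by
      rw [foldr_bits_powMod]
      exact sz_nat_mono (Nat.mod_lt _ (hpos a)).le)
  exact this.congr fun a => by rw [foldr_bits_powMod, ofBits_bits]

lemma pt_gcd : PT (fun p : ℕ × ℕ => Nat.gcd p.1 p.2) := by
  refine PT.of_while (σ := ℕ × ℕ) (fun s => (s.2 % s.1, s.1)) (fun s => decide (s.1 ≠ 0))
    (fun p => (min p.1 p.2, max p.1 p.2)) (fun s => s.2)
    (fun p s => Nat.gcd s.1 s.2 = Nat.gcd p.1 p.2 ∧ s.1 ≤ s.2 ∧ s.2 ≤ max p.1 p.2)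
    (fun s => Nat.size (s.1 * s.2)) (fun p => 2 * sz (max p.1 p.2) + 1)
    (by fun_prop) (by fun_prop) (by fun_prop) (by fun_prop) (by fun_prop) (by fun_prop)
    (fun p => ⟨?_, by simp, by simp⟩) ?_ ?_ ?_
  · rcases le_total p.1 p.2 with h | h
    · simp [h]
    · simp [h, Nat.gcd_comm]
  · rintro p ⟨x, y⟩ ⟨h1, h2, h3⟩ hc
    simp only [decide_eq_true_eq] at h1 h2 h3 hc ⊢
    have hx : 0 < x := Nat.pos_of_ne_zero hc
    have h4 := Nat.mod_lt y hx
    refine ⟨⟨by rw [← h1, Nat.gcd_rec x y], h4.le, by omega⟩, ?_⟩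
    have h5 : 2 * (y % x) ≤ y := by
      have := Nat.div_add_mod y x
      have h6 : 1 ≤ y / x := (Nat.le_div_iff_mul_le hx).2 (by omega)
      have := Nat.mul_le_mul_left x h6
      omega
    have h7 : 2 * (y % x * x) ≤ x * y := by nlinarith
    have h8 : 0 < Nat.size (x * y) := Nat.size_pos.2 (Nat.mul_pos hx (by omega))
    have h9 := Nat.lt_size_self (x * y)
    have : Nat.size (y % x * x) ≤ Nat.size (x * y) - 1 := by
      rw [Nat.size_le]
      have : 2 ^ Nat.size (x * y) = 2 * 2 ^ (Nat.size (x * y) - 1) := by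
        rw [← pow_succ']; congr 1; omega
      omega
    omega
  · rintro p ⟨x, y⟩ ⟨h1, h2, h3⟩
    have := sz_nat_mono h3
    have := sz_nat_mono h2
    simp only [sz_pair] at *
    omega
  · rintro p ⟨x, y⟩ ⟨h1, h2, h3⟩ hc
    simp only [ne_eq, decide_eq_false_iff_not, not_not] at h1 hc ⊢
    subst hc
    simpa using h1

@[fun_prop] protected lemma PT.gcd {n m : α → ℕ} (hn : PT n) (hm : PT m) :
    PT (fun a => Nat.gcd (n a) (m a)) := pt_gcd.comp (hn.pair hm)

@[fun_prop] protected lemma PT.lcm {n m : α → ℕ} (hn : PT n) (hm : PT m) :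
    PT (fun a => Nat.lcm (n a) (m a)) := (hn.mul hm).div (hn.gcd hm)

@[fun_prop] protected lemma PT.decide_coprime {n m : α → ℕ}
    [∀ a, Decidable (Nat.Coprime (n a) (m a))] (hn : PT n) (hm : PT m) :
    PT (fun a => decide (Nat.Coprime (n a) (m a))) :=
  ((hn.gcd hm).decide_eq (PT.const 1)).congr fun a => by simp [Nat.Coprime]

/-! ### list operations with numeric arguments -/

@[fun_prop] protected lemma PT.drop {n : α → ℕ} {l : α → List β} (hn : PT n) (hl : PT l) :
    PT (fun a => (l a).drop (n a)) := by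
  have := PT.iterate_add (f := fun (_ : α) (x : List β) => x.tail)
    (n := fun a => min (n a) (l a).length) (ini := l) (fun _ => 0)
    (by fun_prop) (by fun_prop) (by fun_prop) hl (by fun_prop) (fun a x => sz_tail_le x)
  refine this.congr fun a => ?_
  have key : ∀ (k : ℕ) (x : List β), (fun x : List β => x.tail)^[k] x = x.drop k := by
    intro k
    induction k with
    | zero => simp
    | succ k ih => intro x; rw [Function.iterate_succ_apply, ih]; simp
  rw [key]
  rcases le_total (n a) (l a).length with h | h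
  · rw [min_eq_left h]
  · rw [min_eq_right h, List.drop_of_length_le h, List.drop_length]

@[fun_prop] protected lemma PT.take {n : α → ℕ} {l : α → List β} (hn : PT n) (hl : PT l) :
    PT (fun a => (l a).take (n a)) :=
  ((hl.length.sub hn).drop hl.reverse).reverse.congr fun a => by
    rw [List.drop_reverse, List.reverse_reverse]
    rcases le_total (n a) (l a).length with h | h
    · congr 1; omega
    · rw [List.take_of_length_le h, List.take_of_length_le (by omega)]

@[fun_prop] protected lemma PT.getElem? {n : α → ℕ} {l : α → List β} (hn : PT n) (hl : PT l) :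
    PT (fun a => (l a)[n a]?) := (hn.drop hl).head?.congr fun a => by simp

@[fun_prop] protected lemma PT.getD {n : α → ℕ} {l : α → List β} {d : α → β} (hn : PT n)
    (hl : PT l) (hd : PT d) : PT (fun a => (l a).getD (n a) (d a)) :=
  ((hn.getElem? hl).optionGetD hd).congr fun a => by simp

@[fun_prop] protected lemma PT.getI [Inhabited β] {n : α → ℕ} {l : α → List β} (hn : PT n)
    (hl : PT l) : PT (fun a => (l a).getI (n a)) := hn.getD hl (PT.const default)

@[fun_prop] protected lemma PT.getElem! [Inhabited β] {n : α → ℕ} {l : α → List β} (hn : PT n)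
    (hl : PT l) : PT (fun a => (l a)[n a]!) :=
  ((hn.getElem? hl).optionGetD (PT.const default)).congr fun a => by simp

@[fun_prop] protected lemma PT.set {n : α → ℕ} {l : α → List β} {x : α → β} (hn : PT n)
    (hl : PT l) (hx : PT x) : PT (fun a => (l a).set (n a) (x a)) := by
  have h : PT (fun a => if n a < (l a).length then (l a).take (n a) ++ x a :: (l a).drop (n a + 1)
      else l a) := by fun_prop
  exact h.congr fun a => by rw [List.set_eq_take_append_cons_drop]

@[fun_prop] protected lemma PT.eraseIdx {n : α → ℕ} {l : α → List β} (hn : PT n)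
    (hl : PT l) : PT (fun a => (l a).eraseIdx (n a)) := by
  have h : PT (fun a => (l a).take (n a) ++ (l a).drop (n a + 1)) := by fun_prop
  exact h.congr fun a => by rw [List.eraseIdx_eq_take_drop_succ]

@[fun_prop] protected lemma PT.zipIdx {l : α → List β} {n : α → ℕ} (hl : PT l) (hn : PT n) :
    PT (fun a => (l a).zipIdx (n a)) :=
  (hl.zip (hn.range' hl.length (PB.length hl))).congr fun a => by rw [List.zipIdx_eq_zip_range']

@[fun_prop] protected lemma PT.mapIdx {l : α → List β} {g : α → ℕ → β → γ} (hl : PT l)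
    (hg : PT (fun p : α × ℕ × β => g p.1 p.2.1 p.2.2)) : PT (fun a => (l a).mapIdx (g a)) := by
  have h1 : PT (fun p : α × β × ℕ => g p.1 p.2.2 p.2.1) :=
    hg.comp (f := fun p : α × β × ℕ => (p.1, p.2.2, p.2.1)) (by fun_prop)
  exact ((hl.zipIdx (PT.const 0)).map (g := fun a p => g a p.2 p.1) h1).congr fun a => by
    rw [List.mapIdx_eq_zipIdx_map]

@[fun_prop] protected lemma PT.countP {l : α → List β} {g : α → β → Bool} (hl : PT l)
    (hg : PT (fun p : α × β => g p.1 p.2)) : PT (fun a => (l a).countP (g a)) :=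
  (hl.filter hg).length.congr fun _ => List.countP_eq_length_filter

@[fun_prop] protected lemma PB.countP {l : α → List β} (g : α → β → Bool) (hl : PT l) :
    PB (fun a => (l a).countP (g a)) := (PB.length hl).of_le fun _ => List.countP_le_length

@[fun_prop] protected lemma PT.count [BEq β] [LawfulBEq β] {x : α → β} {l : α → List β}
    (hx : PT x) (hl : PT l) : PT (fun a => (l a).count (x a)) :=
  hl.countP (g := fun a y => y == x a) (by fun_prop)

@[fun_prop] protected lemma PT.findIdx {l : α → List β} {g : α → β → Bool} (hl : PT l)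
    (hg : PT (fun p : α × β => g p.1 p.2)) : PT (fun a => (l a).findIdx (g a)) :=
  (hl.takeWhile (g := fun a x => !g a x) (by fun_prop)).length.congr fun a => by
    induction l a with
    | nil => simp
    | cons x m ih => cases h : g a x <;> simp [List.findIdx_cons, h, ih]

@[fun_prop] protected lemma PT.idxOf [BEq β] [LawfulBEq β] {x : α → β} {l : α → List β}
    (hx : PT x) (hl : PT l) : PT (fun a => (l a).idxOf (x a)) :=
  hl.findIdx (g := fun a y => y == x a) (by fun_prop)

@[fun_prop] protected lemma PT.erase [BEq β] [LawfulBEq β] {x : α → β} {l : α → List β}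
    (hx : PT x) (hl : PT l) : PT (fun a => (l a).erase (x a)) :=
  ((hx.idxOf hl).eraseIdx hl).congr fun a => by rw [List.eraseIdx_idxOf_eq_erase]

@[fun_prop] protected lemma PT.natSum {l : α → List ℕ} (hl : PT l) : PT (fun a => (l a).sum) :=
  PT.foldr_add (f := fun (_ : α) (x acc : ℕ) => x + acc) (l := l) (ini := fun _ => 0)
    (fun p => sz p.2 + 6) (by fun_prop) hl (by fun_prop) (by fun_prop)
    (fun a acc x _ => by have := sz_add_le x acc; simp only; omega)

@[fun_prop] protected lemma PT.natProd {l : α → List ℕ} (hl : PT l) : PT (fun a => (l a).prod) :=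
  PT.foldr_add (f := fun (_ : α) (x acc : ℕ) => x * acc) (l := l) (ini := fun _ => 1)
    (fun p => sz p.2) (by fun_prop) hl (by fun_prop) (by fun_prop)
    (fun a acc x _ => by have := sz_mul_le x acc; simp only; omega)

lemma sum_range_eq_list {M : Type} [AddCommMonoid M] (n : ℕ) (g : ℕ → M) :
    ∑ i ∈ Finset.range n, g i = ((List.range n).map g).sum := by
  induction n with
  | zero => simp
  | succ n ih => simp [Finset.sum_range_succ, List.range_succ, ih]

lemma prod_range_eq_list {M : Type} [CommMonoid M] (n : ℕ) (g : ℕ → M) :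
    ∏ i ∈ Finset.range n, g i = ((List.range n).map g).prod := by
  induction n with
  | zero => simp
  | succ n ih => simp [Finset.prod_range_succ, List.range_succ, ih]

@[fun_prop] protected lemma PT.prod_range {n : α → ℕ} {g : α → ℕ → ℕ} (hn : PT n) (hb : PB n)
    (hg : PT (fun p : α × ℕ => g p.1 p.2)) : PT (fun a => ∏ i ∈ Finset.range (n a), g a i) :=
  ((hn.range hb).map hg).natProd.congr fun _ => prod_range_eq_list _ _

@[fun_prop] protected lemma PT.sum_range {n : α → ℕ} {g : α → ℕ → ℕ} (hn : PT n) (hb : PB n)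
    (hg : PT (fun p : α × ℕ => g p.1 p.2)) : PT (fun a => ∑ i ∈ Finset.range (n a), g a i) :=
  ((hn.range hb).map hg).natSum.congr fun _ => sum_range_eq_list _ _

@[fun_prop] protected lemma PT.decide_forall_lt {n : α → ℕ} {P : α → ℕ → Prop}
    [∀ a x, Decidable (P a x)] [∀ a, Decidable (∀ x < n a, P a x)] (hn : PT n) (hb : PB n)
    (hP : PT (fun p : α × ℕ => decide (P p.1 p.2))) :
    PT (fun a => decide (∀ x < n a, P a x)) :=
  ((hn.range hb).all (g := fun a x => decide (P a x)) hP).congr fun a => by
    rw [Bool.eq_iff_iff]; simp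

@[fun_prop] protected lemma PT.decide_exists_lt {n : α → ℕ} {P : α → ℕ → Prop}
    [∀ a x, Decidable (P a x)] [∀ a, Decidable (∃ x < n a, P a x)] (hn : PT n) (hb : PB n)
    (hP : PT (fun p : α × ℕ => decide (P p.1 p.2))) :
    PT (fun a => decide (∃ x < n a, P a x)) :=
  ((hn.range hb).any (g := fun a x => decide (P a x)) hP).congr fun a => by
    rw [Bool.eq_iff_iff]; simp

@[fun_prop] protected lemma PT.testBit {n i : α → ℕ} (hn : PT n) (hi : PT i) :
    PT (fun a => (n a).testBit (i a)) :=
  (hi.getI hn.bits).congr fun _ => Nat.testBit_eq_inth _ _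

end Crest.Agent.Lib.PT
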