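import Crest.Agent.Lib.PT.Lin
import Crest.Agent.Lib.PT.Compile

/-!
Simulation of a bundled stack machine `Turing.FinTM2` by a program of the tree language, with
quadratic overhead; consequently polynomial-time maps compose.
-/

set_option autoImplicit false

namespace Crest.Agent.Lib.PT

open Turing Turing.TM2

namespace Sim

variable {K : Type} {Γ : K → Type} {Λ σ : Type}

/-- The symbols a statement can push. -/
def pushes : Stmt Γ Λ σ → Set (Σ k, Γ k)
  | .push k f q => Set.range (fun v => (⟨k, f v⟩ : Σ k, Γ k)) ∪ pushes q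
  | .peek _ _ q => pushes q
  | .pop _ _ q => pushes q
  | .load _ q => pushes q
  | .branch _ q₁ q₂ => pushes q₁ ∪ pushes q₂
  | .goto _ => ∅
  | .halt => ∅

lemma pushes_finite [Finite σ] (q : Stmt Γ Λ σ) : (pushes q).Finite := by
  induction q with
  | push k f q ih => exact (Set.finite_range _).union ih
  | peek _ _ _ ih => exact ih
  | pop _ _ _ ih => exact ih
  | load _ _ ih => exact ih
  | branch _ _ _ ih₁ ih₂ => exact ih₁.union ih₂
  | goto _ => exact Set.finite_empty
  | halt => exact Set.finite_empty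

/-- A bound on the number of pushes of a statement. -/
def depth : Stmt Γ Λ σ → ℕ
  | .push _ _ q => depth q + 1
  | .peek _ _ q => depth q
  | .pop _ _ q => depth q
  | .load _ q => depth q
  | .branch _ q₁ q₂ => depth q₁ + depth q₂
  | .goto _ => 0
  | .halt => 0

/-- All symbols on the stacks lie in `R`. -/
def Valid (R : Set (Σ k, Γ k)) (S : ∀ k, List (Γ k)) : Prop :=
  ∀ k, ∀ s ∈ S k, (⟨k, s⟩ : Σ k, Γ k) ∈ R

variable [DecidableEq K]

lemma Valid.update {R : Set (Σ k, Γ k)} {S : ∀ k, List (Γ k)} (h : Valid R S) (k : K)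
    (l : List (Γ k)) (hl : ∀ s ∈ l, (⟨k, s⟩ : Σ k, Γ k) ∈ R) : Valid R (Function.update S k l) := by
  intro k' s hs
  by_cases hk : k' = k
  · subst hk
    exact hl s (by simpa using hs)
  · exact h k' s (by simpa [hk] using hs)

lemma Valid.push {R : Set (Σ k, Γ k)} {S : ∀ k, List (Γ k)} (h : Valid R S) (k : K) (s : Γ k)
    (hs : (⟨k, s⟩ : Σ k, Γ k) ∈ R) : Valid R (Function.update S k (s :: S k)) :=
  h.update k _ (by
    intro t ht
    rcases List.mem_cons.mp ht with rfl | ht
    · exact hs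
    · exact h k t ht)

lemma Valid.pop {R : Set (Σ k, Γ k)} {S : ∀ k, List (Γ k)} (h : Valid R S) (k : K) :
    Valid R (Function.update S k (S k).tail) :=
  h.update k _ fun t ht => h k t (List.mem_of_mem_tail ht)

lemma stepAux_valid {R : Set (Σ k, Γ k)} (q : Stmt Γ Λ σ) : pushes q ⊆ R →
    ∀ (v : σ) (S : ∀ k, List (Γ k)), Valid R S → Valid R (stepAux q v S).stk := by
  induction q with
  | push k f q ih =>
    intro h v S hS
    exact ih (fun x hx => h (Or.inr hx)) _ _ (hS.push k _ (h (Or.inl ⟨v, rfl⟩)))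
  | peek k f q ih => intro h v S hS; exact ih h _ _ hS
  | pop k f q ih => intro h v S hS; exact ih h _ _ (hS.pop k)
  | load f q ih => intro h v S hS; exact ih h _ _ hS
  | branch f q₁ q₂ ih₁ ih₂ =>
    intro h v S hS
    simp only [stepAux]
    cases f v
    · exact ih₂ (fun x hx => h (Or.inr hx)) _ _ hS
    · exact ih₁ (fun x hx => h (Or.inl hx)) _ _ hS
  | goto f => intro _ v S hS; exact hS
  | halt => intro _ v S hS; exact hS

lemma stepAux_length (q : Stmt Γ Λ σ) : ∀ (v : σ) (S : ∀ k, List (Γ k)) (N : ℕ),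
    (∀ k, (S k).length ≤ N) → ∀ k, ((stepAux q v S).stk k).length ≤ N + depth q := by
  induction q with
  | push k f q ih =>
    intro v S N hS k'
    have := ih v (Function.update S k (f v :: S k)) (N + 1) (by
      intro j
      by_cases hj : j = k
      · subst hj; simpa using hS j
      · simpa [hj] using (hS j).trans (Nat.le_succ N)) k'
    simp only [stepAux, depth]; omega
  | peek k f q ih => intro v S N hS k'; exact ih _ _ N hS k'
  | pop k f q ih =>
    intro v S N hS k'
    refine ih _ _ N ?_ k'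
    intro j
    by_cases hj : j = k
    · subst hj; have := hS j; simp; omega
    · simpa [hj] using hS j
  | load f q ih => intro v S N hS k'; exact ih _ _ N hS k'
  | branch f q₁ q₂ ih₁ ih₂ =>
    intro v S N hS k'
    simp only [stepAux, depth]
    cases f v
    · have := ih₂ v S N hS k'; simp only [cond_false]; omega
    · have := ih₁ v S N hS k'; simp only [cond_true]; omega
  | goto f => intro v S N hS k'; exact hS k'
  | halt => intro v S N hS k'; exact hS k'

/-- Coding data for configurations. -/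
structure Coding {K : Type} (Γ : K → Type) (Λ σ : Type) where
  Ks : List K
  hKs : ∀ k, k ∈ Ks
  R : Set (Σ k, Γ k)
  hR : R.Finite
  code : (Σ k, Γ k) → D
  hcode : Set.InjOn code R
  cσ : σ → D
  hσ : Function.Injective cσ
  cΛ : Λ → D
  hΛ : Function.Injective cΛ

namespace Coding

variable (c : Coding Γ Λ σ)

def encStk (S : ∀ k, List (Γ k)) (k : K) : D := D.ofList ((S k).map fun s => c.code ⟨k, s⟩)

def encS (S : ∀ k, List (Γ k)) : D := D.ofList (c.Ks.map (c.encStk S))

def encVS (v : σ) (S : ∀ k, List (Γ k)) : D := .cons (c.cσ v) (c.encS S)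

def encL : Option Λ → D
  | none => .nil
  | some l => .cons .nil (c.cΛ l)

def encCfg (x : Cfg Γ Λ σ) : D := .cons (c.encL x.l) (c.encVS x.var x.stk)

/-- Valid pairs (state, stacks). -/
abbrev VS : Type := {a : σ × (∀ k, List (Γ k)) // Valid c.R a.2}

def eVS (a : c.VS) : D := c.encVS a.1.1 a.1.2

omit [DecidableEq K] in
lemma lin_var : Lin c.eVS (fun a => c.cσ a.1.1) := (Lin.id c.eVS).car

omit [DecidableEq K] in
lemma lin_S : Lin c.eVS (fun a => c.encS a.1.2) := (Lin.id c.eVS).cdr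

omit [DecidableEq K] in
lemma lin_stk (k : K) : Lin c.eVS (fun a => c.encStk a.1.2 k) :=
  Lin.ofList_get (fun (a : c.VS) k => c.encStk a.1.2 k) k c.Ks (c.hKs k) c.lin_S

omit [DecidableEq K] in
lemma lin_ofVar [Finite σ] (g : σ → D) : Lin c.eVS (fun a => g a.1.1) :=
  Lin.finCases c.cσ c.hσ (fun a : c.VS => a.1.1) c.lin_var (fun v _ => g v)
    (fun _ => Lin.const _ _)

lemma lin_update (k : K) (l : c.VS → List (Γ k))
    (hl : Lin c.eVS (fun a => D.ofList ((l a).map fun s => c.code ⟨k, s⟩))) :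
    Lin c.eVS (fun a => c.encS (Function.update a.1.2 k (l a))) := by
  refine Lin.ofList_build (fun (a : c.VS) j => c.encStk (Function.update a.1.2 k (l a)) j) c.Ks ?_
  intro j _
  by_cases hj : j = k
  · subst hj
    simpa [encStk] using hl
  · refine (c.lin_stk j).congr fun a => ?_
    simp [encStk, hj]

omit [DecidableEq K] in
lemma lin_head [Finite σ] (k : K) (g : σ → Option (Γ k) → D) :
    Lin c.eVS (fun a => g a.1.1 (a.1.2 k).head?) := by
  have h1 : Lin c.eVS (fun a => D.cons (c.cσ a.1.1)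
      (.cons (if c.encStk a.1.2 k = .nil then .nil else .cons .nil .nil) (c.encStk a.1.2 k).car)) :=
    c.lin_var.cons (((c.lin_stk k).ite (Lin.const _ _) (Lin.const _ _)).cons (c.lin_stk k).car)
  refine h1.table ?_ _ ?_
  · have hfin : (Set.image2 D.cons (Set.range c.cσ)
        (Set.image2 D.cons ({D.nil, D.cons .nil .nil} : Set D)
          (insert D.nil (c.code '' c.R)))).Finite :=
      (Set.finite_range _).image2 _ ((Set.toFinite _).image2 _ ((c.hR.image _).insert _))
    refine hfin.subset ?_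
    rintro _ ⟨a, rfl⟩
    refine Set.mem_image2_of_mem ⟨_, rfl⟩ (Set.mem_image2_of_mem ?_ ?_)
    · split_ifs <;> simp
    · have hv := a.2 k
      unfold encStk
      cases hS : a.1.2 k with
      | nil => simp
      | cons s t =>
        rw [hS] at hv
        exact Or.inr ⟨_, hv s (by simp), by simp⟩
  · intro a a' h
    simp only [D.cons.injEq] at h
    obtain ⟨h1, h2, h3⟩ := h
    rw [c.hσ h1]
    congr 1
    have hv := a.2 k
    have hv' := a'.2 k
    unfold encStk at h2 h3
    cases hS : a.1.2 k with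
    | nil =>
      cases hS' : a'.1.2 k with
      | nil => rfl
      | cons s' t' => simp [hS, hS'] at h2
    | cons s t =>
      cases hS' : a'.1.2 k with
      | nil => simp [hS, hS'] at h2
      | cons s' t' =>
        rw [hS] at hv
        rw [hS'] at hv'
        simp only [hS, hS', List.map_cons, D.ofList_cons, D.car_cons] at h3
        have := c.hcode (hv s (by simp)) (hv' s' (by simp)) h3
        simp only [Sigma.mk.injEq, heq_eq_eq, true_and] at this
        simp [this]

lemma lin_stmt [Finite σ] (q : Stmt Γ Λ σ) : pushes q ⊆ c.R →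
    Lin c.eVS (fun a => c.encCfg (stepAux q a.1.1 a.1.2)) := by
  induction q with
  | push k f q ih =>
    intro h
    refine Lin.comp (eb := c.eVS) (h := fun a => c.encCfg (stepAux q a.1.1 a.1.2))
      (fun a : c.VS => (⟨(a.1.1, Function.update a.1.2 k (f a.1.1 :: a.1.2 k)),
        a.2.push k _ (h (Or.inl ⟨_, rfl⟩))⟩ : c.VS)) ?_ (ih fun x hx => h (Or.inr hx))
    exact c.lin_var.cons (c.lin_update k _
      ((c.lin_ofVar fun v => c.code ⟨k, f v⟩).cons (c.lin_stk k)))
  | peek k f q ih =>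
    intro h
    refine Lin.comp (eb := c.eVS) (h := fun a => c.encCfg (stepAux q a.1.1 a.1.2))
      (fun a : c.VS => (⟨(f a.1.1 (a.1.2 k).head?, a.1.2), a.2⟩ : c.VS)) ?_ (ih h)
    exact (c.lin_head k fun v o => c.cσ (f v o)).cons c.lin_S
  | pop k f q ih =>
    intro h
    refine Lin.comp (eb := c.eVS) (h := fun a => c.encCfg (stepAux q a.1.1 a.1.2))
      (fun a : c.VS => (⟨(f a.1.1 (a.1.2 k).head?, Function.update a.1.2 k (a.1.2 k).tail),
        a.2.pop k⟩ : c.VS)) ?_ (ih h)
    refine (c.lin_head k fun v o => c.cσ (f v o)).cons (c.lin_update k _ ?_)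
    refine (c.lin_stk k).cdr.congr fun a => ?_
    unfold encStk
    cases a.1.2 k <;> simp
  | load f q ih =>
    intro h
    refine Lin.comp (eb := c.eVS) (h := fun a => c.encCfg (stepAux q a.1.1 a.1.2))
      (fun a : c.VS => (⟨(f a.1.1, a.1.2), a.2⟩ : c.VS)) ?_ (ih h)
    exact (c.lin_ofVar fun v => c.cσ (f v)).cons c.lin_S
  | branch f q₁ q₂ ih₁ ih₂ =>
    intro h
    refine ((c.lin_ofVar fun v => D.ofBool (f v)).ite (ih₂ fun x hx => h (Or.inr hx))
      (ih₁ fun x hx => h (Or.inl hx))).congr fun a => ?_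
    simp only [stepAux]
    cases f a.1.1 <;> simp
  | goto f =>
    intro _
    exact (c.lin_ofVar fun v => c.encL (some (f v))).cons (Lin.id c.eVS)
  | halt =>
    intro _
    exact (Lin.nil _).cons (Lin.id c.eVS)

/-- One machine step is a linear-cost map on valid running configurations. -/
lemma lin_step [Finite σ] [Finite Λ] (M : Λ → Stmt Γ Λ σ) (hM : ∀ l, pushes (M l) ⊆ c.R) :
    Lin (fun a : Λ × c.VS => c.encCfg ⟨some a.1, a.2.1.1, a.2.1.2⟩)
      (fun a => c.encCfg (stepAux (M a.1) a.2.1.1 a.2.1.2)) := by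
  refine Lin.finCases c.cΛ c.hΛ (fun a : Λ × c.VS => a.1) (Lin.id _).car.cdr
    (fun l a => c.encCfg (stepAux (M l) a.2.1.1 a.2.1.2)) fun l => ?_
  exact Lin.comp (eb := c.eVS) (h := fun a => c.encCfg (stepAux (M l) a.1.1 a.1.2))
    (fun a : Λ × c.VS => a.2) (Lin.id _).cdr (c.lin_stmt (M l) (hM l))

omit [DecidableEq K] in
lemma size_encCfg [Finite σ] [Finite Λ] : ∃ A : ℕ, ∀ (x : Cfg Γ Λ σ) (N : ℕ), Valid c.R x.stk →
    (∀ k, (x.stk k).length ≤ N) → (c.encCfg x).size ≤ A * (N + 1) := by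
  obtain ⟨A₁, h₁⟩ := (c.hR.image fun s => (c.code s).size).bddAbove
  obtain ⟨A₂, h₂⟩ := (Set.finite_range fun v => (c.cσ v).size).bddAbove
  obtain ⟨A₃, h₃⟩ := (Set.finite_range fun l : Option Λ => (c.encL l).size).bddAbove
  refine ⟨A₃ + A₂ + 3 + (A₁ + 3) * c.Ks.length, fun x N hx hN => ?_⟩
  have e1 : ∀ d ∈ c.Ks.map (c.encStk x.stk), d.size ≤ (A₁ + 1) * N + 1 := by
    intro d hd
    obtain ⟨k, -, rfl⟩ := List.mem_map.mp hd
    have := D.size_ofList_le ((x.stk k).map fun s => c.code ⟨k, s⟩) A₁ (by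
      intro e he
      obtain ⟨s, hs, rfl⟩ := List.mem_map.mp he
      exact h₁ ⟨_, hx k s hs, rfl⟩)
    simp only [List.length_map] at this
    exact this.trans (by have := Nat.mul_le_mul_left (A₁ + 1) (hN k); omega)
  have e2 := D.size_ofList_le _ _ e1
  have e3 : (c.cσ x.var).size ≤ A₂ := h₂ ⟨_, rfl⟩
  have e4 : (c.encL x.l).size ≤ A₃ := h₃ ⟨_, rfl⟩
  simp only [List.length_map] at e2
  simp only [encCfg, encVS, encS, D.size_cons]
  have e5 : ((A₁ + 1) * N + 1 + 1) * c.Ks.length ≤ (A₁ + 3) * c.Ks.length * (N + 1) := by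
    have : (A₁ + 1) * N + 1 + 1 ≤ (A₁ + 3) * (N + 1) := by nlinarith
    calc _ ≤ (A₁ + 3) * (N + 1) * c.Ks.length := Nat.mul_le_mul_right _ this
      _ = _ := by ring
  nlinarith [Nat.zero_le ((A₃ + A₂ + 3) * N)]

lemma iterate_none (M : Λ → Stmt Γ Λ σ) (m : ℕ) :
    (flip bind (step M))^[m] (none : Option (Cfg Γ Λ σ)) = none := by
  induction m with
  | zero => rfl
  | succ m ih => rw [Function.iterate_succ_apply]; exact ih

/-- The main loop. -/
lemma run [Finite σ] [Finite Λ] (M : Λ → Stmt Γ Λ σ) (hM : ∀ l, pushes (M l) ⊆ c.R) :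
    ∃ (p : Prog) (B E : ℕ), ∀ (m : ℕ) (x y : Cfg Γ Λ σ) (N : ℕ),
      (flip bind (step M))^[m] (some x) = some y → y.l = none → Valid c.R x.stk →
      (∀ k, (x.stk k).length ≤ N) →
      Valid c.R y.stk ∧ (∀ k, (y.stk k).length ≤ N + E * m) ∧
        EvalLe p (c.encCfg x) (c.encCfg y) (B * (m + 1) * (N + E * m + 1)) := by
  obtain ⟨b, K₀, hb⟩ := c.lin_step M hM
  obtain ⟨A, hA⟩ := c.size_encCfg
  obtain ⟨E, hE⟩ := (Set.finite_range fun l => depth (M l)).bddAbove
  refine ⟨.loop .car b, (K₀ + 1) * A, E, ?_⟩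
  intro m
  induction m with
  | zero =>
    intro x y N h hy hx hN
    simp only [Function.iterate_zero, id_eq, Option.some.injEq] at h
    subst h
    refine ⟨hx, by simpa using hN, ?_⟩
    have e1 := EvalLe.car_l (c.encCfg x)
    have e2 : (c.encCfg x).car = .nil := by simp [encCfg, hy, encL]
    rw [e2] at e1
    refine (EvalLe.loopNil_l e1).mono ?_
    have := hA x N hx hN
    nlinarith [Nat.zero_le (K₀ * A * (N + 1))]
  | succ m ih =>
    rintro ⟨l, v, S⟩ y N h hy hx hN
    rw [Function.iterate_succ_apply] at h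
    cases l with
    | none =>
      have : (flip bind (step M)) (some (⟨none, v, S⟩ : Cfg Γ Λ σ)) = none := rfl
      rw [this, iterate_none] at h
      simp at h
    | some l =>
      have : (flip bind (step M)) (some (⟨some l, v, S⟩ : Cfg Γ Λ σ)) =
          some (stepAux (M l) v S) := rfl
      rw [this] at h
      have hd : depth (M l) ≤ E := hE ⟨l, rfl⟩
      obtain ⟨r1, r2, r3⟩ := ih (stepAux (M l) v S) y (N + E) h hy
        (stepAux_valid _ (hM l) v S hx)
        (fun k => (stepAux_length (M l) v S N hN k).trans (by omega))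
      refine ⟨r1, fun k => (r2 k).trans (le_of_eq (by ring)), ?_⟩
      have e1 := EvalLe.car_l (c.encCfg ⟨some l, v, S⟩)
      have e2 : (c.encCfg ⟨some l, v, S⟩).car = .cons .nil (c.cΛ l) := by simp [encCfg, encL]
      rw [e2] at e1
      have e3 := hb (l, ⟨(v, S), hx⟩)
      refine (EvalLe.loopCons_l e1 e3 r3).mono ?_
      have hs := hA ⟨some l, v, S⟩ N hx hN
      have hs' : (c.encCfg ⟨some l, v, S⟩).size ≤ A * (N + E * (m + 1) + 1) :=
        hs.trans (Nat.mul_le_mul_left _ (by omega))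
      have e4 : N + E + E * m + 1 = N + E * (m + 1) + 1 := by ring
      rw [e4]
      nlinarith [Nat.mul_le_mul_left K₀ hs']

end Coding

/-- Unary numerals as trees. -/
def unary : ℕ → D
  | 0 => .nil
  | n + 1 => .cons .nil (unary n)

lemma unary_injective : Function.Injective unary := by
  intro a
  induction a with
  | zero => intro b h; cases b <;> simp_all [unary]
  | succ a ih =>
    intro b h
    cases b with
    | zero => simp [unary] at h
    | succ b => simp only [unary, D.cons.injEq, true_and] at h; rw [ih h]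

end Sim

/-- **Simulation theorem.** A bundled stack machine is simulated by a program of the tree language
with quadratic overhead. -/
theorem simulate {Γ₀ Γ₁ : Type} (e₀ : Γ₀ → D) (he₀ : Function.Injective e₀) (e₁ : Γ₁ → D)
    (M : TM2ComputableAux Γ₀ Γ₁) :
    ∃ (p : Prog) (K : ℕ), ∀ (l : List Γ₀) (l' : List Γ₁) (t : ℕ),
      TM2OutputsInTime M.tm (l.map M.inputAlphabet.invFun)
        (some (l'.map M.outputAlphabet.invFun)) t →
      EvalLe p (D.ofList (l.map e₀)) (D.ofList (l'.map e₁)) (K * (t + l.length + 1) ^ 2) := by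
  classical
  obtain ⟨tm, ein, eout⟩ := M
  let _ := tm.kFin
  let _ := tm.ΛFin
  let _ := tm.σFin
  let _ := tm.Γk₀Fin
  let R : Set (Σ k, tm.Γ k) :=
    (⋃ l, Sim.pushes (tm.m l)) ∪ Set.range (fun s : tm.Γ tm.k₀ => ⟨tm.k₀, s⟩)
  have hR : R.Finite :=
    (Set.finite_iUnion fun l => Sim.pushes_finite (tm.m l)).union (Set.finite_range _)
  obtain ⟨n₁, hn₁⟩ := Set.countable_iff_exists_injOn.mp hR.countable
  obtain ⟨n₂, hn₂⟩ := exists_injective_nat tm.σ
  obtain ⟨n₃, hn₃⟩ := exists_injective_nat tm.Λ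
  let c : Sim.Coding tm.Γ tm.Λ tm.σ :=
    { Ks := Finset.univ.toList
      hKs := fun k => by simp
      R := R
      hR := hR
      code := fun s => Sim.unary (n₁ s)
      hcode := fun a ha b hb h => hn₁ ha hb (Sim.unary_injective h)
      cσ := fun v => Sim.unary (n₂ v)
      hσ := Sim.unary_injective.comp hn₂
      cΛ := fun l => Sim.unary (n₃ l)
      hΛ := Sim.unary_injective.comp hn₃ }
  have hM : ∀ l, Sim.pushes (tm.m l) ⊆ c.R := fun l x hx => Or.inl (Set.mem_iUnion.mpr ⟨l, hx⟩)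
  have : Finite Γ₀ := Finite.of_equiv _ ein
  -- phase 1: recode the input
  obtain ⟨p₁, K₁, h₁⟩ := exists_map (Set.range e₀) (Set.finite_range _)
    (fun d => if H : ∃ s, e₀ s = d then c.code ⟨tm.k₀, ein.symm H.choose⟩ else .nil)
  -- phase 2: build the initial configuration
  obtain ⟨p₂, K₂, h₂⟩ : Lin (fun s : List (tm.Γ tm.k₀) => D.ofList (s.map fun x => c.code ⟨_, x⟩))
      (fun s => c.encCfg (initList tm s)) := by
    have hi : ∀ s : List (tm.Γ tm.k₀), D.cons (c.encL (some tm.main)) (.cons (c.cσ tm.initialState)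
        (c.encS (Function.update (fun _ => []) tm.k₀ s))) = c.encCfg (initList tm s) := by
      intro s; rw [initList_eq]; rfl
    refine Lin.congr ?_ hi
    refine (Lin.const _ _).cons ((Lin.const _ _).cons ?_)
    refine Lin.ofList_build (fun (s : List (tm.Γ tm.k₀)) j =>
      c.encStk (Function.update (fun _ => []) tm.k₀ s) j) c.Ks ?_
    intro j _
    by_cases hj : j = tm.k₀
    · subst hj
      refine (Lin.id _).congr fun s => ?_
      simp [Sim.Coding.encStk]
    · refine (Lin.nil _).congr fun s => ?_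
      simp [Sim.Coding.encStk, hj]
  -- phase 3: the run
  obtain ⟨p₃, B, E, h₃⟩ := c.run tm.m hM
  -- phase 4: extract the output stack
  obtain ⟨p₄, K₄, h₄⟩ : Lin (fun x : tm.Cfg => c.encCfg x) (fun x => c.encStk x.stk tm.k₁) :=
    Lin.ofList_get (fun (x : tm.Cfg) k => c.encStk x.stk k) tm.k₁ c.Ks (c.hKs _)
      (Lin.id _).cdr.cdr
  -- phase 5: recode the output
  obtain ⟨p₅, K₅, h₅⟩ := exists_map (c.code '' c.R) (c.hR.image _)
    (fun d => if H : ∃ s : tm.Γ tm.k₁, (⟨tm.k₁, s⟩ : Σ k, tm.Γ k) ∈ c.R ∧ c.code ⟨tm.k₁, s⟩ = d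
      then e₁ (eout H.choose) else .nil)
  refine ⟨.comp p₅ (.comp p₄ (.comp p₃ (.comp p₂ p₁))),
    K₁ + K₂ * K₁ + B * (E + 1) + K₄ * (B * (E + 1)) + K₅ * (E + 1) ^ 2, ?_⟩
  rintro l l' t ⟨⟨m, hm⟩, hmt⟩
  simp only at hm hmt
  have e₁' := h₁ (l.map e₀) (by
    intro d hd
    obtain ⟨s, -, rfl⟩ := List.mem_map.mp hd
    exact ⟨s, rfl⟩)
  have a₁ : (l.map e₀).map
      (fun d => if H : ∃ s, e₀ s = d then c.code ⟨tm.k₀, ein.symm H.choose⟩ else .nil) =
      (l.map ein.invFun).map fun x => c.code ⟨_, x⟩ := by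
    simp only [List.map_map]
    refine List.map_congr_left fun s _ => ?_
    have H : ∃ s', e₀ s' = e₀ s := ⟨s, rfl⟩
    simp only [Function.comp, dif_pos H, he₀ H.choose_spec]
    rfl
  rw [a₁] at e₁'
  have e₂' := h₂ (l.map ein.invFun)
  have hinit : Sim.Valid c.R (initList tm (l.map ein.invFun)).stk := by
    rw [initList_eq]
    exact Sim.Valid.update (fun k s hs => by simp at hs) _ _ fun s _ => Or.inr ⟨s, rfl⟩
  have hlen : ∀ k, ((initList tm (l.map ein.invFun)).stk k).length ≤ l.length := by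
    rw [initList_eq]
    intro k
    by_cases hk : k = tm.k₀
    · subst hk; simp
    · simp [hk]
  obtain ⟨r1, r2, e₃'⟩ := h₃ m (initList tm (l.map ein.invFun))
    (haltList tm (l'.map eout.invFun)) l.length hm rfl hinit hlen
  have e₄' := h₄ (haltList tm (l'.map eout.invFun))
  have a₄ : (haltList tm (l'.map eout.invFun)).stk tm.k₁ = l'.map eout.invFun := by
    rw [haltList_eq]; simp
  have r1' := r1 tm.k₁
  have r2' := r2 tm.k₁
  rw [a₄] at r1' r2'
  simp only [Sim.Coding.encStk, a₄] at e₄'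
  have e₅' := h₅ ((l'.map eout.invFun).map fun s => c.code ⟨tm.k₁, s⟩) (by
    intro d hd
    obtain ⟨s, hs, rfl⟩ := List.mem_map.mp hd
    exact ⟨_, r1' s hs, rfl⟩)
  have a₅ : ((l'.map eout.invFun).map fun s => c.code ⟨tm.k₁, s⟩).map
      (fun d => if H : ∃ s : tm.Γ tm.k₁, (⟨tm.k₁, s⟩ : Σ k, tm.Γ k) ∈ c.R ∧ c.code ⟨tm.k₁, s⟩ = d
        then e₁ (eout H.choose) else .nil) = l'.map e₁ := by
    simp only [List.map_map]
    refine List.map_congr_left fun s hs => ?_
    have hs' : (⟨tm.k₁, eout.invFun s⟩ : Σ k, tm.Γ k) ∈ c.R := r1' _ (List.mem_map_of_mem hs)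
    have H : ∃ s' : tm.Γ tm.k₁, (⟨tm.k₁, s'⟩ : Σ k, tm.Γ k) ∈ c.R ∧
        c.code ⟨tm.k₁, s'⟩ = c.code ⟨tm.k₁, eout.invFun s⟩ := ⟨_, hs', rfl⟩
    have := c.hcode H.choose_spec.1 hs' H.choose_spec.2
    simp only [Sigma.mk.injEq, heq_eq_eq, true_and] at this
    simp only [Function.comp, dif_pos H, this]
    simp
  rw [a₅] at e₅'
  refine ((((e₁'.comp_l e₂').comp_l e₃').comp_l e₄').comp_l e₅').mono ?_
  have s₁ := e₁'.size_out_le
  have s₃ := e₃'.size_out_le
  simp only [List.length_map] at s₁ r2' ⊢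
  set N := t + l.length + 1 with hN
  have b₁ : K₁ * (l.length + 1) ^ 2 ≤ K₁ * N ^ 2 :=
    Nat.mul_le_mul_left _ (Nat.pow_le_pow_left (by omega) 2)
  have c₁ : l.length + E * m + 1 ≤ (E + 1) * N := by
    have : E * m ≤ E * N := Nat.mul_le_mul_left _ (by omega)
    nlinarith
  have b₃ : B * (m + 1) * (l.length + E * m + 1) ≤ B * (E + 1) * N ^ 2 := by
    calc _ ≤ B * N * ((E + 1) * N) :=
          Nat.mul_le_mul (Nat.mul_le_mul_left _ (by omega)) c₁
      _ = _ := by ring
  have b₅ : K₅ * (l'.length + 1) ^ 2 ≤ K₅ * (E + 1) ^ 2 * N ^ 2 := by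
    calc _ ≤ K₅ * ((E + 1) * N) ^ 2 :=
          Nat.mul_le_mul_left _ (Nat.pow_le_pow_left (by omega) 2)
      _ = _ := by ring
  have b₂ := Nat.mul_le_mul_left K₂ (s₁.trans b₁)
  have b₄ := Nat.mul_le_mul_left K₄ (s₃.trans b₃)
  nlinarith

/-- Converse of `timeBoundComputable_of_evalLe`. -/
theorem evalLe_of_timeBoundComputable {α β Γ₀ Γ₁ : Type} (e₀ : Γ₀ → D)
    (he₀ : Function.Injective e₀) (e₁ : Γ₁ → D) {ea : α → List Γ₀} {eb : β → List Γ₁} {f : α → β}
    {T : ℕ → ℕ} (h : Crest.DTime.TimeBoundComputable ea eb f T) :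
    ∃ (p : Prog) (K : ℕ), ∀ a, EvalLe p (D.ofList ((ea a).map e₀)) (D.ofList ((eb (f a)).map e₁))
      (K * (T (ea a).length + (ea a).length + 1) ^ 2) := by
  obtain ⟨M, hM⟩ := h
  obtain ⟨p, K, hp⟩ := simulate e₀ he₀ e₁ M.toTM2ComputableAux
  refine ⟨p, K, fun a => (hp _ _ _ (M.outputsFun a)).mono ?_⟩
  have := hM (ea a).length
  exact Nat.mul_le_mul_left _ (Nat.pow_le_pow_left (by omega) 2)

/-- Converse of `polyTimeComputable_of_evalLe`. -/
theorem evalLe_of_polyTimeComputable {α β Γ₀ Γ₁ : Type} (e₀ : Γ₀ → D)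
    (he₀ : Function.Injective e₀) (e₁ : Γ₁ → D) {ea : α → List Γ₀} {eb : β → List Γ₁} {f : α → β}
    (h : Crest.Complexity.PolyTimeComputable ea eb f) :
    ∃ (p : Prog) (P : Polynomial ℕ), ∀ a,
      EvalLe p (D.ofList ((ea a).map e₀)) (D.ofList ((eb (f a)).map e₁)) (P.eval (ea a).length) := by
  obtain ⟨M⟩ := h
  obtain ⟨p, K, hp⟩ := simulate e₀ he₀ e₁ M.toTM2ComputableAux
  refine ⟨p, Polynomial.C K * (M.time + Polynomial.X + 1) ^ 2, fun a => ?_⟩
  simpa using hp _ _ _ (M.outputsFun a)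

lemma polynomial_eval_mono (P : Polynomial ℕ) {a b : ℕ} (h : a ≤ b) : P.eval a ≤ P.eval b := by
  induction P using Polynomial.induction_on' with
  | add p q hp hq => simp only [Polynomial.eval_add]; omega
  | monomial n c =>
    simp only [Polynomial.eval_monomial]
    exact Nat.mul_le_mul_left _ (Nat.pow_le_pow_left h n)

/-- The output of a polynomial-time map has polynomial length. -/
theorem polyTimeComputable_length_le {α β Γ₀ Γ₁ : Type} {ea : α → List Γ₀} {eb : β → List Γ₁}
    {f : α → β} (h : Crest.Complexity.PolyTimeComputable ea eb f) :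
    ∃ P : Polynomial ℕ, ∀ a, (eb (f a)).length ≤ P.eval (ea a).length := by
  obtain ⟨M⟩ := id h
  have : Finite Γ₀ := by
    let _ := M.tm.Γk₀Fin
    exact Finite.of_equiv _ M.inputAlphabet
  obtain ⟨n₀, hn₀⟩ := exists_injective_nat Γ₀
  obtain ⟨p, P, hp⟩ := evalLe_of_polyTimeComputable (fun s => Sim.unary (n₀ s))
    (Sim.unary_injective.comp hn₀) (fun _ => D.nil) h
  refine ⟨P, fun a => ?_⟩
  have h1 := (hp a).size_out_le
  have h2 := D.length_lt_size_ofList ((eb (f a)).map fun _ => D.nil)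
  simp only [List.length_map] at h2
  omega

/-- **Polynomial-time maps compose.** -/
theorem polyTimeComputable_comp {α β γ Γ₀ Γ₁ Γ₂ : Type} [Fintype Γ₂] [Inhabited Γ₂]
    {ea : α → List Γ₀} {eb : β → List Γ₁} {ec : γ → List Γ₂} {f : α → β} {g : β → γ}
    (hg : Crest.Complexity.PolyTimeComputable eb ec g)
    (hf : Crest.Complexity.PolyTimeComputable ea eb f) :
    Crest.Complexity.PolyTimeComputable ea ec (g ∘ f) := by
  obtain ⟨M⟩ := id hf
  obtain ⟨M'⟩ := id hg
  have : Finite Γ₀ := by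
    let _ := M.tm.Γk₀Fin
    exact Finite.of_equiv _ M.inputAlphabet
  have : Finite Γ₁ := by
    let _ := M'.tm.Γk₀Fin
    exact Finite.of_equiv _ M'.inputAlphabet
  let _ := Fintype.ofFinite Γ₀
  obtain ⟨n₀, hn₀⟩ := exists_injective_nat Γ₀
  obtain ⟨n₁, hn₁⟩ := exists_injective_nat Γ₁
  obtain ⟨n₂, hn₂⟩ := exists_injective_nat Γ₂
  obtain ⟨p, P, hp⟩ := evalLe_of_polyTimeComputable (fun s => Sim.unary (n₀ s))
    (Sim.unary_injective.comp hn₀) (fun s => Sim.unary (n₁ s)) hf
  obtain ⟨q, Q, hq⟩ := evalLe_of_polyTimeComputable (fun s => Sim.unary (n₁ s))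
    (Sim.unary_injective.comp hn₁) (fun s => Sim.unary (n₂ s)) hg
  refine polyTimeComputable_of_evalLe (fun s => Sim.unary (n₀ s)) (fun s => Sim.unary (n₂ s))
    (Sim.unary_injective.comp hn₂) ea ec (g ∘ f) (.comp q p) (P + Q.comp P) fun a => ?_
  refine ((hp a).comp_l (hq (f a))).mono ?_
  have h1 := (hp a).size_out_le
  have h2 := D.length_lt_size_ofList ((eb (f a)).map fun s => Sim.unary (n₁ s))
  simp only [List.length_map] at h2
  simp only [Polynomial.eval_add, Polynomial.eval_comp]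
  exact Nat.add_le_add_left (polynomial_eval_mono Q (by omega)) _

theorem polyTime_comp {f g : List Bool → List Bool} (hg : Crest.Complexity.PolyTime g)
    (hf : Crest.Complexity.PolyTime f) : Crest.Complexity.PolyTime (g ∘ f) :=
  polyTimeComputable_comp hg hf

theorem polyTimePred_comp {f : List Bool → List Bool} {g : List Bool → Bool}
    (hg : Crest.Complexity.PolyTimePred g) (hf : Crest.Complexity.PolyTime f) :
    Crest.Complexity.PolyTimePred (g ∘ f) :=
  polyTimeComputable_comp hg hf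

theorem polyTimeReducible_trans {A B C : Set (List Bool)}
    (h₁ : Crest.Complexity.PolyTimeReducible A B) (h₂ : Crest.Complexity.PolyTimeReducible B C) :
    Crest.Complexity.PolyTimeReducible A C := by
  obtain ⟨f, hf, h₁⟩ := h₁
  obtain ⟨g, hg, h₂⟩ := h₂
  exact ⟨g ∘ f, polyTime_comp hg hf, fun x => (h₁ x).trans (h₂ (f x))⟩

theorem inP_of_reducible {A B : Set (List Bool)}
    (h₁ : Crest.Complexity.PolyTimeReducible A B) (h₂ : Crest.Complexity.InP B) :
    Crest.Complexity.InP A := by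
  obtain ⟨f, hf, h₁⟩ := h₁
  obtain ⟨g, hg, h₂⟩ := h₂
  exact ⟨g ∘ f, polyTimePred_comp hg hf, fun x => (h₁ x).trans (h₂ (f x))⟩

theorem npHard_of_reducible {A B : Set (List Bool)} (h₁ : Crest.Complexity.NPHard A)
    (h₂ : Crest.Complexity.PolyTimeReducible A B) : Crest.Complexity.NPHard B :=
  fun L hL => polyTimeReducible_trans (h₁ L hL) h₂

end Crest.Agent.Lib.PT
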