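import Crest.Agent.Lib.PT.Rat
import Crest.Agent.Lib.PT.Simulate
import Crest.Prelude.Def_Randomized
import Crest.Prelude.Def_ExpTime

/-!
Polynomial-time toolkit: the bridge between `PT` / `TimeF` and the machine notions of the Prelude.

* `polyTime_iff_pt`, `polyTimePred_iff_pt`, `polyTimePred₂_iff_pt`, `randPolyTime_iff_pt`.
* `PT.extend`: a function that is `PT` on a *subset* of the inputs (for instance on the codes of
  valid instances) agrees there with a total `PT` function (clocked execution).
* `exists_polyTime_of_pt` and friends: the form used in the statements.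
-/

set_option autoImplicit false
set_option linter.dupNamespace false

namespace Crest.Agent.Lib.PT

open Crest.Complexity Crest.DTime Crest.Randomized

variable {α β γ δ σ : Type} [Enc α] [Enc β] [Enc γ] [Enc δ] [Enc σ]

/-! ### from `PT` to machines -/

lemma exists_sz_list_le (Γ : Type) [Enc Γ] [Finite Γ] :
    ∃ M : ℕ, ∀ l : List Γ, sz l ≤ M * l.length + 1 := by
  obtain ⟨M, hM⟩ := (Set.finite_range (fun x : Γ => sz x)).bddAbove
  exact ⟨M + 1, fun l => sz_list_le l M fun a _ => hM ⟨a, rfl⟩⟩

theorem TimeF.timeBoundComputable {A B Γ₀ Γ₁ : Type} [Enc Γ₀] [Enc Γ₁] [Finite Γ₀] [Finite Γ₁]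
    [Inhabited Γ₁] {g : List Γ₀ → List Γ₁} {S : List Γ₀ → ℕ} (hg : TimeF g S)
    (ea : A → List Γ₀) (eb : B → List Γ₁) (f : A → B) (h : ∀ a, g (ea a) = eb (f a))
    (T : ℕ → ℕ) (hT : ∀ a, S (ea a) ≤ T (ea a).length) :
    ∃ K : ℕ, TimeBoundComputable ea eb f (fun n => K * T n) := by
  have := Fintype.ofFinite Γ₀
  have := Fintype.ofFinite Γ₁
  obtain ⟨p, hp⟩ := hg
  refine timeBoundComputable_of_evalLe enc enc Enc.inj ea eb f p T fun a => ?_
  have := (hp (ea a)).mono (hT a)
  rwa [h] at this

theorem PT.polyTimeComputable {A B Γ₀ Γ₁ : Type} [Enc Γ₀] [Enc Γ₁] [Finite Γ₀] [Finite Γ₁]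
    [Inhabited Γ₁] {g : List Γ₀ → List Γ₁} (hg : PT g)
    (ea : A → List Γ₀) (eb : B → List Γ₁) (f : A → B) (h : ∀ a, g (ea a) = eb (f a)) :
    PolyTimeComputable ea eb f := by
  have := Fintype.ofFinite Γ₀
  have := Fintype.ofFinite Γ₁
  obtain ⟨c, k, p, hp⟩ := hg.exists_bound
  obtain ⟨M, hM⟩ := exists_sz_list_le Γ₀
  refine polyTimeComputable_of_evalLe enc enc Enc.inj ea eb f p
    (Polynomial.C c * (Polynomial.C M * Polynomial.X + 1) ^ k) fun a => ?_
  have := hp (ea a)
  rw [h] at this
  refine this.mono ?_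
  simp only [Polynomial.eval_mul, Polynomial.eval_C, Polynomial.eval_pow, Polynomial.eval_add,
    Polynomial.eval_X, Polynomial.eval_one]
  exact Nat.mul_le_mul_left _ (Nat.pow_le_pow_left (hM _) _)

/-! ### from machines to `PT` -/

/-- Running a fixed program on a computed input. -/
lemma TimeF.of_prog {u : α → β} {v : α → γ} {T S : α → ℕ} (hu : TimeF u T) (p : Prog)
    (hp : ∀ a, EvalLe p (enc (u a)) (enc (v a)) (S a)) : TimeF v (fun a => T a + S a) := by
  obtain ⟨q, hq⟩ := hu
  refine ⟨.comp p q, fun a => ?_⟩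
  obtain ⟨m, hm, h1⟩ := hq a
  obtain ⟨n, hn, h2⟩ := hp a
  exact ⟨m + n, by beta_reduce; omega, h1.comp h2⟩

lemma PT.of_prog {u : α → β} {v : α → γ} {S : α → ℕ} (hu : PT u) (hS : PB S) (p : Prog)
    (hp : ∀ a, EvalLe p (enc (u a)) (enc (v a)) (S a)) : PT v := by
  obtain ⟨T, hT, hu⟩ := hu
  exact (hu.of_prog p hp).pt (hT.add hS)

theorem PT.of_polyTimeComputable {A B Γ₀ Γ₁ : Type} [Enc Γ₀] [Enc Γ₁]
    {ea : A → List Γ₀} {eb : B → List Γ₁} {f : A → B} (hf : PolyTimeComputable ea eb f)
    {x : α → A} (hx : PT (fun a => ea (x a))) : PT (fun a => eb (f (x a))) := by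
  obtain ⟨p, P, hp⟩ := evalLe_of_polyTimeComputable (enc : Γ₀ → D) Enc.inj (enc : Γ₁ → D) hf
  exact hx.of_prog (S := fun a => P.eval (ea (x a)).length) (PB.polyEval P (PB.length hx)) p fun a => hp (x a)

theorem TimeF.of_timeBoundComputable {A B Γ₀ Γ₁ : Type} [Enc Γ₀] [Enc Γ₁]
    {ea : A → List Γ₀} {eb : B → List Γ₁} {f : A → B} {t : ℕ → ℕ}
    (hf : TimeBoundComputable ea eb f t) {x : α → A} {T : α → ℕ}
    (hx : TimeF (fun a => ea (x a)) T) :
    ∃ K : ℕ, TimeF (fun a => eb (f (x a)))
      (fun a => T a + K * (t (ea (x a)).length + (ea (x a)).length + 1) ^ 2) := by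
  obtain ⟨p, K, hp⟩ := evalLe_of_timeBoundComputable (enc : Γ₀ → D) Enc.inj (enc : Γ₁ → D) hf
  exact ⟨K, hx.of_prog p fun a => hp (x a)⟩

/-- A machine with time bound `t` runs in `PT` on inputs where `t` is polynomially bounded
(useful with padded inputs). -/
theorem PT.of_timeBoundComputable {A B Γ₀ Γ₁ : Type} [Enc Γ₀] [Enc Γ₁]
    {ea : A → List Γ₀} {eb : B → List Γ₁} {f : A → B} {t : ℕ → ℕ}
    (hf : TimeBoundComputable ea eb f t) {x : α → A} (hx : PT (fun a => ea (x a)))
    (ht : PB (fun a => t (ea (x a)).length)) : PT (fun a => eb (f (x a))) := by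
  obtain ⟨p, K, hp⟩ := evalLe_of_timeBoundComputable (enc : Γ₀ → D) Enc.inj (enc : Γ₁ → D) hf
  exact hx.of_prog (S := fun a => K * (t (ea (x a)).length + (ea (x a)).length + 1) ^ 2)
    ((PB.const K).mul (((ht.add (PB.length hx)).add (PB.const 1)).pow 2)) p fun a => hp (x a)

/-! ### bit strings, Booleans, pairs -/

lemma pairEnc_eq (p : List Bool × List Bool) :
    pairEnc p = p.1.map Sum.inl ++ p.2.map Sum.inr := rfl

/-- Inverse of `pairEnc`. -/
def unpair (l : List (Bool ⊕ Bool)) : List Bool × List Bool :=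
  (l.filterMap Sum.getLeft?, l.filterMap Sum.getRight?)

@[simp] lemma unpair_pairEnc (p : List Bool × List Bool) : unpair (pairEnc p) = p := by
  simp [unpair, pairEnc_eq, List.filterMap_map]

@[simp] lemma length_pairEnc (p : List Bool × List Bool) :
    (pairEnc p).length = p.1.length + p.2.length := by simp [pairEnc_eq]

@[fun_prop] protected lemma PT.unpair {l : α → List (Bool ⊕ Bool)} (hl : PT l) :
    PT (fun a => unpair (l a)) := by unfold unpair; fun_prop

@[fun_prop] protected lemma PT.pairEnc {p : α → List Bool × List Bool} (hp : PT p) :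
    PT (fun a => pairEnc (p a)) := by simp only [pairEnc_eq]; fun_prop

theorem PT.polyTime {f : List Bool → List Bool} (hf : PT f) : PolyTime f :=
  hf.polyTimeComputable _ _ f fun _ => rfl

theorem PT.polyTimePred {f : List Bool → Bool} (hf : PT f) : PolyTimePred f :=
  PT.polyTimeComputable (g := fun x => [f x]) (by fun_prop) _ _ f fun _ => rfl

theorem PT.polyTimePred₂ {f : List Bool × List Bool → Bool} (hf : PT f) : PolyTimePred₂ f :=
  PT.polyTimeComputable (g := fun x => [f (unpair x)]) (by fun_prop) _ _ f fun a => by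
    rw [unpair_pairEnc]; rfl

theorem PT.randPolyTime {f : List Bool × List Bool → List Bool} (hf : PT f) : RandPolyTime f :=
  PT.polyTimeComputable (g := fun x => f (unpair x)) (by fun_prop) _ _ f fun a => by
    rw [unpair_pairEnc]; rfl

theorem pt_of_polyTime {f : List Bool → List Bool} (hf : PolyTime f) : PT f :=
  PT.of_polyTimeComputable hf (x := fun a => a) PT.id

theorem pt_of_polyTimePred {f : List Bool → Bool} (hf : PolyTimePred f) : PT f :=
  (PT.of_polyTimeComputable hf (x := fun a => a) PT.id).headI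

theorem pt_of_polyTimePred₂ {f : List Bool × List Bool → Bool} (hf : PolyTimePred₂ f) : PT f :=
  (PT.of_polyTimeComputable hf (x := fun a => a) PT.id.pairEnc).headI

theorem pt_of_randPolyTime {f : List Bool × List Bool → List Bool} (hf : RandPolyTime f) : PT f :=
  PT.of_polyTimeComputable hf (x := fun a => a) PT.id.pairEnc

theorem polyTime_iff_pt {f : List Bool → List Bool} : PolyTime f ↔ PT f :=
  ⟨pt_of_polyTime, PT.polyTime⟩

theorem polyTimePred_iff_pt {f : List Bool → Bool} : PolyTimePred f ↔ PT f :=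
  ⟨pt_of_polyTimePred, PT.polyTimePred⟩

theorem polyTimePred₂_iff_pt {f : List Bool × List Bool → Bool} : PolyTimePred₂ f ↔ PT f :=
  ⟨pt_of_polyTimePred₂, PT.polyTimePred₂⟩

theorem randPolyTime_iff_pt {f : List Bool × List Bool → List Bool} : RandPolyTime f ↔ PT f :=
  ⟨pt_of_randPolyTime, PT.randPolyTime⟩

theorem inP_iff_pt {L : Set (List Bool)} :
    InP L ↔ ∃ f : List Bool → Bool, PT f ∧ ∀ x, x ∈ L ↔ f x = true := by
  simp only [InP, polyTimePred_iff_pt]

theorem reducible_iff_pt {A B : Set (List Bool)} :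
    PolyTimeReducible A B ↔ ∃ f : List Bool → List Bool, PT f ∧ ∀ x, x ∈ A ↔ f x ∈ B := by
  simp only [PolyTimeReducible, polyTime_iff_pt]

theorem inNP_iff_pt {L : Set (List Bool)} :
    InNP L ↔ ∃ (V : List Bool × List Bool → Bool) (p : Polynomial ℕ), PT V ∧
      ∀ x, x ∈ L ↔ ∃ w : List Bool, w.length ≤ p.eval x.length ∧ V (x, w) = true := by
  simp only [InNP, polyTimePred₂_iff_pt]

/-- A polynomially bounded quantity on bit strings is bounded by a polynomial in the length. -/
lemma PB.exists_poly {n : List Bool → ℕ} (hn : PB n) :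
    ∃ p : Polynomial ℕ, ∀ x, n x ≤ p.eval x.length := by
  obtain ⟨c, k, h⟩ := hn
  refine ⟨Polynomial.C c * (Polynomial.C 6 * Polynomial.X + 1) ^ k, fun x => ?_⟩
  simpa [sz_boolList] using h x

/-- Membership in NP with a certificate of polynomially bounded length. -/
theorem inNP_of_pt {L : Set (List Bool)} (V : List Bool × List Bool → Bool) (hV : PT V)
    (b : List Bool → ℕ) (hb : PB b) (h1 : ∀ x ∈ L, ∃ w : List Bool, w.length ≤ b x ∧ V (x, w) = true)
    (h2 : ∀ x w, V (x, w) = true → x ∈ L) : InNP L := by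
  obtain ⟨p, hp⟩ := hb.exists_poly
  refine inNP_iff_pt.2 ⟨V, p, hV, fun x => ⟨fun hx => ?_, fun ⟨w, _, hw⟩ => h2 x w hw⟩⟩
  obtain ⟨w, hw, h⟩ := h1 x hx
  exact ⟨w, hw.trans (hp x), h⟩

theorem inNP_of_inP {L : Set (List Bool)} (h : InP L) : InNP L := by
  obtain ⟨f, hf, h⟩ := inP_iff_pt.1 h
  exact inNP_of_pt (fun p => f p.1) (by fun_prop) (fun _ => 0) (by fun_prop)
    (fun x hx => ⟨[], le_rfl, (h x).1 hx⟩) (fun x _ hw => (h x).2 hw)

theorem inNP_of_reducible {A B : Set (List Bool)} (h : PolyTimeReducible A B) (hB : InNP B) :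
    InNP A := by
  obtain ⟨f, hf, h⟩ := reducible_iff_pt.1 h
  obtain ⟨V, p, hV, hB⟩ := inNP_iff_pt.1 hB
  refine inNP_of_pt (fun q => V (f q.1, q.2) && decide (q.2.length ≤ p.eval (f q.1).length))
    (by fun_prop) (fun x => p.eval (f x).length) (by fun_prop) (fun x hx => ?_) (fun x w hw => ?_)
  · obtain ⟨w, h1, h2⟩ := (hB _).1 ((h x).1 hx)
    exact ⟨w, h1, by simp [h1, h2]⟩
  · simp only [Bool.and_eq_true, decide_eq_true_eq] at hw
    exact (h x).2 ((hB _).2 ⟨w, hw.2, hw.1⟩)

/-! ### clocked execution -/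

lemma pt_dsize : PT D.size := by
  refine PT.of_while (σ := List D × ℕ)
    (fun s => s.1.head?.elim s
      (fun d => (D.iteNil d s.1.tail (d.car :: d.cdr :: s.1.tail), s.2 + 1)))
    (fun s => !s.1.isEmpty) (fun d => ([d], 0)) (fun s => s.2)
    (fun d s => (s.1.map D.size).sum + s.2 = d.size) (fun s => (s.1.map D.size).sum)
    (fun d => 8 * sz d + 3) (by fun_prop) (by fun_prop) (by fun_prop) (by fun_prop)
    (PB.sz_id.of_le fun d => by simp [sz_D]) (by have := @PB.sz_id D _; fun_prop)
    (fun d => by simp) ?_ ?_ ?_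
  · rintro d ⟨st, n⟩ h hc
    cases st with
    | nil => simp at hc
    | cons q st => cases q <;> simp at h ⊢ <;> omega
  · rintro d ⟨st, n⟩ h
    have : ∀ l : List D, sz l ≤ 2 * (l.map D.size).sum + 1 := by
      intro l
      induction l with
      | nil => simp
      | cons q l ih =>
        have := q.size_pos
        simp only [sz_cons, List.map_cons, List.sum_cons, sz_D]
        omega
    have h1 := this st
    have h2 := sz_nat_le_self n
    simp only [sz_pair, sz_D] at h ⊢
    omega
  · rintro d ⟨st, n⟩ h hc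
    have : st = [] := by simpa using hc
    subst this
    simpa using h

@[fun_prop] protected lemma PT.dsize {d : α → D} (hd : PT d) : PT (fun a => (d a).size) :=
  pt_dsize.comp hd

/-- The size of the encoding is itself computable. -/
@[fun_prop] protected lemma PT.sz {x : α → β} (hx : PT x) : PT (fun a => sz (x a)) :=
  hx.enc.dsize

/-- Execution of a program with every loop cut off after `n` rounds and at size `n`. -/
def clock : Prog → ℕ → D → D
  | .nil, _, _ => .nil
  | .id, _, x => x
  | .car, _, x => x.car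
  | .cdr, _, x => x.cdr
  | .cons p q, n, x => .cons (clock p n x) (clock q n x)
  | .comp p q, n, x => clock p n (clock q n x)
  | .ite c p q, n, x => D.iteNil (clock c n x) (clock p n x) (clock q n x)
  | .loop c b, n, x => (fun s => D.iteNil (clock c n s) s
      (if (clock b n s).size ≤ n then clock b n s else .nil))^[n] x

lemma pt_clock (p : Prog) : PT (fun a : List Unit × D => clock p a.1.length a.2) := by
  induction p with
  | nil => exact PT.const _
  | id => exact PT.id.snd
  | car => exact PT.id.snd.car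
  | cdr => exact PT.id.snd.cdr
  | cons p q hp hq => exact hp.dcons hq
  | comp p q hp hq => exact hp.comp (PT.id.fst.pair hq)
  | ite c p q hc hp hq => exact hc.iteNil hp hq
  | loop c b hc hb =>
    have hc' : PT (fun a : (List Unit × D) × D => clock c a.1.1.length a.2) :=
      hc.comp (PT.id.fst.fst.pair PT.id.snd)
    have hb' : PT (fun a : (List Unit × D) × D => clock b a.1.1.length a.2) :=
      hb.comp (PT.id.fst.fst.pair PT.id.snd)
    refine PT.iterate_inv (f := fun (a : List Unit × D) s => D.iteNil (clock c a.1.length s) s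
      (if (clock b a.1.length s).size ≤ a.1.length then clock b a.1.length s else .nil))
      (fun a s => s.size ≤ sz a) (fun a => sz a)
      (hc'.iteNil PT.id.snd (PT.ite (hb'.dsize.decide_le PT.id.fst.fst.length) hb' (PT.const _)))
      PT.id.fst.length (PB.length PT.id.fst) PT.id.snd PB.sz_id (fun a => sz_snd_le a) ?_
      (fun _ _ h => h)
    intro a s hs
    have h1 := length_le_sz a.1
    have h2 := sz_fst_le a
    have h3 := sz_pos a
    cases clock c a.1.length s with
    | nil => simpa using hs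
    | cons u v => simp only [D.iteNil_cons]; split_ifs with h <;> simp <;> omega

lemma clock_eq {p : Prog} {x y : D} {k : ℕ} (h : Eval p x y k) (n : ℕ) (hn : k ≤ n) :
    clock p n x = y := by
  suffices H : clock p n x = y ∧ ∀ c b, p = .loop c b → ∀ j, k ≤ j →
      (fun s => D.iteNil (clock c n s) s
        (if (clock b n s).size ≤ n then clock b n s else .nil))^[j] x = y from H.1
  induction h with
  | nil x => simp [clock]
  | id x => simp [clock]
  | car x => simp [clock]
  | cdr x => simp [clock]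
  | cons _ _ h1 h2 => simp [clock, (h1 (by omega)).1, (h2 (by omega)).1]
  | comp _ _ h1 h2 => simp [clock, (h1 (by omega)).1, (h2 (by omega)).1]
  | iteNil _ _ h1 h2 => simp [clock, (h1 (by omega)).1, (h2 (by omega)).1]
  | iteCons _ _ h1 h2 => simp [clock, (h1 (by omega)).1, (h2 (by omega)).1]
  | @loopNil c b x m _ h1 =>
    have key : ∀ j, (fun s => D.iteNil (clock c n s) s
        (if (clock b n s).size ≤ n then clock b n s else .nil))^[j] x = x := fun j =>
      Function.iterate_fixed (by simp [(h1 hn).1]) j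
    refine ⟨key n, ?_⟩
    rintro c' b' ⟨⟩ j _
    exact key j
  | @loopCons c b x u v y z m n' k e1 e2 _ h1 h2 h3 =>
    have key : ∀ j, m + n' + k ≤ j → (fun s => D.iteNil (clock c n s) s
        (if (clock b n s).size ≤ n then clock b n s else .nil))^[j] x = z := by
      intro j hj
      have := e1.pos
      have := e2.size_out_le
      obtain ⟨j, rfl⟩ : ∃ i, j = i + 1 := ⟨j - 1, by omega⟩
      rw [Function.iterate_succ_apply]
      simp only [(h1 (by omega)).1, (h2 (by omega)).1, D.iteNil_cons,
        if_pos (show y.size ≤ n by omega)]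
      exact (h3 (by omega)).2 c b rfl j (by omega)
    refine ⟨key n hn, ?_⟩
    rintro c' b' ⟨⟩ j hj
    exact key j hj

protected lemma PT.clock (p : Prog) {n : α → ℕ} {x : α → D} (hn : PT n) (hb : PB n) (hx : PT x) :
    PT (fun a => clock p (n a) (x a)) :=
  ((pt_clock p).comp ((hn.replicate hb (PT.const ())).pair hx)).congr fun a => by simp

/-- A function which is `PT` on a type `ι` whose encoding is that of `e i : α` extends to a total
`PT` function on `α`. -/
theorem PT.extend {ι : Type} [Enc ι] {g : ι → β} (hg : PT g) (e : ι → α)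
    (he : ∀ i, enc i = enc (e i)) : ∃ G : α → D, PT G ∧ ∀ i, G (e i) = enc (g i) := by
  obtain ⟨c, k, p, hp⟩ := hg.exists_bound
  have h1 : PB (fun a : α => sz a) := PB.sz_id
  refine ⟨fun a => clock p (c * sz a ^ k) (enc a),
    PT.clock p (by fun_prop) (by fun_prop) PT.id.enc, fun i => ?_⟩
  obtain ⟨m, hm, h⟩ := hp i
  rw [he] at h
  refine clock_eq h _ ?_
  simpa only [sz, he] using hm

/-- The same with `PT` translations in both directions instead of equal encodings: `e` has a
`PT` inverse on its range in the sense that `i ↦ i` is `PT` from the encoding through `e`. -/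
theorem PT.extend' {ι : Type} {g : ι → β} (e : ι → α) (he : Function.Injective e)
    (hg : @PT ι β (Enc.ofInj e he) _ g) : ∃ G : α → D, PT G ∧ ∀ i, G (e i) = enc (g i) :=
  @PT.extend α β _ _ ι (Enc.ofInj e he) g hg e fun _ => rfl

/-- Types with a total `PT` decoder from trees. -/
class Dec (β : Type) [Enc β] where
  /-- the decoder -/
  dec : D → β
  /-- it inverts the encoding -/
  dec_enc : ∀ b, dec (enc b) = b
  /-- it is polynomial-time -/
  pt : PT dec

/-- A tree read as the list of the left subtrees along its right spine. -/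
def D.toList : D → List D
  | .nil => []
  | .cons a b => a :: b.toList

lemma enc_toList (d : D) : enc d.toList = enc d := by
  induction d with
  | nil => rfl
  | cons a b _ ih => rw [D.toList, enc_cons, ih]; rfl

lemma toList_enc (l : List α) : D.toList (enc l) = l.map enc := by
  induction l with
  | nil => rfl
  | cons a l ih => rw [enc_cons, D.toList, ih]; rfl

@[fun_prop] protected lemma PT.toList {d : α → D} (hd : PT d) : PT (fun a => (d a).toList) :=
  hd.of_enc fun _ => enc_toList _

instance : Dec D := ⟨fun d => d, fun _ => rfl, PT.id⟩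
instance : Dec Unit := ⟨fun _ => (), fun _ => rfl, PT.const _⟩
instance : Dec Bool := ⟨fun d => D.iteNil d.car false true, fun b => by cases b <;> rfl,
  by fun_prop⟩
instance [Dec α] [Dec β] : Dec (α × β) :=
  ⟨fun d => (Dec.dec d.car, Dec.dec d.cdr), fun p => by simp [enc_prod, Dec.dec_enc],
    (Dec.pt.comp PT.id.car).pair (Dec.pt.comp PT.id.cdr)⟩
instance [Dec α] : Dec (List α) :=
  ⟨fun d => d.toList.map Dec.dec, fun l => by
      simp [toList_enc, List.map_map, Function.comp_def, Dec.dec_enc],
    PT.id.toList.map (g := fun _ x => Dec.dec x) (Dec.pt.comp PT.id.snd)⟩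
instance [Dec α] : Dec (Option α) :=
  ⟨fun d => D.iteNil d none (some (Dec.dec d.cdr)), fun o => by
      cases o <;> simp [enc_none, enc_some, Dec.dec_enc],
    PT.id.iteNil (PT.const _) (Dec.pt.comp PT.id.cdr).some⟩
instance [Dec α] [Dec β] : Dec (α ⊕ β) :=
  ⟨fun d => D.iteNil d.car (Sum.inl (Dec.dec d.cdr)) (Sum.inr (Dec.dec d.cdr)), fun s => by
      cases s <;> simp [enc_inl, enc_inr, Dec.dec_enc],
    PT.id.car.iteNil (Dec.pt.comp PT.id.cdr).inl (Dec.pt.comp PT.id.cdr).inr⟩
instance : Dec ℕ :=
  ⟨fun d => ofBits (Dec.dec d), fun n => by rw [enc_nat, Dec.dec_enc, ofBits_bits],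
    Dec.pt.ofBits⟩
instance : Dec ℤ :=
  ⟨fun d => cond (Dec.dec d : Bool × ℕ).1 (-((Dec.dec d : Bool × ℕ).2 : ℤ))
      ((Dec.dec d : Bool × ℕ).2 : ℤ), fun z => by
      have : (Dec.dec (enc z) : Bool × ℕ) = (decide (z < 0), z.natAbs) := Dec.dec_enc _
      rw [this]
      by_cases h : z < 0
      · simp only [h, decide_true, cond_true]; omega
      · simp only [h, decide_false, cond_false]; omega,
    Dec.pt.fst.cond Dec.pt.snd.intNatCast.intNeg Dec.pt.snd.intNatCast⟩
instance : Dec ℚ :=
  ⟨fun d => mkRat (Dec.dec d : ℤ × ℕ).1 (Dec.dec d : ℤ × ℕ).2, fun q => by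
      have : (Dec.dec (enc q) : ℤ × ℕ) = (q.num, q.den) := Dec.dec_enc _
      rw [this]
      exact Rat.mkRat_self q,
    Dec.pt.fst.mkRat Dec.pt.snd⟩

/-- Extension to a total `PT` function with values in a decodable type. -/
theorem PT.extendDec [Dec β] {ι : Type} [Enc ι] {g : ι → β} (hg : PT g) (e : ι → α)
    (he : ∀ i, enc i = enc (e i)) : ∃ G : α → β, PT G ∧ ∀ i, G (e i) = g i := by
  obtain ⟨G, hG, h⟩ := hg.extend e he
  exact ⟨fun a => Dec.dec (G a), Dec.pt.comp hG, fun i => by simp only [h, Dec.dec_enc]⟩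

/-- Extension from a subset. -/
theorem PT.extend_subtype [Dec β] {P : α → Prop} {g : Subtype P → β} (hg : PT g) :
    ∃ G : α → β, PT G ∧ ∀ a (h : P a), G a = g ⟨a, h⟩ := by
  obtain ⟨G, hG, h⟩ := hg.extendDec Subtype.val fun _ => rfl
  exact ⟨G, hG, fun a ha => h ⟨a, ha⟩⟩

/-- The usual shape of a statement: instances `i : ι` are encoded by their code (`he`), the answer
`g i` is `PT` in the instance. -/
theorem exists_polyTime_of_pt {ι : Type} [Enc ι] (code : ι → List Bool)
    (he : ∀ i, enc i = enc (code i)) {g : ι → List Bool} (hg : PT g) :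
    ∃ f : List Bool → List Bool, PolyTime f ∧ ∀ i, f (code i) = g i := by
  obtain ⟨G, hG, h⟩ := hg.extendDec code he
  exact ⟨G, hG.polyTime, h⟩

theorem exists_polyTimePred_of_pt {ι : Type} [Enc ι] (code : ι → List Bool)
    (he : ∀ i, enc i = enc (code i)) {g : ι → Bool} (hg : PT g) :
    ∃ f : List Bool → Bool, PolyTimePred f ∧ ∀ i, f (code i) = g i := by
  obtain ⟨G, hG, h⟩ := hg.extendDec code he
  exact ⟨G, hG.polyTimePred, h⟩

theorem exists_randPolyTime_of_pt {ι : Type} [Enc ι] (code : ι → List Bool)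
    (he : ∀ i, enc i = enc (code i)) {g : ι × List Bool → List Bool} (hg : PT g) :
    ∃ A : List Bool × List Bool → List Bool, RandPolyTime A ∧
      ∀ i w, A (code i, w) = g (i, w) := by
  obtain ⟨G, hG, h⟩ := hg.extendDec (fun p : ι × List Bool => (code p.1, p.2))
    fun p => by rw [enc_prod, enc_pair, he]
  exact ⟨G, hG.randPolyTime, fun i w => h (i, w)⟩

/-- With `Enc ι` given by the code, the code itself is `PT`. -/
lemma PT.code {ι : Type} [Enc ι] (code : ι → β) (he : ∀ i, enc i = enc (code i)) : PT code :=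
  PT.id.of_enc fun i => (he i).symm

end Crest.Agent.Lib.PT
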