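import Crest.Agent.Lib.PT.Parse

/-!
Polynomial-time toolkit: dependent types (`Σ`, `Fin (n a) → β`, matrices, `ZMod (p a)`), and loops
whose body is only known to be polynomial-time on the states that really occur.

For a dependent function `f : (a : α) → τ a` the statement "`f` is polynomial-time" is written
`PT (fun a => enc (f a))`.
-/

set_option autoImplicit false
set_option linter.dupNamespace false

namespace Crest.Agent.Lib.PT

instance instEncSigma {α : Type} {τ : α → Type} [Enc α] [∀ a, Enc (τ a)] : Enc (Sigma τ) :=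
  ⟨fun p => .cons (enc p.1) (enc p.2), by
    rintro ⟨a, b⟩ ⟨c, d⟩ h
    simp only [D.cons.injEq] at h
    obtain rfl := Enc.inj h.1
    rw [Enc.inj h.2]⟩

instance instEncFinFun {β : Type} [Enc β] {n : ℕ} : Enc (Fin n → β) :=
  Enc.ofInj List.ofFn List.ofFn_injective

instance instEncMatrix {β : Type} [Enc β] {m n : ℕ} : Enc (Matrix (Fin m) (Fin n) β) :=
  inferInstanceAs (Enc (Fin m → Fin n → β))

instance instEncZMod {n : ℕ} [NeZero n] : Enc (ZMod n) := Enc.ofInj ZMod.val (ZMod.val_injective n)

lemma maskCode_injective (n : ℕ) : Function.Injective (Crest.Enc.maskCode n) := by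
  intro s t h
  ext i
  have := List.map_inj_left.1 h i (List.mem_finRange i)
  simpa using this

instance instEncFinset {n : ℕ} : Enc (Finset (Fin n)) :=
  Enc.ofInj (Crest.Enc.maskCode n) (maskCode_injective n)

variable {α β γ δ σ : Type} [Enc α] [Enc β] [Enc γ] [Enc δ] [Enc σ]

lemma enc_sigma {τ : α → Type} [∀ a, Enc (τ a)] (p : Sigma τ) :
    enc p = D.cons (enc p.1) (enc p.2) := rfl
lemma sz_sigma {τ : α → Type} [∀ a, Enc (τ a)] (p : Sigma τ) : sz p = sz p.1 + sz p.2 + 1 := rfl
lemma enc_finFun {n : ℕ} (v : Fin n → β) : enc v = enc (List.ofFn v) := rfl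
lemma sz_finFun {n : ℕ} (v : Fin n → β) : sz v = sz (List.ofFn v) := rfl
lemma enc_fin {n : ℕ} (i : Fin n) : enc i = enc (i : ℕ) := rfl
lemma enc_zmod {n : ℕ} [NeZero n] (x : ZMod n) : enc x = enc x.val := rfl
lemma sz_zmod_le {n : ℕ} [NeZero n] (x : ZMod n) : sz x ≤ sz n :=
  sz_nat_mono (ZMod.val_lt x).le
lemma enc_finset {n : ℕ} (s : Finset (Fin n)) : enc s = enc (Crest.Enc.maskCode n s) := rfl
lemma sz_finset {n : ℕ} (s : Finset (Fin n)) : sz s = 6 * n + 1 := by
  show sz (Crest.Enc.maskCode n s) = _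
  simp [sz_boolList, Crest.Enc.maskCode]

lemma enc_list_map_enc (l : List β) : enc (l.map (enc : β → D)) = enc l := by
  simp only [enc_list, List.map_map]; rfl

lemma enc_map_congr {ι : Type} (l : List ι) (f : ι → β) (g : ι → γ)
    (h : ∀ x ∈ l, enc (f x) = enc (g x)) : enc (l.map f) = enc (l.map g) := by
  simp only [enc_list, List.map_map]
  exact congrArg _ (List.map_congr_left h)

lemma enc_ofFn_congr {n : ℕ} (f : Fin n → β) (g : Fin n → γ) (h : ∀ i, enc (f i) = enc (g i)) :
    enc (List.ofFn f) = enc (List.ofFn g) := by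
  rw [List.ofFn_eq_map, List.ofFn_eq_map]
  exact enc_map_congr _ _ _ fun i _ => h i

lemma enc_matrix {m n : ℕ} (M : Matrix (Fin m) (Fin n) β) :
    enc M = enc (List.ofFn fun i => List.ofFn (M i)) :=
  enc_ofFn_congr (β := Fin n → β) M _ fun _ => rfl

lemma sz_finFun_le {n : ℕ} (v : Fin n → β) (M : ℕ) (h : ∀ i, sz (v i) ≤ M) :
    sz v ≤ (M + 1) * n + 1 := by
  have := sz_list_le (List.ofFn v) M (by simpa [List.mem_ofFn] using h)
  simpa [sz_finFun] using this

lemma sz_matrix_le {m n : ℕ} (A : Matrix (Fin m) (Fin n) β) (M : ℕ) (h : ∀ i j, sz (A i j) ≤ M) :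
    sz A ≤ ((M + 1) * n + 2) * m + 1 :=
  sz_finFun_le (β := Fin n → β) A _ fun i => sz_finFun_le (A i) M (h i)

lemma sz_apply_le {n : ℕ} (v : Fin n → β) (i : Fin n) : sz (v i) ≤ sz v :=
  sz_le_of_mem (l := List.ofFn v) (by simp [List.mem_ofFn])

lemma sz_entry_le {m n : ℕ} (A : Matrix (Fin m) (Fin n) β) (i : Fin m) (j : Fin n) :
    sz (A i j) ≤ sz A :=
  (sz_apply_le (A i) j).trans (sz_apply_le (β := Fin n → β) A i)

lemma ofFn_eq_map_range {β : Type} (n : ℕ) (g : ℕ → β) :
    List.ofFn (fun i : Fin n => g i) = (List.range n).map g := by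
  rw [List.ofFn_eq_map, ← List.map_coe_finRange_eq_range, List.map_map]; rfl

section Sigma

variable {τ : β → Type} [∀ b, Enc (τ b)]

@[fun_prop] protected lemma PT.sigmaFst {f : α → Sigma τ} (hf : PT f) : PT (fun a => (f a).1) :=
  hf.enc.car.of_enc fun _ => rfl

protected lemma PT.sigmaSnd {f : α → Sigma τ} (hf : PT f) : PT (fun a => enc (f a).2) :=
  hf.enc.cdr.of_enc fun _ => rfl

/-- The second component, when the family is constant. -/
protected lemma PT.sigmaSnd' {f : α → Σ _ : β, γ} (hf : PT f) : PT (fun a => (f a).2) :=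
  hf.enc.cdr.of_enc fun _ => rfl

protected lemma PT.sigmaMk {x : α → β} {y : (a : α) → τ (x a)} (hx : PT x)
    (hy : PT (fun a => enc (y a))) : PT (fun a => (⟨x a, y a⟩ : Sigma τ)) :=
  (hx.pair hy).of_enc fun _ => rfl

@[fun_prop] protected lemma PT.sigmaFinVal {n : β → ℕ} {f : α → Σ b, Fin (n b)} (hf : PT f) :
    PT (fun a => ((f a).2 : ℕ)) := hf.sigmaSnd.of_enc fun _ => rfl

@[fun_prop] protected lemma PB.finVal' {n : α → ℕ} (i : (a : α) → Fin (n a)) (hn : PB n) :
    PB (fun a => (i a : ℕ)) := hn.of_le fun a => (i a).2.le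

end Sigma

section DepData

variable {τ ρ κ : α → Type} [∀ a, Enc (τ a)] [∀ a, Enc (ρ a)] [∀ a, Enc (κ a)]

protected lemma PT.dep_of_pt {f : α → β} (hf : PT f) : PT (fun a => enc (f a)) := hf.enc

protected lemma PT.of_dep {f : α → β} (hf : PT (fun a => enc (f a))) : PT f :=
  hf.of_enc fun _ => rfl

protected lemma PT.dfst {f : (a : α) → τ a × ρ a} (hf : PT (fun a => enc (f a))) :
    PT (fun a => enc (f a).1) := hf.car

protected lemma PT.dsnd {f : (a : α) → τ a × ρ a} (hf : PT (fun a => enc (f a))) :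
    PT (fun a => enc (f a).2) := hf.cdr

protected lemma PT.dpair {f : (a : α) → τ a} {g : (a : α) → ρ a} (hf : PT (fun a => enc (f a)))
    (hg : PT (fun a => enc (g a))) : PT (fun a => enc (f a, g a)) := hf.dcons hg

protected lemma PT.dite {P : α → Prop} [∀ a, Decidable (P a)] {f g : (a : α) → τ a}
    (hP : PT (fun a => decide (P a))) (hf : PT (fun a => enc (f a)))
    (hg : PT (fun a => enc (g a))) : PT (fun a => enc (if P a then f a else g a)) :=
  (PT.ite hP hf hg).congr fun a => by split_ifs <;> rfl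

protected lemma PT.dep_decide_eq {f g : (a : α) → τ a} [∀ a, Decidable (f a = g a)]
    (hf : PT (fun a => enc (f a))) (hg : PT (fun a => enc (g a))) :
    PT (fun a => decide (f a = g a)) :=
  (hf.decide_eq hg).congr fun a => by simp only [Enc.inj.eq_iff]

/-- Apply a function of dependent data to a dependent argument. -/
protected lemma PT.dcomp {g : (a : α) → τ a → β} (hg : PT (fun p : Sigma τ => g p.1 p.2))
    {x : (a : α) → τ a} (hx : PT (fun a => enc (x a))) : PT (fun a => g a (x a)) :=
  hg.comp (f := fun a => (⟨a, x a⟩ : Sigma τ)) (PT.id.sigmaMk hx)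

/-- Totalisation of a function of dependent data. -/
protected lemma PT.extend_sigma {g : (a : α) → τ a → β} (hg : PT (fun p : Sigma τ => g p.1 p.2)) :
    ∃ G : α × D → D, PT G ∧ ∀ a t, G (a, enc t) = enc (g a t) := by
  obtain ⟨G, hG, h⟩ := hg.extend (fun p : Sigma τ => (p.1, enc p.2)) fun _ => rfl
  exact ⟨G, hG, fun a t => h ⟨a, t⟩⟩

/-- Case distinction with branches that use the case hypothesis. -/
protected lemma PT.dite' {P : α → Prop} [∀ a, Decidable (P a)] {f : (a : α) → P a → β}
    {g : (a : α) → ¬ P a → β} (hP : PT (fun a => decide (P a)))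
    (hf : PT (fun a : {a // P a} => f a.1 a.2)) (hg : PT (fun a : {a // ¬ P a} => g a.1 a.2)) :
    PT (fun a => if h : P a then f a h else g a h) := by
  obtain ⟨F, hF, h1⟩ := hf.extend Subtype.val fun _ => rfl
  obtain ⟨G, hG, h2⟩ := hg.extend Subtype.val fun _ => rfl
  refine (PT.ite hP hF hG).of_enc fun a => ?_
  by_cases h : P a
  · simp only [h, dif_pos, if_pos]; exact (h1 ⟨a, h⟩).symm
  · simp only [h, dif_neg, if_neg, not_false_eq_true]; exact (h2 ⟨a, h⟩).symm

protected lemma PT.dmap {l : (a : α) → List (τ a)} {g : (a : α) → τ a → β}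
    (hl : PT (fun a => enc (l a))) (hg : PT (fun p : Sigma τ => g p.1 p.2)) :
    PT (fun a => (l a).map (g a)) := by
  obtain ⟨G, hG, h⟩ := hg.extend_sigma
  refine (hl.toList.map (g := fun a d => G (a, d)) hG).of_enc fun a => ?_
  rw [toList_enc, List.map_map]
  exact enc_map_congr _ _ _ fun x _ => (h a x).symm

protected lemma PT.dmap' {l : (a : α) → List (τ a)} {g : (a : α) → τ a → ρ a}
    (hl : PT (fun a => enc (l a))) (hg : PT (fun p : Sigma τ => enc (g p.1 p.2))) :
    PT (fun a => enc ((l a).map (g a))) :=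
  (hl.dmap (g := fun a t => enc (g a t)) hg).of_enc fun _ => enc_map_congr _ _ _ fun _ _ => rfl

/-- `map` with a function that is only known to be `PT` on members of the list. -/
protected lemma PT.map_mem {l : α → List β} {g : α → β → γ} (hl : PT l)
    (hg : PT (fun p : {p : α × β // p.2 ∈ l p.1} => g p.1.1 p.1.2)) :
    PT (fun a => (l a).map (g a)) := by
  obtain ⟨G, hG, h⟩ := hg.extend Subtype.val fun _ => rfl
  refine (hl.map (g := fun a d => G (a, d)) hG).of_enc fun a => ?_
  exact enc_map_congr _ _ _ fun x hx => (h ⟨(a, x), hx⟩).symm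

protected lemma PT.dfilter {l : (a : α) → List (τ a)} {g : (a : α) → τ a → Bool}
    (hl : PT (fun a => enc (l a))) (hg : PT (fun p : Sigma τ => g p.1 p.2)) :
    PT (fun a => enc ((l a).filter (g a))) := by
  have h1 := hl.dmap (g := fun a t => cond (g a t) [enc t] [])
    (hg.cond (PT.id.sigmaSnd.cons (PT.const [])) (PT.const []))
  refine h1.flatten.of_enc fun a => ?_
  rw [enc_D, ← enc_list_map_enc]
  congr 1
  induction l a with
  | nil => rfl
  | cons x m ih => cases h : g a x <;> simp [h, ih]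

protected lemma PT.dlength {l : (a : α) → List (τ a)} (hl : PT (fun a => enc (l a))) :
    PT (fun a => (l a).length) := hl.toList.length.congr fun a => by simp [toList_enc]

protected lemma PB.dlength {l : (a : α) → List (τ a)} (hl : PT (fun a => enc (l a))) :
    PB (fun a => (l a).length) := (PB.sz hl).of_le fun a => length_le_sz (l a)

/-- Left fold over dependent data with a dependent state. -/
protected lemma PT.dfoldl {f : (a : α) → τ a → ρ a → τ a} {l : (a : α) → List (ρ a)}
    {ini : (a : α) → τ a} (B : α → ℕ)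
    (hf : PT (fun p : Σ a, τ a × ρ a => enc (f p.1 p.2.1 p.2.2)))
    (hl : PT (fun a => enc (l a))) (hi : PT (fun a => enc (ini a))) (hB : PB B)
    (hsz : ∀ a i, sz (((l a).take i).foldl (f a) (ini a)) ≤ B a) :
    PT (fun a => enc ((l a).foldl (f a) (ini a))) := by
  obtain ⟨G, hG, h⟩ := PT.extend_sigma (τ := fun a => τ a × ρ a)
    (g := fun a t => enc (f a t.1 t.2)) hf
  have key : ∀ a (m : List (ρ a)) (s : τ a),
      (m.map enc).foldl (fun (x y : D) => G (a, .cons x y)) (enc s) = enc (m.foldl (f a) s) := by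
    intro a m
    induction m with
    | nil => intro s; rfl
    | cons y m ih =>
      intro s
      rw [List.map_cons, List.foldl_cons, List.foldl_cons, ← ih]
      congr 1
      exact h a (s, y)
  refine (PT.foldl (f := fun a (x y : D) => G (a, .cons x y)) (l := fun a => D.toList (enc (l a)))
    (ini := fun a => enc (ini a)) B (by fun_prop) hl.toList hi hB fun a i => ?_).congr
    fun a => ?_
  · rw [toList_enc, ← List.map_take, key]; exact hsz a i
  · rw [toList_enc, key]

/-- Iteration with a dependent state. -/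
protected lemma PT.diterate {f : (a : α) → τ a → τ a} {n : α → ℕ} {ini : (a : α) → τ a}
    (B : α → ℕ) (hf : PT (fun p : Sigma τ => enc (f p.1 p.2))) (hn : PT n) (hb : PB n)
    (hi : PT (fun a => enc (ini a))) (hB : PB B)
    (hsz : ∀ a i, i ≤ n a → sz ((f a)^[i] (ini a)) ≤ B a) :
    PT (fun a => enc ((f a)^[n a] (ini a))) := by
  obtain ⟨G, hG, h⟩ := PT.extend_sigma (g := fun a t => enc (f a t)) hf
  have key : ∀ a i, (fun x : D => G (a, x))^[i] (enc (ini a)) = enc ((f a)^[i] (ini a)) := by
    intro a i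
    induction i with
    | zero => rfl
    | succ i ih => rw [Function.iterate_succ_apply', Function.iterate_succ_apply', ih, h]; rfl
  refine (PT.iterate (f := fun a (x : D) => G (a, x)) B hG hn hb hi hB fun a i hi => ?_).congr
    fun a => (key a _).symm
  rw [key]; exact hsz a i hi

/-- Primitive recursion with a dependent state. -/
protected lemma PT.dnatRec {f : (a : α) → ℕ → τ a → τ a} {n : α → ℕ} {ini : (a : α) → τ a}
    (B : α → ℕ) (hf : PT (fun p : Σ a, ℕ × τ a => enc (f p.1 p.2.1 p.2.2))) (hn : PT n)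
    (hb : PB n) (hi : PT (fun a => enc (ini a))) (hB : PB B)
    (hsz : ∀ a i, i ≤ n a → sz (Nat.rec (ini a) (f a) i : τ a) ≤ B a) :
    PT (fun a => enc (Nat.rec (ini a) (f a) (n a) : τ a)) := by
  obtain ⟨G, hG, h⟩ := PT.extend_sigma (τ := fun a => ℕ × τ a)
    (g := fun a t => enc (f a t.1 t.2)) hf
  have key : ∀ a i, (Nat.rec (enc (ini a)) (fun j (x : D) => G (a, .cons (enc j) x)) i : D) =
      enc (Nat.rec (ini a) (f a) i : τ a) := by
    intro a i
    induction i with
    | zero => rfl
    | succ i ih => simp only [ih]; exact h a (i, _)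
  refine (PT.natRec (f := fun a j (x : D) => G (a, .cons (enc j) x)) B (by fun_prop) hn hb hi hB
    fun a i hi => ?_).congr fun a => (key a _).symm
  rw [key]; exact hsz a i hi

/-- Hoare-style `while` loop with a dependent state (an invariant can be put into `τ`). -/
protected lemma PT.dwhile {f : α → β} (step : (a : α) → τ a → τ a) (c : (a : α) → τ a → Bool)
    (ini : (a : α) → τ a) (out : (a : α) → τ a → β) (Inv : (a : α) → τ a → Prop)
    (μ : (a : α) → τ a → ℕ) (B : α → ℕ)
    (hs : PT (fun p : Sigma τ => enc (step p.1 p.2))) (hc : PT (fun p : Sigma τ => c p.1 p.2))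
    (hi : PT (fun a => enc (ini a))) (ho : PT (fun p : Sigma τ => out p.1 p.2))
    (hμ : PB (fun a => μ a (ini a))) (hB : PB B) (h0 : ∀ a, Inv a (ini a))
    (hstep : ∀ a s, Inv a s → c a s = true → Inv a (step a s) ∧ μ a (step a s) < μ a s)
    (hsz : ∀ a s, Inv a s → sz s ≤ B a)
    (hout : ∀ a s, Inv a s → c a s = false → out a s = f a) : PT f := by
  refine PT.of_while (σ := Sigma τ) (fun p => ⟨p.1, step p.1 p.2⟩) (fun p => c p.1 p.2)
    (fun a => ⟨a, ini a⟩) (fun p => out p.1 p.2) (fun a p => p.1 = a ∧ Inv p.1 p.2)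
    (fun p => μ p.1 p.2) (fun a => sz a + B a + 1) (PT.id.sigmaFst.sigmaMk hs) hc
    (PT.id.sigmaMk hi) ho hμ ((PB.sz_id.add hB).add (PB.const 1)) (fun a => ⟨rfl, h0 a⟩) ?_ ?_ ?_
  · rintro a ⟨b, s⟩ ⟨rfl, h⟩ hc
    exact ⟨⟨rfl, (hstep _ s h hc).1⟩, (hstep _ s h hc).2⟩
  · rintro a ⟨b, s⟩ ⟨rfl, h⟩
    have := hsz _ s h
    rw [sz_sigma]; simp only at this ⊢; omega
  · rintro a ⟨b, s⟩ ⟨rfl, h⟩ hc
    exact hout _ s h hc

end DepData

/-! ### vectors indexed by `Fin (n a)` -/

section FinFun

variable {n m : α → ℕ} {τ : α → Type} [∀ a, Enc (τ a)]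

protected lemma PT.finRange (hn : PT n) (hb : PB n) : PT (fun a => enc (List.finRange (n a))) :=
  (hn.range hb).of_enc fun a => by
    rw [enc_D, ← List.map_coe_finRange_eq_range]
    conv_lhs => rw [← List.map_id (List.finRange (n a))]
    exact enc_map_congr _ _ _ fun _ _ => rfl

@[fun_prop] protected lemma PT.map_finRange {f : (a : α) → Fin (n a) → β} (hn : PT n) (hb : PB n)
    (hf : PT (fun p : Σ a, Fin (n a) => f p.1 p.2)) :
    PT (fun a => (List.finRange (n a)).map (f a)) := (PT.finRange hn hb).dmap hf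

@[fun_prop] protected lemma PT.ofFn {f : (a : α) → Fin (n a) → β} (hn : PT n) (hb : PB n)
    (hf : PT (fun p : Σ a, Fin (n a) => f p.1 p.2)) : PT (fun a => List.ofFn (f a)) :=
  (PT.map_finRange hn hb hf).congr fun _ => List.ofFn_eq_map

/-- A vector is `PT` if its entries are. -/
protected lemma PT.dvec {f : (a : α) → Fin (n a) → τ a} (hn : PT n) (hb : PB n)
    (hf : PT (fun p : Σ a, Fin (n a) => enc (f p.1 p.2))) : PT (fun a => enc (f a)) :=
  (PT.ofFn (f := fun a i => enc (f a i)) hn hb hf).of_enc fun _ =>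
    enc_ofFn_congr _ _ fun _ => rfl

protected lemma PT.vec {f : (a : α) → Fin (n a) → β} (hn : PT n) (hb : PB n)
    (hf : PT (fun p : Σ a, Fin (n a) => f p.1 p.2)) : PT (fun a => enc (f a)) :=
  PT.dvec (τ := fun _ => β) hn hb hf.enc

/-- An entry of a `PT` vector is `PT`. -/
protected lemma PT.dapply {v : (a : α) → Fin (n a) → τ a} (hv : PT (fun a => enc (v a)))
    {i : (a : α) → Fin (n a)} (hi : PT (fun a => (i a : ℕ))) : PT (fun a => enc (v a (i a))) :=
  (hi.getD hv.toList (PT.const D.nil)).congr fun a => by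
    rw [enc_finFun, toList_enc]; simp

protected lemma PT.apply {v : (a : α) → Fin (n a) → β} (hv : PT (fun a => enc (v a)))
    {i : (a : α) → Fin (n a)} (hi : PT (fun a => (i a : ℕ))) : PT (fun a => v a (i a)) :=
  (PT.dapply (τ := fun _ => β) hv hi).of_dep

protected lemma PT.vec_dim {v : (a : α) → Fin (n a) → τ a} (hv : PT (fun a => enc (v a))) :
    PT n := (PT.dlength (l := fun a => List.ofFn (v a)) hv).congr fun a => by simp

protected lemma PB.vec_dim {v : (a : α) → Fin (n a) → τ a} (hv : PT (fun a => enc (v a))) :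
    PB n := (PB.dlength (l := fun a => List.ofFn (v a)) hv).of_le fun a => by simp

/-- A matrix is `PT` if its entries are. -/
protected lemma PT.dmat {A : (a : α) → Matrix (Fin (m a)) (Fin (n a)) (τ a)} (hm : PT m)
    (hmb : PB m) (hn : PT n) (hnb : PB n)
    (hA : PT (fun p : Σ q : (Σ a, Fin (m a)), Fin (n q.1) => enc (A p.1.1 p.1.2 p.2))) :
    PT (fun a => enc (A a)) :=
  PT.dvec (τ := fun a => Fin (n a) → τ a) (f := fun a i => A a i) hm hmb
    (PT.dvec (α := Σ a, Fin (m a)) (n := fun q => n q.1) (τ := fun q => τ q.1)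
      (f := fun q j => A q.1 q.2 j) (hn.comp PT.id.sigmaFst) (hnb.comp PT.id.sigmaFst) hA)

protected lemma PT.mat {A : (a : α) → Matrix (Fin (m a)) (Fin (n a)) β} (hm : PT m)
    (hmb : PB m) (hn : PT n) (hnb : PB n)
    (hA : PT (fun p : Σ q : (Σ a, Fin (m a)), Fin (n q.1) => A p.1.1 p.1.2 p.2)) :
    PT (fun a => enc (A a)) := PT.dmat (τ := fun _ => β) hm hmb hn hnb hA.enc

protected lemma PT.dentry {A : (a : α) → Matrix (Fin (m a)) (Fin (n a)) (τ a)}
    (hA : PT (fun a => enc (A a))) {i : (a : α) → Fin (m a)} {j : (a : α) → Fin (n a)}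
    (hi : PT (fun a => (i a : ℕ))) (hj : PT (fun a => (j a : ℕ))) :
    PT (fun a => enc (A a (i a) (j a))) :=
  PT.dapply (v := fun a => A a (i a))
    (PT.dapply (τ := fun a => Fin (n a) → τ a) (v := fun a => A a) hA hi) hj

protected lemma PT.entry {A : (a : α) → Matrix (Fin (m a)) (Fin (n a)) β}
    (hA : PT (fun a => enc (A a))) {i : (a : α) → Fin (m a)} {j : (a : α) → Fin (n a)}
    (hi : PT (fun a => (i a : ℕ))) (hj : PT (fun a => (j a : ℕ))) :
    PT (fun a => A a (i a) (j a)) := (PT.dentry (τ := fun _ => β) hA hi hj).of_dep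

@[fun_prop] protected lemma PT.sum_fin {f : (a : α) → Fin (n a) → ℕ} (hn : PT n) (hb : PB n)
    (hf : PT (fun p : Σ a, Fin (n a) => f p.1 p.2)) : PT (fun a => ∑ i, f a i) :=
  (PT.ofFn hn hb hf).natSum.congr fun _ => List.sum_ofFn.symm

@[fun_prop] protected lemma PT.int_sum_fin {f : (a : α) → Fin (n a) → ℤ} (hn : PT n) (hb : PB n)
    (hf : PT (fun p : Σ a, Fin (n a) => f p.1 p.2)) : PT (fun a => ∑ i, f a i) :=
  (PT.ofFn hn hb hf).intSum.congr fun _ => List.sum_ofFn.symm

@[fun_prop] protected lemma PT.rat_sum_fin {f : (a : α) → Fin (n a) → ℚ} (hn : PT n) (hb : PB n)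
    (hf : PT (fun p : Σ a, Fin (n a) => f p.1 p.2)) : PT (fun a => ∑ i, f a i) :=
  (PT.ofFn hn hb hf).ratSum.congr fun _ => List.sum_ofFn.symm

@[fun_prop] protected lemma PT.prod_fin {f : (a : α) → Fin (n a) → ℕ} (hn : PT n) (hb : PB n)
    (hf : PT (fun p : Σ a, Fin (n a) => f p.1 p.2)) : PT (fun a => ∏ i, f a i) :=
  (PT.ofFn hn hb hf).natProd.congr fun _ => List.prod_ofFn.symm

@[fun_prop] protected lemma PT.int_prod_fin {f : (a : α) → Fin (n a) → ℤ} (hn : PT n) (hb : PB n)
    (hf : PT (fun p : Σ a, Fin (n a) => f p.1 p.2)) : PT (fun a => ∏ i, f a i) :=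
  (PT.ofFn hn hb hf).intProd.congr fun _ => List.prod_ofFn.symm

@[fun_prop] protected lemma PT.rat_prod_fin {f : (a : α) → Fin (n a) → ℚ} (hn : PT n) (hb : PB n)
    (hf : PT (fun p : Σ a, Fin (n a) => f p.1 p.2)) : PT (fun a => ∏ i, f a i) :=
  (PT.ofFn hn hb hf).ratProd.congr fun _ => List.prod_ofFn.symm

@[fun_prop] protected lemma PT.decide_forall_fin {P : (a : α) → Fin (n a) → Prop}
    [∀ a i, Decidable (P a i)] [∀ a, Decidable (∀ i, P a i)] (hn : PT n) (hb : PB n)
    (hP : PT (fun p : Σ a, Fin (n a) => decide (P p.1 p.2))) :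
    PT (fun a => decide (∀ i, P a i)) :=
  ((PT.ofFn (f := fun a i => decide (P a i)) hn hb hP).all (g := fun _ b => b)
    PT.id.snd).congr fun a => by rw [Bool.eq_iff_iff]; simp [List.mem_ofFn]

@[fun_prop] protected lemma PT.decide_exists_fin {P : (a : α) → Fin (n a) → Prop}
    [∀ a i, Decidable (P a i)] [∀ a, Decidable (∃ i, P a i)] (hn : PT n) (hb : PB n)
    (hP : PT (fun p : Σ a, Fin (n a) => decide (P p.1 p.2))) :
    PT (fun a => decide (∃ i, P a i)) :=
  ((PT.ofFn (f := fun a i => decide (P a i)) hn hb hP).any (g := fun _ b => b)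
    PT.id.snd).congr fun a => by rw [Bool.eq_iff_iff]; simp [List.mem_ofFn]

/-- A finite set of indices is `PT` if membership is. -/
protected lemma PT.finset {s : (a : α) → Finset (Fin (n a))} (hn : PT n) (hb : PB n)
    (hs : PT (fun p : Σ a, Fin (n a) => decide (p.2 ∈ s p.1))) : PT (fun a => enc (s a)) :=
  (PT.map_finRange (f := fun a i => decide (i ∈ s a)) hn hb hs).enc

protected lemma PT.maskCode {s : (a : α) → Finset (Fin (n a))} (hs : PT (fun a => enc (s a))) :
    PT (fun a => Crest.Enc.maskCode (n a) (s a)) := hs.of_enc fun _ => rfl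

protected lemma PT.decide_mem_finset {s : (a : α) → Finset (Fin (n a))}
    (hs : PT (fun a => enc (s a))) {i : (a : α) → Fin (n a)} (hi : PT (fun a => (i a : ℕ)))
    [∀ a, Decidable (i a ∈ s a)] : PT (fun a => decide (i a ∈ s a)) :=
  (hi.getD hs.maskCode (PT.const false)).congr fun a => by simp [Crest.Enc.maskCode]

lemma sum_finset_eq_sum_ite {M : Type} [AddCommMonoid M] {k : ℕ} (s : Finset (Fin k))
    (f : Fin k → M) : ∑ i ∈ s, f i = ∑ i, if i ∈ s then f i else 0 := by
  simp

protected lemma PT.finset_card {s : (a : α) → Finset (Fin (n a))} (hs : PT (fun a => enc (s a))) :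
    PT (fun a => (s a).card) :=
  (hs.maskCode.countP (g := fun _ b => b) PT.id.snd).congr fun a => by
    rw [Crest.Enc.maskCode, List.countP_map, List.countP_eq_length_filter,
      ← List.toFinset_card_of_nodup ((List.nodup_finRange _).filter _)]
    congr 1
    ext i
    simp

protected lemma PT.decodeMask {w : α → List Bool} (hn : PT n) (hb : PB n) (hw : PT w) :
    PT (fun a => enc (Crest.Enc.decodeMask (n a) (w a))) :=
  PT.finset hn hb ((PT.getD (n := fun p : Σ a, Fin (n a) => (p.2 : ℕ)) (l := fun p => w p.1)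
    (d := fun _ => false) PT.id.sigmaFinVal (hw.comp PT.id.sigmaFst) (PT.const _)).congr
      fun p => by simp [Crest.Enc.decodeMask])

lemma decodeMask_maskCode (k : ℕ) (s : Finset (Fin k)) :
    Crest.Enc.decodeMask k (Crest.Enc.maskCode k s) = s := by
  ext i
  simp [Crest.Enc.decodeMask, Crest.Enc.maskCode]

end FinFun

/-! ### residues -/

section ZMod

variable {p : α → ℕ} [∀ a, NeZero (p a)]

protected lemma PT.zmod_val {x : (a : α) → ZMod (p a)} (hx : PT (fun a => enc (x a))) :
    PT (fun a => (x a).val) := hx.of_enc fun _ => rfl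

protected lemma PT.zmod_of_val {x : (a : α) → ZMod (p a)} (hx : PT (fun a => (x a).val)) :
    PT (fun a => enc (x a)) := hx.enc

omit [∀ a, NeZero (p a)] in
protected lemma PT.zmod_natCast {k : α → ℕ} (hp : PT p) (hk : PT k) :
    PT (fun a => ((k a : ZMod (p a))).val) := (hk.mod hp).congr fun _ => ZMod.val_natCast _ _

protected lemma PT.zmod_intCast {k : α → ℤ} (hp : PT p) (hk : PT k) :
    PT (fun a => ((k a : ZMod (p a))).val) :=
  (hk.intMod hp.intNatCast).toNat'.congr fun a => by rw [← ZMod.val_intCast, Int.toNat_natCast]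

protected lemma PT.zmod_add {x y : (a : α) → ZMod (p a)} (hp : PT p) (hx : PT (fun a => (x a).val))
    (hy : PT (fun a => (y a).val)) : PT (fun a => (x a + y a).val) :=
  ((hx.add hy).mod hp).congr fun _ => ZMod.val_add _ _

omit [∀ a, NeZero (p a)] in
protected lemma PT.zmod_mul {x y : (a : α) → ZMod (p a)} (hp : PT p) (hx : PT (fun a => (x a).val))
    (hy : PT (fun a => (y a).val)) : PT (fun a => (x a * y a).val) :=
  ((hx.mul hy).mod hp).congr fun _ => ZMod.val_mul _ _

protected lemma PT.zmod_neg {x : (a : α) → ZMod (p a)} (hp : PT p) (hx : PT (fun a => (x a).val)) :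
    PT (fun a => (-x a).val) := ((hp.sub hx).mod hp).congr fun _ => ZMod.neg_val' _

protected lemma PT.zmod_sub {x y : (a : α) → ZMod (p a)} (hp : PT p) (hx : PT (fun a => (x a).val))
    (hy : PT (fun a => (y a).val)) : PT (fun a => (x a - y a).val) :=
  (PT.zmod_add hp hx (PT.zmod_neg hp hy)).congr fun _ => by rw [sub_eq_add_neg]

protected lemma PT.zmod_pow {x : (a : α) → ZMod (p a)} {e : α → ℕ} (hp : PT p)
    (hx : PT (fun a => (x a).val)) (he : PT e) : PT (fun a => (x a ^ e a).val) :=
  (PT.powMod hx he hp fun a => Nat.pos_of_ne_zero (NeZero.ne _)).congr fun a => by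
    conv_lhs => rw [← ZMod.natCast_zmod_val (x a), ← Nat.cast_pow, ZMod.val_natCast]

protected lemma PT.zmod_inv {x : (a : α) → ZMod (p a)} (hprime : ∀ a, (p a).Prime) (hp : PT p)
    (hx : PT (fun a => (x a).val)) : PT (fun a => (x a)⁻¹.val) := by
  have h := PT.ite (hx.decide_eq (PT.const 0)) (PT.const 0)
    (PT.zmod_pow hp hx (hp.sub (PT.const 2)))
  refine h.congr fun a => ?_
  have : Fact (p a).Prime := ⟨hprime a⟩
  split_ifs with h0
  · rw [(ZMod.val_eq_zero _).1 h0]; simp
  · have h1 : x a ≠ 0 := fun h => h0 ((ZMod.val_eq_zero _).2 h)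
    congr 1
    refine inv_eq_of_mul_eq_one_right ?_
    have := (hprime a).two_le
    rw [← pow_succ', show p a - 2 + 1 = p a - 1 by omega]
    exact ZMod.pow_card_sub_one_eq_one h1

protected lemma PT.zmod_sum_fin {n : α → ℕ} {f : (a : α) → Fin (n a) → ZMod (p a)} (hp : PT p)
    (hn : PT n) (hb : PB n) (hf : PT (fun q : Σ a, Fin (n a) => (f q.1 q.2).val)) :
    PT (fun a => (∑ i, f a i).val) :=
  ((PT.sum_fin (f := fun a i => (f a i).val) hn hb hf).mod hp).congr fun a => by
    rw [← ZMod.val_natCast]; simp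

protected lemma PT.zmod_prod_fin {n : α → ℕ} {f : (a : α) → Fin (n a) → ZMod (p a)} (hp : PT p)
    (hn : PT n) (hb : PB n) (hf : PT (fun q : Σ a, Fin (n a) => (f q.1 q.2).val)) :
    PT (fun a => (∏ i, f a i).val) :=
  ((PT.prod_fin (f := fun a i => (f a i).val) hn hb hf).mod hp).congr fun a => by
    rw [← ZMod.val_natCast]; simp

end ZMod

/-! ### reading tables and graphs -/

section ReadTables

variable {ι : Type} {u : ι → α}

/-- Read `n i` items of a self-delimiting code. -/
protected lemma Reads.split_vec {c : β → List Bool} (hc : SD c) (hne : ∀ b, c b ≠ [])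
    {n : ι → ℕ} {v : (i : ι) → Fin (n i) → β} {r : ι → List Bool} (hn : Reads u n)
    (hs : Reads u (fun i => (List.ofFn fun j => c (v i j)).flatten ++ r i)) :
    Reads u (fun i => enc (v i)) ∧ Reads u r := by
  have := Reads.split_many hc hne (l := fun i => List.ofFn (v i)) (r := r) hn (fun i => by simp)
    (hs.congr fun i => by rw [List.map_ofFn]; rfl)
  exact ⟨this.1.of_enc fun _ => rfl, this.2⟩

/-- Read an `m i × n i` table of a self-delimiting code, row by row. -/
protected lemma Reads.split_mat {c : β → List Bool} (hc : SD c) (hne : ∀ b, c b ≠ [])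
    {m n : ι → ℕ} {t : (i : ι) → Fin (m i) → Fin (n i) → β} {r : ι → List Bool}
    (hm : Reads u (fun i => List.replicate (m i) ())) (hn : Reads u n)
    (hs : Reads u (fun i =>
      (List.ofFn fun j => (List.ofFn fun k => c (t i j k)).flatten).flatten ++ r i)) :
    Reads u (fun i => enc (t i)) ∧ Reads u r := by
  have := Reads.split_matrix hc hne (rows := fun i => List.ofFn fun j => List.ofFn (t i j))
    (r := r) (m := n) (hm.congr fun i => by simp) hn (fun i row h => by
      obtain ⟨j, rfl⟩ := List.mem_ofFn.1 h; simp)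
    (hs.congr fun i => by simp only [List.map_ofFn, Function.comp_def])
  exact ⟨this.1.of_enc fun i => enc_matrix (t i), this.2⟩

lemma le_length_square {n : ℕ} (t : Fin n → Fin n → List Bool) (h : ∀ j k, t j k ≠ []) :
    n ≤ (List.ofFn fun j => (List.ofFn fun k => t j k).flatten).flatten.length := by
  have := length_le_length_flatten_map (fun j : Fin n => (List.ofFn fun k => t j k).flatten)
    (fun j => by
      intro h0
      rw [List.flatten_eq_nil_iff] at h0
      exact h j j (h0 _ (List.mem_ofFn.2 ⟨j, rfl⟩))) (List.finRange n)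
  rwa [List.length_finRange, ← List.ofFn_eq_map] at this

/-- Read a square table. -/
protected lemma Reads.split_square {c : β → List Bool} (hc : SD c) (hne : ∀ b, c b ≠ [])
    {n : ι → ℕ} {t : (i : ι) → Fin (n i) → Fin (n i) → β} {r : ι → List Bool} (hn : Reads u n)
    (hs : Reads u (fun i =>
      (List.ofFn fun j => (List.ofFn fun k => c (t i j k)).flatten).flatten ++ r i)) :
    Reads u (fun i => enc (t i)) ∧ Reads u r :=
  Reads.split_mat hc hne (hn.unary hs fun i => by
    have := le_length_square (fun j k => c (t i j k)) fun _ _ => hne _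
    rw [List.length_append]; omega) hn hs

protected lemma Reads.split_tableCode {n : ι → ℕ} {t : (i : ι) → Fin (n i) → Fin (n i) → ℚ}
    {r : ι → List Bool} (hs : Reads u (fun i => Crest.Enc.tableCode (n i) (t i) ++ r i)) :
    Reads u n ∧ Reads u (fun i => enc (t i)) ∧ Reads u r := by
  have h1 := Reads.split SD.natCode (x := n) (hs.congr fun i => by
    rw [Crest.Enc.tableCode, List.append_assoc])
  exact ⟨h1.1, Reads.split_square SD.ratCode ratCode_ne_nil h1.1
    (h1.2.congr fun i => by simp only [List.ofFn_eq_map])⟩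

lemma flatten_ofFn_singleton {β : Type} {k : ℕ} (f : Fin k → β) :
    (List.ofFn fun j => [f j]).flatten = List.ofFn f := by
  rw [List.ofFn_eq_map, List.ofFn_eq_map]
  induction List.finRange k with
  | nil => rfl
  | cons x l ih => simp [ih]

/-- Read a square table of bits. -/
protected lemma Reads.split_bitSquare {n : ι → ℕ} {t : (i : ι) → Fin (n i) → Fin (n i) → Bool}
    {r : ι → List Bool} (hn : Reads u n)
    (hs : Reads u (fun i => (List.ofFn fun j => List.ofFn fun k => t i j k).flatten ++ r i)) :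
    Reads u (fun i => enc (t i)) ∧ Reads u r :=
  Reads.split_square SD.bool (by simp) hn
    (hs.congr fun i => by simp only [flatten_ofFn_singleton])

protected lemma Reads.split_graphCode {n : ι → ℕ} {G : (i : ι) → SimpleGraph (Fin (n i))}
    [∀ i, DecidableRel (G i).Adj] {r : ι → List Bool}
    (hs : Reads u (fun i => Crest.Enc.graphCode (n i) (G i) ++ r i)) :
    Reads u n ∧ Reads u (fun i => enc (fun j k => decide ((G i).Adj j k))) ∧ Reads u r := by
  have h1 := Reads.split SD.natCode (x := n) (hs.congr fun i => by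
    rw [Crest.Enc.graphCode, List.append_assoc])
  exact ⟨h1.1, Reads.split_bitSquare h1.1 (h1.2.congr fun i => by simp only [List.ofFn_eq_map])⟩

protected lemma Reads.split_maskCode {n : ι → ℕ} {s : (i : ι) → Finset (Fin (n i))}
    {r : ι → List Bool} (hn : Reads u n)
    (hs : Reads u (fun i => Crest.Enc.maskCode (n i) (s i) ++ r i)) :
    Reads u (fun i => enc (s i)) ∧ Reads u r :=
  have := Reads.split_len hn (fun i => by simp [Crest.Enc.maskCode]) hs
  ⟨this.1.of_enc fun _ => rfl, this.2⟩

/-- Assemble dependent data. -/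
protected lemma Reads.sigmaMk {τ : β → Type} [∀ b, Enc (τ b)] {x : ι → β}
    {y : (i : ι) → τ (x i)} (hx : Reads u x) (hy : Reads u (fun i => enc (y i))) :
    Reads u (fun i => (⟨x i, y i⟩ : Sigma τ)) := (hx.pair hy).of_enc fun _ => rfl

end ReadTables

section WriteTables

variable {n : α → ℕ}

protected lemma PT.tableCode {t : (a : α) → Fin (n a) → Fin (n a) → ℚ}
    (ht : PT (fun a => enc (t a))) : PT (fun a => Crest.Enc.tableCode (n a) (t a)) := by
  have h1 : PT (fun a => List.ofFn fun i => List.ofFn (t a i)) :=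
    ht.of_enc fun a => (enc_matrix (t a)).symm
  have h2 : PT (fun a => Crest.Enc.natCode (n a) ++
      ((List.ofFn fun i => List.ofFn (t a i)).map
        fun row => (row.map Crest.Enc.ratCode).flatten).flatten) :=
    (PT.vec_dim (τ := fun a => Fin (n a) → ℚ) ht).natCode.append
      (h1.map (g := fun _ row => (row.map Crest.Enc.ratCode).flatten) (by fun_prop)).flatten
  refine h2.congr fun a => ?_
  simp only [Crest.Enc.tableCode, List.ofFn_eq_map, List.map_map, Function.comp_def]

protected lemma PT.graphCode {G : (a : α) → SimpleGraph (Fin (n a))} [∀ a, DecidableRel (G a).Adj]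
    (hG : PT (fun a => enc (fun j k => decide ((G a).Adj j k)))) :
    PT (fun a => Crest.Enc.graphCode (n a) (G a)) := by
  have h1 : PT (fun a => List.ofFn fun i => List.ofFn fun j => decide ((G a).Adj i j)) :=
    hG.of_enc fun a => (enc_matrix (fun j k => decide ((G a).Adj j k))).symm
  refine ((PT.vec_dim (τ := fun a => Fin (n a) → Bool) hG).natCode.append h1.flatten).congr
    fun a => ?_
  simp only [Crest.Enc.graphCode, List.ofFn_eq_map]

end WriteTables

end Crest.Agent.Lib.PT
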