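import Crest.Agent.Lib.PT.Dep

/-!
Polynomial-time toolkit: super-polynomial time bounds by padding.

`Pad α m` is `α` encoded together with a unary padding of length `2 ^ m a`; so on `Pad α m` the
number `2 ^ m a` is `PB`, and a `PT` function on `Pad α m` runs in time `(sz a + 2 ^ m a) ^ O(1)`.
-/

set_option autoImplicit false
set_option linter.dupNamespace false

namespace Crest.Agent.Lib.PT

open Crest.Complexity Crest.DTime Crest.ExpTime

variable {α β γ : Type} [Enc α] [Enc β] [Enc γ]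

protected lemma TimeF.bound_comp {g : β → γ} (hg : PT g) {f : α → β} {T : α → ℕ}
    (hf : TimeF f T) : ∃ c k : ℕ, TimeF (fun a => g (f a)) (fun a => c * T a ^ k) := by
  obtain ⟨c, k, hg⟩ := hg.exists_bound
  refine ⟨c + 1, k + 1, (hg.comp hf).mono fun a => ?_⟩
  have h1 := hf.sz_le a
  have h2 : 0 < T a := lt_of_lt_of_le (sz_pos _) h1
  have h3 : sz (f a) ^ k ≤ T a ^ (k + 1) :=
    (Nat.pow_le_pow_left h1 k).trans (Nat.pow_le_pow_right h2 (by omega))
  have h4 : T a ≤ T a ^ (k + 1) := Nat.le_self_pow (by omega) _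
  have h5 := Nat.mul_le_mul_left c h3
  rw [add_mul]; omega

/-- Writing the padding. -/
lemma timeF_pad {m : α → ℕ} (hm : PT m) :
    ∃ c k : ℕ, TimeF (fun a => (a, List.replicate (2 ^ m a) ()))
      (fun a => c * (sz a + 2 ^ m a) ^ k) := by
  have hs : PT (fun s : ℕ × α × List Unit => (s.1 - 1, s.2.1, s.2.2 ++ s.2.2)) := by fun_prop
  have hc : PT (fun s : ℕ × α × List Unit => decide (s.1 ≠ 0)) := by fun_prop
  have hi : PT (fun a => (m a, a, [()])) := by fun_prop
  obtain ⟨c1, k1, hs⟩ := hs.exists_bound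
  obtain ⟨c2, k2, hc⟩ := hc.exists_bound
  obtain ⟨c3, k3, hi⟩ := hi.exists_bound
  have hlt : ∀ a, m a < 2 ^ m a := fun a => Nat.lt_two_pow_self
  have h := TimeF.of_while (f := fun a => ((0 : ℕ), a, List.replicate (2 ^ m a) ())) _ _ _
    (fun a s => s.1 ≤ m a ∧ s.2 = (a, List.replicate (2 ^ (m a - s.1)) ())) (fun s => s.1)
    (fun a => c2 * (12 * (sz a + 2 ^ m a)) ^ k2 + 5 + c1 * (12 * (sz a + 2 ^ m a)) ^ k1)
    hs hc hi (fun a => by simp) ?_ ?_ ?_
  · obtain ⟨c, k, h⟩ := TimeF.bound_comp (g := fun s : ℕ × α × List Unit => s.2) (by fun_prop) h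
    have hP : PB (fun x : List Unit => c * (c3 * x.length ^ k3 + (x.length + 1) *
        (c2 * (12 * x.length) ^ k2 + 5 + c1 * (12 * x.length) ^ k1)) ^ k) := by fun_prop
    obtain ⟨c4, k4, hP⟩ := hP
    refine ⟨c4 * 3 ^ k4, k4, h.mono fun a => ?_⟩
    have e := hP (List.replicate (sz a + 2 ^ m a) ())
    simp only [List.length_replicate, sz_unitList] at e
    have := hlt a
    have := sz_pos a
    calc _ ≤ c * (c3 * (sz a + 2 ^ m a) ^ k3 + ((sz a + 2 ^ m a) + 1) *
          (c2 * (12 * (sz a + 2 ^ m a)) ^ k2 + 5 + c1 * (12 * (sz a + 2 ^ m a)) ^ k1)) ^ k := by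
          gcongr <;> omega
      _ ≤ c4 * (2 * (sz a + 2 ^ m a) + 1) ^ k4 := e
      _ ≤ c4 * (3 * (sz a + 2 ^ m a)) ^ k4 := by gcongr; omega
      _ = _ := by rw [mul_pow, mul_assoc]
  · rintro a ⟨i, s⟩ ⟨h1, h2⟩ hc
    dsimp only at h2
    subst h2
    simp only [ne_eq, decide_eq_true_eq] at hc h1 ⊢
    refine ⟨⟨by omega, ?_⟩, by omega⟩
    rw [show m a - (i - 1) = m a - i + 1 by omega, pow_succ, mul_two, List.replicate_add]
  · rintro a ⟨i, s⟩ ⟨h1, h2⟩
    dsimp only at h2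
    subst h2
    have e : sz (i, a, List.replicate (2 ^ (m a - i)) ()) ≤ 12 * (sz a + 2 ^ m a) := by
      have := sz_nat_le_self i
      have := hlt a
      have := sz_pos a
      have : 2 ^ (m a - i) ≤ 2 ^ m a := Nat.pow_le_pow_right (by norm_num) (by omega)
      simp only [sz_pair, sz_unitList, List.length_replicate] at h1 ⊢
      omega
    gcongr
  · rintro a ⟨i, s⟩ ⟨h1, h2⟩ hc
    dsimp only at h2
    subst h2
    obtain rfl : i = 0 := by simpa using hc
    simp

/-- A `PT` function of the padded input. -/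
theorem TimeF.of_pad {m : α → ℕ} (hm : PT m) {G : α × List Unit → β} (hG : PT G) :
    ∃ c k : ℕ, TimeF (fun a => G (a, List.replicate (2 ^ m a) ()))
      (fun a => c * (sz a + 2 ^ m a) ^ k) := by
  obtain ⟨c, k, h⟩ := timeF_pad hm
  obtain ⟨c', k', h⟩ := TimeF.bound_comp hG h
  exact ⟨c' * c ^ k', k * k', h.mono fun a => by rw [mul_pow, pow_mul, mul_assoc]⟩

/-- `α`, to be encoded with a padding of length `2 ^ m a`. -/
structure Pad (α : Type) (m : α → ℕ) where
  /-- the underlying element -/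
  val : α

instance {m : α → ℕ} : Enc (Pad α m) :=
  Enc.ofInj (fun a => (a.val, List.replicate (2 ^ m a.val) ())) (by
    rintro ⟨a⟩ ⟨b⟩ h
    simp only [Prod.mk.injEq] at h
    rw [h.1])

lemma Pad.pt_pair {m : α → ℕ} :
    PT (fun a : Pad α m => (a.val, List.replicate (2 ^ m a.val) ())) :=
  PT.id.of_enc fun _ => rfl

@[fun_prop] protected lemma PT.padVal {m : β → ℕ} {f : α → Pad β m} (hf : PT f) :
    PT (fun a => (f a).val) := Pad.pt_pair.fst.comp hf

lemma Pad.pb {m : α → ℕ} : PB (fun a : Pad α m => 2 ^ m a.val) :=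
  (PB.length Pad.pt_pair.snd).of_le fun a => by simp

lemma Pad.pt {m : α → ℕ} : PT (fun a : Pad α m => 2 ^ m a.val) :=
  Pad.pt_pair.snd.length.congr fun a => by simp

/-- The general statement: instances `i` are read from their codes, `m` is a `PT`
function of bit strings, `g` is `PT` on instances padded to `2 ^ m (code i)`. -/
theorem exists_timeF_of_pad [Dec β] {ι : Type} [Enc ι] {code : ι → List Bool}
    (hr : Reads code (fun i => i)) {m : List Bool → ℕ} (hm : PT m) {g : ι → β}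
    (hg : PT (fun i : Pad ι (fun i => m (code i)) => g i.val)) :
    ∃ (f : List Bool → β) (c k : ℕ), TimeF f (fun x => c * (x.length + 1 + 2 ^ m x) ^ k) ∧
      ∀ i, f (code i) = g i := by
  have h1 : Reads (fun i => (code i, List.replicate (2 ^ m (code i)) ()))
      (fun i => (⟨i⟩ : Pad ι (fun i => m (code i)))) :=
    (((Reads.self _).fst.trans hr).pair (Reads.self _).snd).of_enc fun _ => rfl
  obtain ⟨G, hG, h⟩ := (h1.comp hg).exists_pt
  obtain ⟨c, k, hT⟩ := TimeF.of_pad hm hG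
  refine ⟨_, c * 6 ^ k, k, hT.mono fun x => ?_, h⟩
  rw [mul_assoc, ← mul_pow, sz_boolList]
  generalize 2 ^ m x = y
  gcongr
  omega

theorem TimeF.timeBound {f : List Bool → List Bool} {S : List Bool → ℕ} (hf : TimeF f S)
    (T : ℕ → ℕ) (hT : ∀ x, S x ≤ T x.length) : ∃ K : ℕ, TimeBound f (fun n => K * T n) :=
  hf.timeBoundComputable (Computability.encodingList Bool).encode
    (Computability.encodingList Bool).encode f (fun _ => rfl) T hT

lemma TimeBoundComputable.mono {A B Γ₀ Γ₁ : Type} {ea : A → List Γ₀} {eb : B → List Γ₁}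
    {f : A → B} {s t : ℕ → ℕ} (h : TimeBoundComputable ea eb f s) (hst : ∀ n, s n ≤ t n) :
    TimeBoundComputable ea eb f t := by
  obtain ⟨M, hM⟩ := h
  exact ⟨M, fun n => (hM n).trans (hst n)⟩

lemma le_two_pow_log_sq (n : ℕ) : n + 2 ≤ 2 ^ (2 * Nat.log 2 (n + 2) ^ 2) := by
  have h1 : 1 ≤ Nat.log 2 (n + 2) := Nat.log_pos (by norm_num) (by omega)
  have h2 := Nat.lt_pow_succ_log_self (b := 2) (by norm_num) (n + 2)
  exact h2.le.trans (Nat.pow_le_pow_right (by norm_num) (by nlinarith))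

/-- Quasi-polynomial time `2 ^ (c log² (L + 2))`. -/
theorem exists_timeBound_quasiPoly {ι : Type} [Enc ι] {code : ι → List Bool}
    (hr : Reads code (fun i => i)) (c₀ : ℕ) {g : ι → List Bool}
    (hg : PT (fun i : Pad ι (fun i => c₀ * Nat.log 2 ((code i).length + 2) ^ 2) => g i.val)) :
    ∃ (c : ℕ) (f : List Bool → List Bool),
      TimeBound f (fun L => 2 ^ (c * Nat.log 2 (L + 2) ^ 2)) ∧ ∀ i, f (code i) = g i := by
  obtain ⟨f, c, k, hf, h⟩ := exists_timeF_of_pad hr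
    (m := fun x => c₀ * Nat.log 2 (x.length + 2) ^ 2) (by fun_prop) hg
  obtain ⟨K, hK⟩ := hf.timeBound
    (fun L => c * (L + 1 + 2 ^ (c₀ * Nat.log 2 (L + 2) ^ 2)) ^ k) fun _ => le_rfl
  refine ⟨K * c + (c₀ + 3) * k, f, TimeBoundComputable.mono hK fun L => ?_, h⟩
  have h1 : 1 ≤ Nat.log 2 (L + 2) := Nat.log_pos (by norm_num) (by omega)
  have h2 := le_two_pow_log_sq L
  generalize Nat.log 2 (L + 2) = l at h1 h2
  have h3 : 1 ≤ l ^ 2 := Nat.one_le_pow _ _ h1
  generalize l ^ 2 = q at h2 h3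
  have h4 : L + 1 + 2 ^ (c₀ * q) ≤ 2 ^ ((c₀ + 3) * q) := by
    have a1 : 2 ^ (2 * q) ≤ 2 ^ ((c₀ + 2) * q) := Nat.pow_le_pow_right (by norm_num) (by nlinarith)
    have a2 : 2 ^ (c₀ * q) ≤ 2 ^ ((c₀ + 2) * q) := Nat.pow_le_pow_right (by norm_num) (by nlinarith)
    have a3 : 2 ^ ((c₀ + 2) * q + 1) ≤ 2 ^ ((c₀ + 3) * q) :=
      Nat.pow_le_pow_right (by norm_num) (by nlinarith)
    rw [pow_succ] at a3
    omega
  have h5 : K * c ≤ 2 ^ (K * c * q) :=
    Nat.lt_two_pow_self.le.trans (Nat.pow_le_pow_right (by norm_num) (Nat.le_mul_of_pos_right _ h3))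
  calc K * (c * (L + 1 + 2 ^ (c₀ * q)) ^ k) = K * c * (L + 1 + 2 ^ (c₀ * q)) ^ k := by ring
    _ ≤ 2 ^ (K * c * q) * (2 ^ ((c₀ + 3) * q)) ^ k := by gcongr
    _ = _ := by rw [← pow_mul, ← pow_add]; congr 1; ring

lemma exists_poly_le_two_pow_pow (a b : ℕ) :
    ∃ c k : ℕ, ∀ n : ℕ, 2 ^ (a * (n + 1) ^ b) ≤ c * 2 ^ (n ^ k) := by
  refine ⟨2 ^ (a * 2 ^ b), a + 2 * b, fun n => ?_⟩
  rcases Nat.lt_or_ge n 2 with h | h
  · have : (n + 1) ^ b ≤ 2 ^ b := Nat.pow_le_pow_left (by omega) _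
    calc 2 ^ (a * (n + 1) ^ b) ≤ 2 ^ (a * 2 ^ b) := by gcongr; norm_num
      _ ≤ _ := Nat.le_mul_of_pos_right _ (by positivity)
  · have h1 : a ≤ n ^ a := Nat.lt_two_pow_self.le.trans (Nat.pow_le_pow_left h a)
    have h2 : (n + 1) ^ b ≤ n ^ (2 * b) := by
      rw [pow_mul]; exact Nat.pow_le_pow_left (by nlinarith) _
    calc 2 ^ (a * (n + 1) ^ b) ≤ 2 ^ (n ^ (a + 2 * b)) := by
          rw [pow_add]; gcongr; norm_num
      _ ≤ _ := Nat.le_mul_of_pos_left _ (by positivity)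

/-- Exponential time: a test that is `PT` on inputs padded to `2 ^ m x`, `m` being `PT` and
`PB`. -/
theorem inEXP_of_pad {L : Set (List Bool)} {m : List Bool → ℕ} (hm : PT m) (hb : PB m)
    {g : List Bool → Bool} (hg : PT (fun x : Pad (List Bool) m => g x.val))
    (h : ∀ x, x ∈ L ↔ g x = true) : InEXP L := by
  obtain ⟨f, c, k, hf, h1⟩ := exists_timeF_of_pad (code := fun x : List Bool => x)
    (Reads.self _) hm (g := fun x => [g x]) (hg.cons (PT.const []))
  obtain ⟨c1, k1, hb⟩ := hb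
  obtain ⟨c2, k2, h2⟩ := exists_poly_le_two_pow_pow (k * (c1 * 6 ^ k1 + 2)) (k1 + 1)
  obtain ⟨K, hK⟩ := hf.timeBoundComputable (Computability.encodingList Bool).encode
    Computability.encodeBool g h1 (fun n => c * (c2 * 2 ^ (n ^ k2))) fun x => by
      show c * (x.length + 1 + 2 ^ m x) ^ k ≤ c * (c2 * 2 ^ (x.length ^ k2))
      refine Nat.mul_le_mul_left _ (le_trans ?_ (h2 _))
      have e1 := hb x
      rw [sz_boolList] at e1
      have e2 : m x ≤ c1 * 6 ^ k1 * (x.length + 1) ^ (k1 + 1) := by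
        refine e1.trans ?_
        rw [mul_assoc, pow_succ, ← mul_assoc (6 ^ k1), ← mul_pow]
        refine Nat.mul_le_mul_left _ (le_trans ?_ (Nat.le_mul_of_pos_right _ (by omega)))
        exact Nat.pow_le_pow_left (by omega) _
      have e3 : x.length + 1 ≤ (x.length + 1) ^ (k1 + 1) := Nat.le_self_pow (by omega) _
      generalize (x.length + 1) ^ (k1 + 1) = q at e2 e3
      rw [mul_assoc, mul_comm k, pow_mul]
      refine Nat.pow_le_pow_left ?_ _
      have a1 : x.length + 1 ≤ 2 ^ (c1 * 6 ^ k1 * q + q) :=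
        (e3.trans Nat.lt_two_pow_self.le).trans (Nat.pow_le_pow_right (by norm_num) (by omega))
      have a2 : 2 ^ m x ≤ 2 ^ (c1 * 6 ^ k1 * q + q) :=
        Nat.pow_le_pow_right (by norm_num) (by omega)
      have a3 : 2 ^ (c1 * 6 ^ k1 * q + q + 1) ≤ 2 ^ ((c1 * 6 ^ k1 + 2) * q) :=
        Nat.pow_le_pow_right (by norm_num) (by nlinarith)
      rw [pow_succ] at a3
      omega
  refine ⟨k2, g, K * c * c2, TimeBoundComputable.mono hK fun n => ?_, h⟩
  nlinarith [Nat.zero_le (K * c * c2)]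

/-- Conversely, a language in EXPTIME is decided in `PT` on padded inputs. -/
theorem InEXP.exists_pad {L : Set (List Bool)} (h : InEXP L) :
    ∃ (k : ℕ) (g : List Bool → Bool),
      PT (fun x : Pad (List Bool) (fun x => x.length ^ k) => g x.val) ∧
        ∀ x, x ∈ L ↔ g x = true := by
  obtain ⟨k, g, c, hg, h⟩ := h
  refine ⟨k, g, ?_, h⟩
  have := PT.of_timeBoundComputable hg
    (x := fun x : Pad (List Bool) (fun x => x.length ^ k) => x.val) PT.id.padVal
    (((PB.const c).mul Pad.pb).add (PB.const c))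
  exact this.headI

end Crest.Agent.Lib.PT
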