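import Crest.Agent.Lib.PT.Lang

/-!
Linear-cost maps of the tree language, and the basic loop lemmas.
-/

set_option autoImplicit false

namespace Crest.Agent.Lib.PT

section EvalLe
variable {p q c b : Prog} {x y z u v : D} {m n k : ℕ}

lemma EvalLe.nil_l (x : D) : EvalLe .nil x .nil x.size := (Eval.nil x).evalLe
lemma EvalLe.id_l (x : D) : EvalLe .id x x x.size := (Eval.id x).evalLe
lemma EvalLe.car_l (x : D) : EvalLe .car x x.car x.size := (Eval.car x).evalLe
lemma EvalLe.cdr_l (x : D) : EvalLe .cdr x x.cdr x.size := (Eval.cdr x).evalLe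

lemma EvalLe.cons_l (h₁ : EvalLe p x u m) (h₂ : EvalLe q x v n) :
    EvalLe (.cons p q) x (.cons u v) (m + n + 1) := by
  obtain ⟨m', hm, h₁⟩ := h₁
  obtain ⟨n', hn, h₂⟩ := h₂
  exact ⟨_, by omega, h₁.cons h₂⟩

lemma EvalLe.comp_l (h₁ : EvalLe q x y m) (h₂ : EvalLe p y z n) :
    EvalLe (.comp p q) x z (m + n) := by
  obtain ⟨m', hm, h₁⟩ := h₁
  obtain ⟨n', hn, h₂⟩ := h₂
  exact ⟨_, by omega, h₁.comp h₂⟩

lemma EvalLe.iteNil_l (h₁ : EvalLe c x .nil m) (h₂ : EvalLe p x y n) :
    EvalLe (.ite c p q) x y (m + n) := by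
  obtain ⟨m', hm, h₁⟩ := h₁
  obtain ⟨n', hn, h₂⟩ := h₂
  exact ⟨_, by omega, h₁.iteNil h₂⟩

lemma EvalLe.iteCons_l (h₁ : EvalLe c x (.cons u v) m) (h₂ : EvalLe q x y n) :
    EvalLe (.ite c p q) x y (m + n) := by
  obtain ⟨m', hm, h₁⟩ := h₁
  obtain ⟨n', hn, h₂⟩ := h₂
  exact ⟨_, by omega, h₁.iteCons h₂⟩

lemma EvalLe.loopNil_l (h₁ : EvalLe c x .nil m) : EvalLe (.loop c b) x x m := by
  obtain ⟨m', hm, h₁⟩ := h₁
  exact ⟨_, hm, h₁.loopNil⟩

lemma EvalLe.loopCons_l (h₁ : EvalLe c x (.cons u v) m) (h₂ : EvalLe b x y n)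
    (h₃ : EvalLe (.loop c b) y z k) : EvalLe (.loop c b) x z (m + n + k) := by
  obtain ⟨m', hm, h₁⟩ := h₁
  obtain ⟨n', hn, h₂⟩ := h₂
  obtain ⟨k', hk, h₃⟩ := h₃
  exact ⟨_, by omega, h₁.loopCons h₂ h₃⟩

end EvalLe

/-- `Lin ea eb`: one program maps `ea a` to `eb a`, for every `a`, at cost linear in the size of
the input. -/
def Lin {α : Type} (ea eb : α → D) : Prop :=
  ∃ (p : Prog) (K : ℕ), ∀ a, EvalLe p (ea a) (eb a) (K * (ea a).size)

namespace Lin

variable {α β : Type} {ea f g c : α → D}

lemma congr (h : Lin ea f) (hfg : ∀ a, f a = g a) : Lin ea g := by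
  have : f = g := funext hfg
  rwa [← this]

lemma id (ea : α → D) : Lin ea ea := ⟨.id, 1, fun a => by simpa using EvalLe.id_l _⟩

lemma nil (ea : α → D) : Lin ea (fun _ => .nil) := ⟨.nil, 1, fun a => by simpa using EvalLe.nil_l _⟩

lemma trans (h₁ : Lin ea f) (h₂ : Lin f g) : Lin ea g := by
  obtain ⟨p, K, hp⟩ := h₁
  obtain ⟨q, K', hq⟩ := h₂
  refine ⟨.comp q p, K + K' * K, fun a => ((hp a).comp_l (hq a)).mono ?_⟩
  have := (hp a).size_out_le
  nlinarith [Nat.mul_le_mul_left K' this]

lemma precomp {eb h : β → D} (φ : α → β) (h₂ : Lin eb h) :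
    Lin (fun a => eb (φ a)) (fun a => h (φ a)) := by
  obtain ⟨q, K', hq⟩ := h₂
  exact ⟨q, K', fun a => hq (φ a)⟩

lemma comp {eb h : β → D} (φ : α → β) (h₁ : Lin ea (fun a => eb (φ a))) (h₂ : Lin eb h) :
    Lin ea (fun a => h (φ a)) := h₁.trans (precomp φ h₂)

lemma car (h : Lin ea f) : Lin ea (fun a => (f a).car) :=
  h.trans ⟨.car, 1, fun a => by simpa using EvalLe.car_l _⟩

lemma cdr (h : Lin ea f) : Lin ea (fun a => (f a).cdr) :=
  h.trans ⟨.cdr, 1, fun a => by simpa using EvalLe.cdr_l _⟩

lemma cons (h₁ : Lin ea f) (h₂ : Lin ea g) : Lin ea (fun a => .cons (f a) (g a)) := by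
  obtain ⟨p, K, hp⟩ := h₁
  obtain ⟨q, K', hq⟩ := h₂
  refine ⟨.cons p q, K + K' + 1, fun a => ((hp a).cons_l (hq a)).mono ?_⟩
  have := (ea a).size_pos
  nlinarith

lemma const (ea : α → D) (d : D) : Lin ea (fun _ => d) := by
  induction d with
  | nil => exact nil ea
  | cons a b iha ihb => exact iha.cons ihb

lemma ite (hc : Lin ea c) (h₁ : Lin ea f) (h₂ : Lin ea g) :
    Lin ea (fun a => if c a = .nil then f a else g a) := by
  obtain ⟨r, K₀, hr⟩ := hc
  obtain ⟨p, K, hp⟩ := h₁
  obtain ⟨q, K', hq⟩ := h₂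
  refine ⟨.ite r p q, K₀ + K + K', fun a => ?_⟩
  have h0 := hr a
  cases hca : c a with
  | nil =>
    rw [hca] at h0
    simp only [hca, if_true]
    refine (h0.iteNil_l (hp a)).mono ?_
    nlinarith [Nat.zero_le (K' * (ea a).size)]
  | cons u v =>
    rw [hca] at h0
    simp only [hca, reduceCtorEq, if_false]
    refine (h0.iteCons_l (hq a)).mono ?_
    nlinarith [Nat.zero_le (K * (ea a).size)]

lemma eqc (d : D) : ∀ {c : α → D}, Lin ea c → Lin ea (fun a => D.ofBool (decide (c a = d))) := by
  induction d with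
  | nil =>
    intro c hc
    refine (hc.ite (const ea (D.ofBool true)) (const ea (D.ofBool false))).congr fun a => ?_
    by_cases h : c a = .nil <;> simp [h]
  | cons u v ihu ihv =>
    intro c hc
    refine (hc.ite (const ea (D.ofBool false))
      ((ihu hc.car).ite (const ea (D.ofBool false)) (ihv hc.cdr))).congr fun a => ?_
    cases c a with
    | nil => simp
    | cons s t =>
      by_cases h1 : s = u <;> by_cases h2 : t = v <;> simp [h1, h2]

lemma cases (hc : Lin ea c) (F : D → α → D) (A : List D) (hF : ∀ d ∈ A, Lin ea (F d)) :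
    Lin ea (fun a => if c a ∈ A then F (c a) a else .nil) := by
  induction A with
  | nil => simpa using nil ea
  | cons d A ih =>
    refine ((eqc d hc).ite (ih fun e he => hF e (by simp [he])) (hF d (by simp))).congr fun a => ?_
    by_cases h : c a = d
    · simp [h]
    · simp [h]

/-- Case distinction on a value with finite range. -/
lemma cases_of_finite (hc : Lin ea c) (hfin : (Set.range c).Finite) (F : D → α → D)
    (hF : ∀ d, Lin ea (F d)) : Lin ea (fun a => F (c a) a) := by
  refine (hc.cases F hfin.toFinset.toList fun d _ => hF d).congr fun a => ?_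
  rw [if_pos]
  simp

/-- Anything determined by a value with finite range. -/
lemma table (hc : Lin ea c) (hfin : (Set.range c).Finite) (h : α → D)
    (hh : ∀ a a', c a = c a' → h a = h a') : Lin ea h := by
  classical
  refine (hc.cases_of_finite hfin (fun d _ => if H : ∃ a, c a = d then h H.choose else .nil)
    (fun d => const ea _)).congr fun a => ?_
  have H : ∃ a', c a' = c a := ⟨a, rfl⟩
  rw [dif_pos H]
  exact hh _ _ H.choose_spec

/-- Case distinction on an injectively coded index from a finite type. -/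
lemma finCases {ι : Type} [Finite ι] (code : ι → D) (hcode : Function.Injective code) (i : α → ι)
    (hc : Lin ea (fun a => code (i a))) (F : ι → α → D) (hF : ∀ j, Lin ea (F j)) :
    Lin ea (fun a => F (i a) a) := by
  classical
  have hfin : (Set.range fun a => code (i a)).Finite :=
    (Set.finite_range code).subset (by rintro _ ⟨a, rfl⟩; exact ⟨_, rfl⟩)
  refine (hc.cases_of_finite hfin
    (fun d a => if H : ∃ j, code j = d then F H.choose a else .nil) (fun d => ?_)).congr fun a => ?_
  · by_cases H : ∃ j, code j = d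
    · simpa only [dif_pos H] using hF _
    · simpa only [dif_neg H] using nil ea
  · have H : ∃ j, code j = code (i a) := ⟨_, rfl⟩
    rw [dif_pos H, hcode H.choose_spec]

lemma ofList_get {ι : Type} (G : α → ι → D) (k : ι) :
    ∀ (L : List ι), k ∈ L → Lin ea (fun a => D.ofList (L.map (G a))) → Lin ea (fun a => G a k) := by
  intro L
  induction L with
  | nil => simp
  | cons j L ih =>
    intro hk h
    rcases List.mem_cons.mp hk with rfl | hk
    · exact h.car
    · exact ih hk h.cdr

lemma ofList_build {ι : Type} (G : α → ι → D) :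
    ∀ (L : List ι), (∀ k ∈ L, Lin ea (fun a => G a k)) →
      Lin ea (fun a => D.ofList (L.map (G a))) := by
  intro L
  induction L with
  | nil => intro _; exact nil ea
  | cons j L ih =>
    intro h
    exact (h j (by simp)).cons (ih fun k hk => h k (by simp [hk]))

end Lin

/-- Reversed map of a finite table over a list. -/
lemma exists_revMap (A : Set D) (hA : A.Finite) (g : D → D) :
    ∃ (p : Prog) (K : ℕ), ∀ l : List D, (∀ d ∈ l, d ∈ A) →
      EvalLe p (D.ofList l) (D.ofList (l.map g).reverse) (K * (l.length + 1) ^ 2) := by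
  obtain ⟨M, hM⟩ : ∃ M, ∀ d ∈ A, d.size ≤ M ∧ (g d).size ≤ M := by
    obtain ⟨M₁, h₁⟩ := (hA.image D.size).bddAbove
    obtain ⟨M₂, h₂⟩ := (hA.image fun d => (g d).size).bddAbove
    exact ⟨max M₁ M₂, fun d hd => ⟨le_max_of_le_left (h₁ ⟨d, hd, rfl⟩),
      le_max_of_le_right (h₂ ⟨d, hd, rfl⟩)⟩⟩
  -- the loop body
  let α := {x : D × List D × List D // x.1 ∈ A}
  let ea : α → D := fun x => .cons (D.ofList (x.1.1 :: x.1.2.1)) (D.ofList x.1.2.2)
  have hb : Lin ea (fun x => .cons (D.ofList x.1.2.1) (D.ofList (g x.1.1 :: x.1.2.2))) := by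
    have h0 : Lin ea (fun x => x.1.1) := (Lin.id ea).car.car
    have h1 : Lin ea (fun x => g x.1.1) :=
      h0.table (hA.subset (by rintro _ ⟨x, rfl⟩; exact x.2)) _ (fun a a' h => by rw [h])
    exact (Lin.id ea).car.cdr.cons (h1.cons (Lin.id ea).cdr)
  obtain ⟨b, K, hb⟩ := hb
  have key : ∀ (l acc : List D) (N : ℕ), (∀ d ∈ l, d ∈ A) → (∀ d ∈ acc, d.size ≤ M) →
      l.length + acc.length ≤ N →
      EvalLe (.loop .car b) (.cons (D.ofList l) (D.ofList acc))
        (.cons .nil (D.ofList ((l.map g).reverse ++ acc)))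
        ((l.length + 1) * ((K + 1) * ((M + 1) * N + 3))) := by
    intro l
    induction l with
    | nil =>
      intro acc N _ hacc hN
      have h1 := D.size_ofList_le acc M hacc
      have h2 : (M + 1) * acc.length ≤ (M + 1) * N := Nat.mul_le_mul_left _ (by simpa using hN)
      refine (EvalLe.loopNil_l (EvalLe.car_l (.cons .nil (D.ofList acc)))).mono ?_
      simp only [D.size_cons, D.size_nil, List.length_nil]
      nlinarith [Nat.zero_le (K * ((M + 1) * N + 3))]
    | cons d l ih =>
      intro acc N hl hacc hN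
      have hd : d ∈ A := hl d (by simp)
      have h1 := D.size_ofList_le acc M hacc
      have h2 := D.size_ofList_le (d :: l) M (fun e he => (hM e (hl e he)).1)
      have h3 : (M + 1) * (d :: l).length + (M + 1) * acc.length ≤ (M + 1) * N := by
        rw [← Nat.mul_add]; exact Nat.mul_le_mul_left _ hN
      have hs : (D.cons (D.ofList (d :: l)) (D.ofList acc)).size ≤ (M + 1) * N + 3 := by
        rw [D.size_cons]; omega
      have e1 := EvalLe.car_l (.cons (D.ofList (d :: l)) (D.ofList acc))
      have e2 := hb ⟨(d, l, acc), hd⟩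
      have e3 := ih (g d :: acc) N (fun e he => hl e (by simp [he]))
        (by
          intro e he
          rcases List.mem_cons.mp he with rfl | he
          · exact (hM d hd).2
          · exact hacc e he)
        (by simp only [List.length_cons] at hN ⊢; omega)
      have := EvalLe.loopCons_l e1 e2 e3
      simp only [List.map_cons, List.reverse_cons, List.append_assoc, List.singleton_append]
      refine this.mono ?_
      simp only [ea, List.length_cons]
      nlinarith [Nat.mul_le_mul_left K hs]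
  refine ⟨.comp .cdr (.comp (.loop .car b) (.cons .id .nil)),
    (K + 1) * (M + 4) + 3 * (M + 4), fun l hl => ?_⟩
  have e1 := (EvalLe.id_l (D.ofList l)).cons_l (EvalLe.nil_l (D.ofList l))
  have e2 := key l [] l.length hl (by simp) (by simp)
  have e3 := EvalLe.cdr_l (.cons .nil (D.ofList ((l.map g).reverse ++ [])))
  have := (e1.comp_l e2).comp_l e3
  simp only [List.append_nil, D.cdr_cons] at this
  refine this.mono ?_
  have h1 := D.size_ofList_le l M (fun e he => (hM e (hl e he)).1)
  have h2 := D.size_ofList_le (l.map g).reverse M (by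
    intro e he
    simp only [List.mem_reverse, List.mem_map] at he
    obtain ⟨d, hd, rfl⟩ := he
    exact (hM d (hl d hd)).2)
  simp only [List.length_reverse, List.length_map, D.size_cons, D.size_nil] at h2 ⊢
  have h3 : (M + 1) * l.length + 3 ≤ (M + 4) * (l.length + 1) := by nlinarith
  have h4 : (l.length + 1) * ((K + 1) * ((M + 1) * l.length + 3)) ≤
      (K + 1) * (M + 4) * (l.length + 1) ^ 2 := by
    calc _ ≤ (l.length + 1) * ((K + 1) * ((M + 4) * (l.length + 1))) :=
          Nat.mul_le_mul_left _ (Nat.mul_le_mul_left _ h3)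
      _ = _ := by ring
  have h5 : (M + 4) * (l.length + 1) ≤ (M + 4) * (l.length + 1) ^ 2 :=
    Nat.mul_le_mul_left _ (Nat.le_self_pow (by norm_num) _)
  nlinarith

/-- Map of a finite table over a list. -/
lemma exists_map (A : Set D) (hA : A.Finite) (g : D → D) :
    ∃ (p : Prog) (K : ℕ), ∀ l : List D, (∀ d ∈ l, d ∈ A) →
      EvalLe p (D.ofList l) (D.ofList (l.map g)) (K * (l.length + 1) ^ 2) := by
  obtain ⟨p, K, hp⟩ := exists_revMap A hA g
  obtain ⟨q, K', hq⟩ := exists_revMap (g '' A) (hA.image g) _root_.id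
  refine ⟨.comp q p, K + K', fun l hl => ?_⟩
  have e2 := hq (l.map g).reverse (by
    intro e he
    simp only [List.mem_reverse, List.mem_map] at he
    obtain ⟨d, hd, rfl⟩ := he
    exact ⟨d, hl d hd, rfl⟩)
  simp only [List.map_id, List.reverse_reverse, List.length_reverse, List.length_map] at e2
  exact ((hp l hl).comp_l e2).mono (le_of_eq (by ring))

end Crest.Agent.Lib.PT
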