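import Crest.Agent.Lib.PT.Bridge
import Crest.Prelude.Def_BitEnc

/-!
Polynomial-time toolkit: writing and reading the bit codes of `Crest.Enc`.

`Reads u x` says that `x i` can be computed in polynomial time from `u i` (no encoding of the index
type is needed). `SD c` says that `c` is a self-delimiting code with a polynomial-time parser.
-/

set_option autoImplicit false
set_option linter.dupNamespace false

namespace Crest.Agent.Lib.PT

open Crest.Complexity Crest.Randomized

variable {α β γ δ σ : Type} [Enc α] [Enc β] [Enc γ] [Enc δ] [Enc σ]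

/-! ### folds with an invariant and additive growth -/

protected lemma PT.foldl_inv_add {f : α → γ → β → γ} {l : α → List β} {ini : α → γ}
    (Inv : α → γ → Prop) (G : α → ℕ)
    (hf : PT (fun p : α × γ × β => f p.1 p.2.1 p.2.2)) (hl : PT l) (hi : PT ini) (hG : PB G)
    (h0 : ∀ a, Inv a (ini a)) (hstep : ∀ a acc, ∀ x ∈ l a, Inv a acc → Inv a (f a acc x))
    (h : ∀ a acc, ∀ x ∈ l a, Inv a acc → sz (f a acc x) ≤ sz acc + G a) :
    PT (fun a => (l a).foldl (f a) (ini a)) := by
  refine PT.foldl (fun a => sz (ini a) + (l a).length * G a) hf hl hi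
    ((PB.sz hi).add ((PB.length hl).mul hG)) fun a i => ?_
  have : ∀ (m : List β) (acc : γ), (∀ x ∈ m, x ∈ l a) → Inv a acc →
      sz (m.foldl (f a) acc) ≤ sz acc + m.length * G a := by
    intro m
    induction m with
    | nil => intro acc _ _; simp
    | cons x m ih =>
      intro acc hm hI
      have hx := hm x (by simp)
      have h1 := ih (f a acc x) (fun y hy => hm y (by simp [hy])) (hstep a acc x hx hI)
      have h2 := h a acc x hx hI
      simp only [List.foldl_cons, List.length_cons]
      nlinarith
  refine (this _ _ (fun x hx => List.mem_of_mem_take hx) (h0 a)).trans ?_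
  have : ((l a).take i).length ≤ (l a).length := by simp
  have := Nat.mul_le_mul_right (G a) this
  omega

protected lemma PT.iterate_inv_add {f : α → β → β} {n : α → ℕ} {ini : α → β}
    (Inv : α → β → Prop) (G : α → ℕ) (hf : PT (fun p : α × β => f p.1 p.2)) (hn : PT n)
    (hb : PB n) (hi : PT ini) (hG : PB G) (h0 : ∀ a, Inv a (ini a))
    (hstep : ∀ a x, Inv a x → Inv a (f a x))
    (h : ∀ a x, Inv a x → sz (f a x) ≤ sz x + G a) : PT (fun a => (f a)^[n a] (ini a)) := by
  refine PT.iterate (fun a => sz (ini a) + n a * G a) hf hn hb hi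
    ((PB.sz hi).add (hb.mul hG)) fun a i hi => ?_
  have : ∀ i, Inv a ((f a)^[i] (ini a)) ∧ sz ((f a)^[i] (ini a)) ≤ sz (ini a) + i * G a := by
    intro i
    induction i with
    | zero => simpa using h0 a
    | succ i ih =>
      rw [Function.iterate_succ_apply']
      refine ⟨hstep _ _ ih.1, ?_⟩
      have := h a _ ih.1
      nlinarith [ih.2]
  have h1 := (this i).2
  have := Nat.mul_le_mul_right (G a) hi
  omega

/-! ### writing codes -/

@[fun_prop] protected lemma PT.natCode {n : α → ℕ} (hn : PT n) :
    PT (fun a => Crest.Enc.natCode (n a)) := by unfold Crest.Enc.natCode; fun_prop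

@[fun_prop] protected lemma PT.intCode {z : α → ℤ} (hz : PT z) :
    PT (fun a => Crest.Enc.intCode (z a)) := by unfold Crest.Enc.intCode; fun_prop

@[fun_prop] protected lemma PT.ratCode {q : α → ℚ} (hq : PT q) :
    PT (fun a => Crest.Enc.ratCode (q a)) := by unfold Crest.Enc.ratCode; fun_prop

@[fun_prop] protected lemma PT.listCode {l : α → List ℕ} (hl : PT l) :
    PT (fun a => Crest.Enc.listCode (l a)) := by unfold Crest.Enc.listCode; fun_prop

lemma length_natCode (n : ℕ) : (Crest.Enc.natCode n).length = 2 * Nat.size n + 2 := by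
  rw [Crest.Enc.natCode, ← Nat.size_eq_bits_len]
  induction n.bits with
  | nil => rfl
  | cons b l ih => simp at ih ⊢; omega

lemma natCode_ne_nil (n : ℕ) : Crest.Enc.natCode n ≠ [] := by simp [Crest.Enc.natCode]
lemma intCode_ne_nil (z : ℤ) : Crest.Enc.intCode z ≠ [] := by simp [Crest.Enc.intCode]
lemma ratCode_ne_nil (q : ℚ) : Crest.Enc.ratCode q ≠ [] := by simp [Crest.Enc.ratCode]
lemma listCode_ne_nil (l : List ℕ) : Crest.Enc.listCode l ≠ [] := by
  simp [Crest.Enc.listCode, natCode_ne_nil]

/-! ### `Reads` -/

section Reads

variable {ι κ : Type}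

/-- `x i` can be computed in polynomial time from `u i`. -/
def Reads (u : ι → α) (x : ι → β) : Prop := ∃ P : α → D, PT P ∧ ∀ i, P (u i) = enc (x i)

protected lemma Reads.self (u : ι → α) : Reads u u := ⟨enc, PT.id.enc, fun _ => rfl⟩

protected lemma Reads.of_enc {u : ι → α} {x : ι → β} {y : ι → γ} (h : Reads u y)
    (hxy : ∀ i, enc (x i) = enc (y i)) : Reads u x := by
  obtain ⟨P, hP, h⟩ := h
  exact ⟨P, hP, fun i => by rw [h, hxy]⟩

protected lemma Reads.congr {u : ι → α} {x y : ι → β} (h : Reads u y) (hxy : ∀ i, x i = y i) :
    Reads u x := h.of_enc fun i => by rw [hxy]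

protected lemma Reads.precomp {u : ι → α} {x : ι → β} (h : Reads u x) (j : κ → ι) :
    Reads (fun k => u (j k)) (fun k => x (j k)) := by
  obtain ⟨P, hP, h⟩ := h
  exact ⟨P, hP, fun k => h (j k)⟩

protected lemma Reads.trans {u : ι → α} {x : ι → β} {y : ι → γ} (h₁ : Reads u x)
    (h₂ : Reads x y) : Reads u y := by
  obtain ⟨P, hP, h₁⟩ := h₁
  obtain ⟨Q, hQ, h₂⟩ := h₂
  obtain ⟨G, hG, h⟩ := hQ.extend (enc : β → D) fun _ => rfl
  exact ⟨fun a => G (P a), hG.comp hP, fun i => by simp only [h₁, h, h₂, enc_D]⟩

protected lemma PT.reads {g : α → β} (hg : PT g) (u : ι → α) : Reads u (fun i => g (u i)) :=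
  ⟨fun a => enc (g a), hg.enc, fun _ => rfl⟩

/-- Apply a `PT` function to something readable. -/
protected lemma Reads.comp {u : ι → α} {x : ι → β} (h : Reads u x) {g : β → γ} (hg : PT g) :
    Reads u (fun i => g (x i)) := h.trans (hg.reads x)

protected lemma Reads.pair {u : ι → α} {x : ι → β} {y : ι → γ} (h₁ : Reads u x)
    (h₂ : Reads u y) : Reads u (fun i => (x i, y i)) := by
  obtain ⟨P, hP, h₁⟩ := h₁
  obtain ⟨Q, hQ, h₂⟩ := h₂
  exact ⟨fun a => .cons (P a) (Q a), hP.dcons hQ, fun i => by simp only [h₁, h₂, enc_pair]⟩

protected lemma Reads.fst {u : ι → α} {x : ι → β × γ} (h : Reads u x) :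
    Reads u (fun i => (x i).1) := h.comp PT.id.fst

protected lemma Reads.snd {u : ι → α} {x : ι → β × γ} (h : Reads u x) :
    Reads u (fun i => (x i).2) := h.comp PT.id.snd

protected lemma Reads.const (u : ι → α) (b : β) : Reads u (fun _ => b) :=
  (PT.const b).reads u

protected lemma Reads.subtypeMk {u : ι → α} {x : ι → β} {p : β → Prop} (h : Reads u x)
    (hp : ∀ i, p (x i)) : Reads u (fun i => (⟨x i, hp i⟩ : Subtype p)) := h.of_enc fun _ => rfl

/-- What is read is determined by what it is read from. -/
protected lemma Reads.eq_of_eq {u : ι → α} {x : ι → β} (h : Reads u x) {i j : ι}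
    (hij : u i = u j) : x i = x j := by
  obtain ⟨P, -, h⟩ := h
  exact Enc.inj (by rw [← h, ← h, hij])

protected lemma Reads.injective {u : ι → α} {x : ι → β} (h : Reads u x)
    (hx : Function.Injective x) : Function.Injective u := fun _ _ hij => hx (h.eq_of_eq hij)

protected lemma Reads.pt [Enc ι] {u : ι → α} {x : ι → β} (h : Reads u x) (hu : PT u) : PT x := by
  obtain ⟨P, hP, h⟩ := h
  exact (hP.comp hu).of_enc fun i => by rw [h]; rfl

lemma reads_id_iff {x : α → β} : Reads (fun a : α => a) x ↔ PT x :=
  ⟨fun h => h.pt PT.id, fun h => h.reads _⟩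

/-- A total `PT` function realising `Reads`. -/
protected lemma Reads.exists_pt [Dec β] {u : ι → α} {x : ι → β} (h : Reads u x) :
    ∃ G : α → β, PT G ∧ ∀ i, G (u i) = x i := by
  obtain ⟨P, hP, h⟩ := h
  exact ⟨fun a => Dec.dec (P a), Dec.pt.comp hP, fun i => by simp only [h, Dec.dec_enc]⟩

theorem Reads.exists_polyTime {code g : ι → List Bool} (h : Reads code g) :
    ∃ f : List Bool → List Bool, PolyTime f ∧ ∀ i, f (code i) = g i := by
  obtain ⟨G, hG, h⟩ := h.exists_pt
  exact ⟨G, hG.polyTime, h⟩

theorem Reads.exists_polyTimePred {code : ι → List Bool} {g : ι → Bool} (h : Reads code g) :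
    ∃ f : List Bool → Bool, PolyTimePred f ∧ ∀ i, f (code i) = g i := by
  obtain ⟨G, hG, h⟩ := h.exists_pt
  exact ⟨G, hG.polyTimePred, h⟩

/-- Randomized algorithms: `repr i` is read from the code, `g` is `PT` in `repr i` and the tape. -/
theorem Reads.exists_randPolyTime {code : ι → List Bool} {repr : ι → β} (h : Reads code repr)
    {g : β × List Bool → List Bool} (hg : PT g) :
    ∃ A : List Bool × List Bool → List Bool, RandPolyTime A ∧
      ∀ i w, A (code i, w) = g (repr i, w) := by
  have h1 : Reads (fun p : ι × List Bool => (code p.1, p.2)) (fun p => (repr p.1, p.2)) :=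
    ((Reads.self _).fst.trans (h.precomp Prod.fst)).pair (Reads.self _).snd
  obtain ⟨G, hG, h⟩ := (h1.comp hg).exists_pt
  exact ⟨G, hG.randPolyTime, fun i w => h (i, w)⟩

/-- A readable number below the length of a readable list is readable in unary. -/
protected lemma Reads.unary {u : ι → α} {n : ι → ℕ} {l : ι → List β} (hn : Reads u n)
    (hl : Reads u l) (h : ∀ i, n i ≤ (l i).length) :
    Reads u (fun i => List.replicate (n i) ()) :=
  ((hn.pair hl).comp (g := fun p : ℕ × List β => List.replicate (min p.1 p.2.length) ())
    (by fun_prop)).congr fun i => by simp [h i]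

/-- A readable number that is polynomially bounded in readable data is readable in unary. -/
protected lemma Reads.unary_of_pb {u : ι → α} {n : ι → ℕ} {x : ι → β} (hn : Reads u n)
    (hx : Reads u x) {B : β → ℕ} (hB : PB B) (h : ∀ i, n i ≤ B (x i)) :
    Reads u (fun i => List.replicate (n i) ()) := by
  obtain ⟨c, k, hB⟩ := hB
  have h1 : PB (fun p : ℕ × β => sz p.2) := by fun_prop
  exact ((hn.pair hx).comp (g := fun p : ℕ × β => List.replicate (min p.1 (c * sz p.2 ^ k)) ())
    (by fun_prop)).congr fun i => by simp [(h i).trans (hB _)]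

protected lemma Reads.unary_length {u : ι → α} {l : ι → List β} (hl : Reads u l) :
    Reads u (fun i => List.replicate (l i).length ()) :=
  (hl.comp PT.id.length).unary hl fun _ => le_rfl

protected lemma Reads.of_unary {u : ι → α} {n : ι → ℕ}
    (h : Reads u (fun i => List.replicate (n i) ())) : Reads u n :=
  (h.comp PT.id.length).congr fun i => by simp

/-- Split off a prefix of known length. -/
protected lemma Reads.split_len {u : ι → α} {l r : ι → List β} {k : ι → ℕ} (hk : Reads u k)
    (hl : ∀ i, (l i).length = k i) (h : Reads u (fun i => l i ++ r i)) :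
    Reads u l ∧ Reads u r :=
  ⟨((hk.pair h).comp (g := fun p : ℕ × List β => p.2.take p.1) (by fun_prop)).congr
      fun i => by simp [← hl],
    ((hk.pair h).comp (g := fun p : ℕ × List β => p.2.drop p.1) (by fun_prop)).congr
      fun i => by simp [← hl]⟩

protected lemma Reads.split_cons {u : ι → α} {b : ι → β} {r : ι → List β}
    (h : Reads u (fun i => b i :: r i)) : Reads u b ∧ Reads u r :=
  ⟨(h.of_enc (x := fun i => (b i, r i)) fun _ => rfl).fst,
    (h.of_enc (x := fun i => (b i, r i)) fun _ => rfl).snd⟩

/-- Read many consecutive items; the parser of one item may use a parameter `q`. -/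
protected lemma Reads.split_manyP {π : Type} [Enc π] (c : κ → List Bool) (par : κ → π)
    (val : κ → β)
    (h : Reads (fun p : κ × List Bool => (par p.1, c p.1 ++ p.2)) (fun p => (val p.1, p.2)))
    {u : ι → α} {l : ι → List κ} {q : ι → π} {r : ι → List Bool} (hq : Reads u q)
    (hpar : ∀ i, ∀ x ∈ l i, par x = q i)
    (hk : Reads u (fun i => List.replicate (l i).length ()))
    (hs : Reads u (fun i => ((l i).map c).flatten ++ r i)) :
    Reads u (fun i => (l i).map val) ∧ Reads u r := by
  obtain ⟨P, hP, h⟩ := h
  obtain ⟨c0, k0, hB⟩ := (PB.sz hP).exists_bound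
  let step : π × List Unit × List Bool → List D × List Bool → Unit → List D × List Bool :=
    fun a s _ => ((P (a.1, s.2)).car :: s.1,
      (Dec.dec (P (a.1, s.2)).cdr : List Bool).take s.2.length)
  have hdec : PT (Dec.dec : D → List Bool) := Dec.pt
  have h1 : PB (fun a : π × List Unit × List Bool => sz a) := PB.sz_id
  have hF : PT (fun a : π × List Unit × List Bool => a.2.1.foldl (step a) ([], a.2.2)) := by
    refine PT.foldl_inv_add (fun a s => s.2.length ≤ a.2.2.length) (fun a => c0 * sz a ^ k0 + 1)
      (by simp only [step]; fun_prop) (by fun_prop) (by fun_prop) (by fun_prop)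
      (fun _ => le_rfl) (fun a s _ _ hI => ?_) (fun a s _ _ hI => ?_)
    · simp only [step, List.length_take]; omega
    · have e1 := hB (a.1, s.2) (sz a) (by
        have := sz_pos a.2.1
        rw [sz_prod a, sz_prod a.2, sz_pair, sz_boolList, sz_boolList]; omega)
      have e2 := (P (a.1, s.2)).size_car_le
      simp only [step, sz_pair, sz_cons, sz_prod s, sz_boolList, List.length_take, sz_D] at e1 ⊢
      omega
  have key : ∀ (q : π) (w : List Unit) (s0 r : List Bool) (m : List κ) (acc : List D),
      (∀ x ∈ m, par x = q) →
      (List.replicate m.length ()).foldl (step (q, w, s0)) (acc, (m.map c).flatten ++ r) =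
        ((m.map fun x => enc (val x)).reverse ++ acc, r) := by
    intro q w s0 r m
    induction m with
    | nil => intro acc _; simp
    | cons x m ih =>
      intro acc hm
      have e := h (x, (m.map c).flatten ++ r)
      simp only [hm x (by simp), enc_pair] at e
      simp only [List.length_cons, List.replicate_succ, List.foldl_cons, List.map_cons,
        List.flatten_cons, List.append_assoc, step, e, D.car_cons, D.cdr_cons, Dec.dec_enc]
      rw [List.take_of_length_le (by simp)]
      have := ih (enc (val x) :: acc) fun y hy => hm y (by simp [hy])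
      simp only [step] at this
      rw [this]
      simp
  have h2 := (hq.pair (hk.pair hs)).comp hF
  have h3 : Reads u (fun i => (((l i).map fun x => enc (val x)).reverse, r i)) :=
    h2.congr fun i => by simp only [key _ _ _ _ _ _ (hpar i), List.append_nil]
  refine ⟨(h3.fst.comp PT.id.reverse).of_enc fun i => ?_, h3.snd⟩
  simp only [List.reverse_reverse, enc_list, List.map_map]
  rfl

end Reads

/-! ### self-delimiting codes -/

section SD

variable {ι κ : Type}

/-- A self-delimiting code with a polynomial-time parser. -/
def SD (c : β → List Bool) : Prop :=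
  Reads (fun p : β × List Bool => c p.1 ++ p.2) (fun p => p)

protected lemma Reads.split {c : β → List Bool} (hc : SD c) {u : ι → α} {x : ι → β}
    {r : ι → List Bool} (h : Reads u (fun i => c (x i) ++ r i)) : Reads u x ∧ Reads u r :=
  ⟨(h.trans (Reads.precomp hc fun i => (x i, r i))).fst,
    (h.trans (Reads.precomp hc fun i => (x i, r i))).snd⟩

protected lemma Reads.decode {c : β → List Bool} (hc : SD c) {u : ι → α} {x : ι → β}
    (h : Reads u (fun i => c (x i))) : Reads u x :=
  (Reads.split hc (r := fun _ => []) (h.congr fun i => by simp)).1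

lemma SD.append_inj {c : β → List Bool} (hc : SD c) {x y : β} {r s : List Bool}
    (h : c x ++ r = c y ++ s) : x = y ∧ r = s :=
  Prod.ext_iff.1 (Reads.eq_of_eq hc (i := (x, r)) (j := (y, s)) h)

lemma SD.injective {c : β → List Bool} (hc : SD c) : Function.Injective c := fun x y h =>
  (hc.append_inj (r := []) (s := []) (by rw [h])).1

lemma length_le_length_flatten_map (c : κ → List Bool) (hne : ∀ b, c b ≠ []) (l : List κ) :
    l.length ≤ ((l.map c).flatten).length := by
  induction l with
  | nil => simp
  | cons x l ih =>
    have := List.length_pos_iff.2 (hne x)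
    simp only [List.map_cons, List.flatten_cons, List.length_append, List.length_cons]
    omega

/-- Read a list of known length. -/
protected lemma Reads.split_many {c : β → List Bool} (hc : SD c) (hne : ∀ b, c b ≠ [])
    {u : ι → α} {l : ι → List β} {r : ι → List Bool} {k : ι → ℕ} (hk : Reads u k)
    (hl : ∀ i, (l i).length = k i) (hs : Reads u (fun i => ((l i).map c).flatten ++ r i)) :
    Reads u l ∧ Reads u r := by
  have h1 : Reads u (fun i => List.replicate (l i).length ()) :=
    (hk.congr hl).unary hs fun i => by
      have := length_le_length_flatten_map c hne (l i)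
      rw [List.length_append]; omega
  have := Reads.split_manyP c (fun _ => ()) (fun b => b) ((Reads.self _).snd.trans hc)
    (Reads.const u ()) (fun _ _ _ => rfl) h1 hs
  exact ⟨this.1.congr fun i => by simp, this.2⟩

/-- Cutting a list into `n` rows of length `m`. -/
def chunks (n m : ℕ) (l : List β) : List (List β) :=
  (List.range n).map fun j => (l.drop (j * m)).take m

omit [Enc β] in
lemma chunks_flatten (m : ℕ) (rows : List (List β)) (h : ∀ row ∈ rows, row.length = m) :
    chunks rows.length m rows.flatten = rows := by
  induction rows with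
  | nil => simp [chunks]
  | cons x rows ih =>
    have hx := h x (by simp)
    have := ih fun row hr => h row (by simp [hr])
    simp only [chunks] at this ⊢
    rw [List.length_cons, List.range_succ_eq_map, List.map_cons, List.map_map, List.flatten_cons]
    congr 1
    · simp [← hx]
    · conv_rhs => rw [← this]
      refine List.map_congr_left fun j _ => ?_
      simp only [Function.comp, Nat.succ_eq_add_one]
      rw [show (j + 1) * m = x.length + j * m by rw [hx]; ring, List.drop_append,
        List.drop_eq_nil_of_le (by omega)]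
      simp

@[fun_prop] protected lemma PT.chunks {n m : α → ℕ} {l : α → List β} (hn : PT n) (hb : PB n)
    (hm : PT m) (hl : PT l) : PT (fun a => chunks (n a) (m a) (l a)) := by
  unfold chunks; fun_prop

/-- Recover the rows of a matrix from their concatenation. -/
protected lemma Reads.of_flatten {u : ι → α} {rows : ι → List (List β)} {m : ι → ℕ}
    (hn : Reads u (fun i => List.replicate (rows i).length ())) (hm : Reads u m)
    (hrow : ∀ i, ∀ row ∈ rows i, row.length = m i) (h : Reads u (fun i => (rows i).flatten)) :
    Reads u rows :=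
  ((hn.pair (hm.pair h)).comp
    (g := fun p : List Unit × ℕ × List β => chunks p.1.length p.2.1 p.2.2) (by fun_prop)).congr
    fun i => by simp [chunks_flatten _ _ (hrow i)]

omit [Enc β] in
lemma length_flatten_of_forall (m : ℕ) (rows : List (List β)) (h : ∀ row ∈ rows, row.length = m) :
    rows.flatten.length = rows.length * m := by
  induction rows with
  | nil => simp
  | cons x rows ih =>
    rw [List.flatten_cons, List.length_append, ih fun row hr => h row (by simp [hr]),
      h x (by simp), List.length_cons]
    ring

/-- Read a matrix with a known number of rows (in unary) and columns. -/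
protected lemma Reads.split_matrix {c : β → List Bool} (hc : SD c) (hne : ∀ b, c b ≠ [])
    {u : ι → α} {rows : ι → List (List β)} {r : ι → List Bool} {m : ι → ℕ}
    (hn : Reads u (fun i => List.replicate (rows i).length ())) (hm : Reads u m)
    (hrow : ∀ i, ∀ row ∈ rows i, row.length = m i)
    (hs : Reads u (fun i => ((rows i).map fun row => (row.map c).flatten).flatten ++ r i)) :
    Reads u rows ∧ Reads u r := by
  have h1 := Reads.split_many hc hne (l := fun i => (rows i).flatten) (r := r)
    (k := fun i => (rows i).length * m i)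
    ((hn.of_unary.pair hm).comp (g := fun p : ℕ × ℕ => p.1 * p.2) (by fun_prop))
    (fun i => length_flatten_of_forall _ _ (hrow i))
    (hs.congr fun i => by simp [List.map_flatten, List.flatten_flatten, Function.comp_def])
  exact ⟨Reads.of_flatten hn hm hrow h1.1, h1.2⟩

/-- To prove that a code is self-delimiting, read the object and the rest. -/
lemma SD.mk' {c : β → List Bool}
    (h₁ : Reads (fun p : β × List Bool => c p.1 ++ p.2) (fun p => p.1))
    (h₂ : Reads (fun p : β × List Bool => c p.1 ++ p.2) (fun p => p.2)) : SD c := h₁.pair h₂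

lemma SD.bool : SD (fun b : Bool => [b]) :=
  have h := Reads.split_cons (Reads.self fun p : Bool × List Bool => p.1 :: p.2)
  SD.mk' h.1 h.2

lemma SD.prod {c : β → List Bool} {d : γ → List Bool} (hc : SD c) (hd : SD d) :
    SD (fun p : β × γ => c p.1 ++ d p.2) := by
  have h0 := Reads.self fun p : (β × γ) × List Bool => c p.1.1 ++ d p.1.2 ++ p.2
  have h1 := Reads.split hc (h0.congr fun p => (List.append_assoc _ _ _).symm)
  have h2 := Reads.split hd h1.2
  exact SD.mk' (h1.1.pair h2.1) h2.2

/-- Transport along a map whose inverse is readable. -/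
lemma SD.comp {c : β → List Bool} (hc : SD c) (f : γ → β) (hf : Reads f (fun x => x)) :
    SD (fun x => c (f x)) := by
  have h1 := Reads.split hc (Reads.self fun p : γ × List Bool => c (f p.1) ++ p.2)
  exact SD.mk' (h1.1.trans (hf.precomp Prod.fst)) h1.2

/-- Length-prefixed lists, for any self-delimiting code of the length. -/
lemma SD.list {n : ℕ → List Bool} (hn : SD n) {c : β → List Bool} (hc : SD c)
    (hne : ∀ b, c b ≠ []) : SD (fun l : List β => n l.length ++ (l.map c).flatten) := by
  have h0 := Reads.self fun p : List β × List Bool => n p.1.length ++ (p.1.map c).flatten ++ p.2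
  have h1 := Reads.split hn (h0.congr fun p => (List.append_assoc _ _ _).symm)
  have h2 := Reads.split_many hc hne h1.1 (fun _ => rfl) h1.2
  exact SD.mk' h2.1 h2.2

/-- Bit strings written as pairs `true, b` and ended by `false`. -/
lemma SD.pairsFalse : SD (fun l : List Bool => (l.map fun b => [true, b]).flatten ++ [false]) := by
  let step : List Bool × List Bool → List Bool × List Bool :=
    fun s => if s.2.headD false = true then (s.2.tail.headD false :: s.1, s.2.tail.tail) else s
  have hstep : PT step := by simp only [step]; fun_prop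
  have hF : PT (fun s : List Bool => (step)^[s.length] ([], s)) := by
    refine PT.iterate_add (f := fun _ => step) (fun _ => 6) (hstep.comp PT.id.snd) (by fun_prop)
      (by fun_prop) (by fun_prop) (by fun_prop) fun _ x => ?_
    simp only [step]
    split_ifs
    · have := sz_tail_le x.2
      have := sz_tail_le x.2.tail
      simp only [sz_pair, sz_cons, sz_bool, sz_prod x]; omega
    · omega
  have key : ∀ (l r acc : List Bool) (j : ℕ), l.length ≤ j →
      step^[j] (acc, (l.map fun b => [true, b]).flatten ++ false :: r) =
        (l.reverse ++ acc, false :: r) := by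
    intro l r
    induction l with
    | nil => intro acc j _; exact Function.iterate_fixed (by simp [step]) j
    | cons b l ih =>
      intro acc j hj
      obtain ⟨j, rfl⟩ : ∃ i, j = i + 1 := ⟨j - 1, by simp at hj; omega⟩
      rw [Function.iterate_succ_apply]
      have := ih (b :: acc) j (by simpa using hj)
      simpa [step] using this
  have h0 := (Reads.self fun p : List Bool × List Bool =>
    ((p.1.map fun b => [true, b]).flatten ++ [false]) ++ p.2).comp hF
  have h1 : Reads (fun p : List Bool × List Bool =>
      ((p.1.map fun b => [true, b]).flatten ++ [false]) ++ p.2)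
      (fun p => (p.1.reverse, false :: p.2)) := h0.congr fun p => by
    have := length_le_length_flatten_map (fun b => [true, b]) (by simp) p.1
    rw [List.append_assoc, List.singleton_append, key _ _ _ _ (by rw [List.length_append]; omega),
      List.append_nil]
  exact SD.mk' ((h1.fst.comp PT.id.reverse).congr fun p => by simp) (h1.snd.comp PT.id.tail)

/-- Appending a fixed suffix to a self-delimiting code. -/
lemma SD.append_const {c : β → List Bool} (hc : SD c) (w : List Bool) :
    SD (fun x => c x ++ w) := by
  have h0 := Reads.self fun p : β × List Bool => c p.1 ++ w ++ p.2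
  have h1 := Reads.split hc (h0.congr fun p => (List.append_assoc _ _ _).symm)
  exact SD.mk' h1.1 (Reads.split_len (Reads.const _ w.length) (fun _ => rfl) h1.2).2

/-- Prepending a fixed prefix to a self-delimiting code. -/
lemma SD.const_append {c : β → List Bool} (hc : SD c) (w : List Bool) :
    SD (fun x => w ++ c x) := by
  have h0 := Reads.self fun p : β × List Bool => w ++ c p.1 ++ p.2
  have h1 := Reads.split_len (Reads.const _ w.length) (fun _ => rfl)
    (h0.congr fun p => (List.append_assoc _ _ _).symm)
  have h2 := Reads.split hc h1.2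
  exact SD.mk' h2.1 h2.2

lemma SD.congr {c d : β → List Bool} (hc : SD c) (h : ∀ x, d x = c x) : SD d := by
  rwa [show d = c from funext h]

lemma reads_bits : Reads Nat.bits (fun n => n) := (Reads.self _).of_enc fun _ => rfl

lemma SD.natCode : SD Crest.Enc.natCode :=
  ((SD.pairsFalse.comp Nat.bits reads_bits).append_const [false]).congr fun n => by
    simp [Crest.Enc.natCode]

lemma SD.intCode : SD Crest.Enc.intCode :=
  ((SD.bool.prod SD.natCode).comp (fun z : ℤ => (decide (z < 0), z.natAbs))
    ((Reads.self _).of_enc fun _ => rfl)).congr fun _ => rfl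

lemma SD.ratCode : SD Crest.Enc.ratCode :=
  ((SD.intCode.prod SD.natCode).comp (fun q : ℚ => (q.num, q.den))
    ((Reads.self _).of_enc fun _ => rfl)).congr fun _ => rfl

lemma SD.listCode : SD Crest.Enc.listCode := SD.natCode.list SD.natCode natCode_ne_nil

/-- Unary code: `n` times `true`, then `false`. -/
lemma SD.unary : SD (fun n : ℕ => List.replicate n true ++ [false]) := by
  have h0 := Reads.self fun p : ℕ × List Bool => List.replicate p.1 true ++ [false] ++ p.2
  have h1 : Reads (fun p : ℕ × List Bool => List.replicate p.1 true ++ [false] ++ p.2)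
      (fun p => p.1) :=
    (h0.comp (g := fun s : List Bool => (s.takeWhile fun b => b).length) (by fun_prop)).congr
      fun p => by simp
  refine SD.mk' h1 (Reads.split_len (k := fun p => p.1 + 1) ?_ (fun p => by simp) h0).2
  exact h1.comp (g := fun n : ℕ => n + 1) (by fun_prop)

/-! `PT` versions, for an index type with an encoding -/

protected lemma PT.split {c : β → List Bool} (hc : SD c) {x : α → β} {r : α → List Bool}
    (h : PT (fun i => c (x i) ++ r i)) : PT x ∧ PT r :=
  have := Reads.split hc (reads_id_iff.2 h)
  ⟨reads_id_iff.1 this.1, reads_id_iff.1 this.2⟩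

protected lemma PT.decode {c : β → List Bool} (hc : SD c) {x : α → β}
    (h : PT (fun i => c (x i))) : PT x := reads_id_iff.1 (Reads.decode hc (reads_id_iff.2 h))

protected lemma PT.split_len {l r : α → List β} {k : α → ℕ} (hk : PT k)
    (hl : ∀ i, (l i).length = k i) (h : PT (fun i => l i ++ r i)) : PT l ∧ PT r :=
  have := Reads.split_len (reads_id_iff.2 hk) hl (reads_id_iff.2 h)
  ⟨reads_id_iff.1 this.1, reads_id_iff.1 this.2⟩

protected lemma PT.split_cons {b : α → β} {r : α → List β} (h : PT (fun i => b i :: r i)) :
    PT b ∧ PT r :=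
  have := Reads.split_cons (reads_id_iff.2 h)
  ⟨reads_id_iff.1 this.1, reads_id_iff.1 this.2⟩

protected lemma PT.split_many {c : β → List Bool} (hc : SD c) (hne : ∀ b, c b ≠ [])
    {l : α → List β} {r : α → List Bool} {k : α → ℕ} (hk : PT k)
    (hl : ∀ i, (l i).length = k i) (hs : PT (fun i => ((l i).map c).flatten ++ r i)) :
    PT l ∧ PT r :=
  have := Reads.split_many hc hne (reads_id_iff.2 hk) hl (reads_id_iff.2 hs)
  ⟨reads_id_iff.1 this.1, reads_id_iff.1 this.2⟩

/-- A total parser for a self-delimiting code. -/
lemma SD.exists_parser [Dec β] {c : β → List Bool} (hc : SD c) :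
    ∃ P : List Bool → β × List Bool, PT P ∧ ∀ b r, P (c b ++ r) = (b, r) := by
  obtain ⟨G, hG, h⟩ := Reads.exists_pt hc
  exact ⟨G, hG, fun b r => h (b, r)⟩

/-- Membership in the set of codes of objects with a `PT` property is decidable in `PT`. -/
lemma SD.pt_mem [Dec β] {c : β → List Bool} (hc : SD c) (hpt : PT c) {V : β → Bool} (hV : PT V) :
    ∃ f : List Bool → Bool, PT f ∧ ∀ x, f x = true ↔ ∃ b, c b = x ∧ V b = true := by
  obtain ⟨P, hP, h⟩ := hc.exists_parser
  refine ⟨fun x => decide (c (P x).1 = x) && V (P x).1, by fun_prop, fun x => ?_⟩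
  simp only [Bool.and_eq_true, decide_eq_true_eq]
  refine ⟨fun hx => ⟨_, hx⟩, ?_⟩
  rintro ⟨b, rfl, hb⟩
  have := h b []
  rw [List.append_nil] at this
  simp [this, hb]

end SD

end Crest.Agent.Lib.PT
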