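import Crest.Agent.Lib.PT.Mat

/-!
Polynomial-time toolkit: recursive procedures.

A procedure is given by its frames `κ`: `next k` either returns a value (`inl b`) or asks for a
recursive call with initial frame `k'` (`inr k'`); `resume k b` is the frame after the call returned
`b`. `Run next resume B k b n` says that the frame `k` returns `b` after visiting `n` frames in total,
all frames and returned values having size at most `B`.
-/

set_option autoImplicit false
set_option linter.dupNamespace false

namespace Crest.Agent.Lib.PT

variable {α β κ : Type} [Enc α] [Enc β] [Enc κ]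

/-- Big-step semantics of a recursive procedure, with the number of visited frames. -/
inductive Run (next : κ → β ⊕ κ) (resume : κ → β → κ) (B : ℕ) : κ → β → ℕ → Prop
  | ret {k : κ} {b : β} : next k = .inl b → sz k ≤ B → sz b ≤ B → Run next resume B k b 1
  | call {k k' : κ} {b' b : β} {m n : ℕ} : next k = .inr k' → sz k ≤ B →
      Run next resume B k' b' m → Run next resume B (resume k b') b n →
      Run next resume B k b (m + n + 1)

lemma Run.mono {next : κ → β ⊕ κ} {resume : κ → β → κ} {B B' : ℕ} {k : κ} {b : β} {n : ℕ}
    (h : Run next resume B k b n) (hB : B ≤ B') : Run next resume B' k b n := by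
  induction h with
  | ret h1 h2 h3 => exact .ret h1 (h2.trans hB) (h3.trans hB)
  | call h1 h2 _ _ ih1 ih2 => exact .call h1 (h2.trans hB) ih1 ih2

lemma Run.pos {next : κ → β ⊕ κ} {resume : κ → β → κ} {B : ℕ} {k : κ} {b : β} {n : ℕ}
    (h : Run next resume B k b n) : 0 < n := by cases h <;> omega

lemma Run.sz_frame {next : κ → β ⊕ κ} {resume : κ → β → κ} {B : ℕ} {k : κ} {b : β} {n : ℕ}
    (h : Run next resume B k b n) : sz k ≤ B := by cases h <;> assumption

lemma Run.sz_out {next : κ → β ⊕ κ} {resume : κ → β → κ} {B : ℕ} {k : κ} {b : β} {n : ℕ}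
    (h : Run next resume B k b n) : sz b ≤ B := by
  induction h with
  | ret _ _ h => exact h
  | call _ _ _ _ _ ih => exact ih

/-- One step of the stack machine: the current frame (or the final value) and the stack. -/
def runStep (next : κ → β ⊕ κ) (resume : κ → β → κ) (s : (β ⊕ κ) × List κ) : (β ⊕ κ) × List κ :=
  Sum.elim (fun _ => s)
    (fun k => Sum.elim
      (fun b => s.2.head?.elim (Sum.inl b, []) (fun p => (Sum.inr (resume p b), s.2.tail)))
      (fun k' => (Sum.inr k', k :: s.2)) (next k)) s.1

/-- The state after returning `b` to the stack `st`. -/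
def runRet (resume : κ → β → κ) (b : β) (st : List κ) : (β ⊕ κ) × List κ :=
  st.head?.elim (Sum.inl b, []) (fun p => (Sum.inr (resume p b), st.tail))

lemma Run.iterate {next : κ → β ⊕ κ} {resume : κ → β → κ} {B : ℕ} {k : κ} {b : β} {n : ℕ}
    (h : Run next resume B k b n) (st : List κ) :
    (runStep next resume)^[n] (Sum.inr k, st) = runRet resume b st ∧
      ∀ i, i < n → sz ((runStep next resume)^[i] (Sum.inr k, st)) ≤ sz st + (n + 1) * (B + 5) := by
  induction h generalizing st with
  | @ret k b h1 h2 h3 =>
    refine ⟨by simp [runStep, runRet, h1], fun i hi => ?_⟩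
    obtain rfl : i = 0 := by omega
    simp only [Function.iterate_zero, id_eq, sz_pair, sz_inr]
    omega
  | @call k k' b' b m n h1 h2 _ _ ih1 ih2 =>
    have e1 : runStep next resume (Sum.inr k, st) = (Sum.inr k', k :: st) := by
      simp [runStep, h1]
    obtain ⟨a1, a2⟩ := ih1 (k :: st)
    obtain ⟨b1, b2⟩ := ih2 st
    have e2 : runRet resume b' (k :: st) = (Sum.inr (resume k b'), st) := rfl
    refine ⟨?_, fun i hi => ?_⟩
    · rw [Function.iterate_succ_apply, e1, add_comm m n, Function.iterate_add_apply, a1, e2, b1]
    · cases i with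
      | zero =>
        simp only [Function.iterate_zero, id_eq, sz_pair, sz_inr]
        nlinarith
      | succ i =>
        rw [Function.iterate_succ_apply, e1]
        rcases lt_or_ge i m with h | h
        · have := a2 i h
          simp only [sz_cons] at this
          nlinarith
        · obtain ⟨j, rfl⟩ : ∃ j, i = j + m := ⟨i - m, by omega⟩
          rw [Function.iterate_add_apply, a1, e2]
          have := b2 j (by omega)
          nlinarith

/-- A recursive procedure visiting polynomially many frames of polynomial size is `PT`.
-/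
theorem PT.of_run {f : α → β} (next : α → κ → β ⊕ κ) (resume : α → κ → β → κ) (ini : α → κ)
    (N B : α → ℕ) (hn : PT (fun p : α × κ => next p.1 p.2))
    (hr : PT (fun p : α × κ × β => resume p.1 p.2.1 p.2.2)) (hi : PT ini) (hN : PB N) (hB : PB B)
    (h : ∀ a, ∃ n, n ≤ N a ∧ Run (next a) (resume a) (B a) (ini a) (f a) n) : PT f := by
  obtain ⟨c, d, hc⟩ := id hN
  have hsz : PB (fun a : α => sz a) := PB.sz_id
  have hs : PT (fun p : α × (β ⊕ κ) × List κ => runStep (next p.1) (resume p.1) p.2) := by
    unfold runStep
    refine PT.sumElim (by fun_prop) (by fun_prop) (PT.sumElim ?_ (PT.optionElim (by fun_prop)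
      (by fun_prop) (PT.pair (PT.inr ?_) (by fun_prop))) (by fun_prop))
    · exact hn.comp (f := fun p : (α × (β ⊕ κ) × List κ) × κ => (p.1.1, p.2)) (by fun_prop)
    · exact hr.comp (f := fun p : (((α × (β ⊕ κ) × List κ) × κ) × β) × κ =>
        (p.1.1.1.1, p.2, p.1.2)) (by fun_prop)
  have key : ∀ a j, N a ≤ j →
      (runStep (next a) (resume a))^[j] (Sum.inr (ini a), []) = (Sum.inl (f a), []) := by
    intro a j hj
    obtain ⟨n, hn, hrun⟩ := h a
    obtain ⟨i, rfl⟩ : ∃ i, j = i + n := ⟨j - n, by omega⟩
    rw [Function.iterate_add_apply, (hrun.iterate []).1]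
    exact Function.iterate_fixed rfl i
  have hit := PT.iterate (f := fun a => runStep (next a) (resume a)) (n := fun a => c * sz a ^ d)
    (ini := fun a => (Sum.inr (ini a), [])) (fun a => 1 + (N a + 1) * (B a + 5)) hs (by fun_prop)
    (by fun_prop) (by fun_prop) (by fun_prop) fun a i _ => by
      obtain ⟨n, hn, hrun⟩ := h a
      rcases lt_or_ge i n with hi | hi
      · have := (hrun.iterate []).2 i hi
        have := Nat.mul_le_mul_right (B a + 5) (show n + 1 ≤ N a + 1 by omega)
        simp only [sz_nil] at *
        omega
      · obtain ⟨j, rfl⟩ : ∃ j, i = j + n := ⟨i - n, by omega⟩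
        rw [Function.iterate_add_apply, (hrun.iterate []).1,
          Function.iterate_fixed (show runStep (next a) (resume a) (runRet (resume a) (f a) []) =
            runRet (resume a) (f a) [] from rfl)]
        have := hrun.sz_out
        simp only [runRet, List.head?_nil, Option.elim_none, sz_pair, sz_inl, sz_nil]
        nlinarith
  refine (hit.fst.enc.cdr).of_enc fun a => ?_
  rw [key a _ (hc a)]
  rfl

end Crest.Agent.Lib.PT
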