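import Mathlib

/-!
Straight-line programs of NAND gates, formulas, and layered emission of gadgets.
-/

set_option autoImplicit false

namespace Crest.Agent.Lib.PT

namespace Slp

/-- A gate names the two wires it reads. -/
abbrev Gate : Type := ℕ × ℕ

/-- Execute one gate: append the NAND of the two named wires. -/
def stepG (ws : List Bool) (g : Gate) : List Bool :=
  ws ++ [!(ws.getD g.1 false && ws.getD g.2 false)]

/-- Execute a list of gates. -/
def run (gs : List Gate) (ws : List Bool) : List Bool := gs.foldl stepG ws

/-- Every gate reads earlier wires only, when `len` wires exist at the start. -/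
def WF (gs : List Gate) (len : ℕ) : Prop :=
  ∀ (k : ℕ) (h : k < gs.length), gs[k].1 < len + k ∧ gs[k].2 < len + k

@[simp] lemma run_nil (ws : List Bool) : run [] ws = ws := rfl
@[simp] lemma run_cons (g : Gate) (gs : List Gate) (ws : List Bool) :
    run (g :: gs) ws = run gs (stepG ws g) := rfl
lemma run_append (gs gs' : List Gate) (ws : List Bool) :
    run (gs ++ gs') ws = run gs' (run gs ws) := List.foldl_append

@[simp] lemma length_stepG (ws : List Bool) (g : Gate) : (stepG ws g).length = ws.length + 1 := by
  simp [stepG]

@[simp] lemma length_run (gs : List Gate) : ∀ ws : List Bool,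
    (run gs ws).length = ws.length + gs.length := by
  induction gs with
  | nil => simp
  | cons g gs ih => intro ws; simp [ih]; omega

lemma getD_stepG_of_lt (ws : List Bool) (g : Gate) {i : ℕ} (hi : i < ws.length) :
    (stepG ws g).getD i false = ws.getD i false := by
  simp [stepG, List.getD_eq_getElem?_getD, List.getElem?_append_left hi]

lemma getD_stepG_length (ws : List Bool) (g : Gate) :
    (stepG ws g).getD ws.length false = !(ws.getD g.1 false && ws.getD g.2 false) := by
  simp [stepG, List.getD_eq_getElem?_getD]

lemma getD_run_of_lt (gs : List Gate) : ∀ (ws : List Bool) {i : ℕ}, i < ws.length →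
    (run gs ws).getD i false = ws.getD i false := by
  induction gs with
  | nil => simp
  | cons g gs ih =>
    intro ws i hi
    rw [run_cons, ih _ (by simp; omega), getD_stepG_of_lt _ _ hi]

lemma WF.nil (len : ℕ) : WF [] len := fun k h => by simp at h

lemma WF.append {gs gs' : List Gate} {len : ℕ} (h : WF gs len) (h' : WF gs' (len + gs.length)) :
    WF (gs ++ gs') len := by
  intro k hk
  by_cases hk' : k < gs.length
  · rw [List.getElem_append_left hk']; exact h k hk'
  · rw [List.getElem_append_right (by omega)]
    have := h' (k - gs.length) (by simp at hk; omega)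
    omega

lemma WF.single {g : Gate} {len : ℕ} (h1 : g.1 < len) (h2 : g.2 < len) : WF [g] len := by
  intro k hk
  have : k = 0 := by simpa using hk
  subst this
  simpa using ⟨h1, h2⟩

/-- The value of every gate wire, in terms of the final wire values. -/
lemma getD_run_gate {gs : List Gate} {ws : List Bool} (h : WF gs ws.length) (k : ℕ)
    (hk : k < gs.length) :
    (run gs ws).getD (ws.length + k) false =
      !((run gs ws).getD gs[k].1 false && (run gs ws).getD gs[k].2 false) := by
  have e : gs = gs.take k ++ (gs[k] :: gs.drop (k + 1)) := by simp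
  have hl : (run (gs.take k) ws).length = ws.length + k := by simp; omega
  have e2 : run gs ws = run (gs.drop (k + 1)) (stepG (run (gs.take k) ws) gs[k]) := by
    conv_lhs => rw [e]
    rw [run_append, run_cons]
  obtain ⟨h1, h2⟩ := h k hk
  rw [e2, getD_run_of_lt _ _ (by simp; omega), getD_run_of_lt _ _ (i := gs[k].1) (by simp; omega),
    getD_run_of_lt _ _ (i := gs[k].2) (by simp; omega), ← hl, getD_stepG_length,
    getD_stepG_of_lt _ _ (by omega), getD_stepG_of_lt _ _ (by omega)]

end Slp

open Slp

/-- NAND formulas. -/
inductive Form : Type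
  | var : ℕ → Form
  | nand : Form → Form → Form

namespace Form

def eval (ρ : ℕ → Bool) : Form → Bool
  | var v => ρ v
  | nand a b => !(a.eval ρ && b.eval ρ)

/-- The number of gates emitted for a formula. -/
def size : Form → ℕ
  | var _ => 2
  | nand a b => a.size + b.size + 1

lemma size_pos (φ : Form) : 0 < φ.size := by cases φ <;> simp [size]

/-- The gates computing a formula whose variable `v` is the wire `σ v`, when `len` wires exist;
the value is on the last gate. -/
def emit (σ : ℕ → ℕ) : Form → ℕ → List Gate
  | var v, len => [(σ v, σ v), (len, len)]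
  | nand a b, len => a.emit σ len ++ b.emit σ (len + a.size) ++
      [(len + a.size - 1, len + a.size + b.size - 1)]

@[simp] lemma length_emit (σ : ℕ → ℕ) (φ : Form) : ∀ len, (φ.emit σ len).length = φ.size := by
  induction φ with
  | var v => intro len; rfl
  | nand a b iha ihb => intro len; simp [emit, size, iha, ihb]; omega

lemma wf_emit (σ : ℕ → ℕ) (φ : Form) : ∀ len, (∀ v, σ v < len) → WF (φ.emit σ len) len := by
  induction φ with
  | var v =>
    intro len h
    exact WF.append (gs := [(σ v, σ v)]) (gs' := [(len, len)]) (WF.single (h v) (h v))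
      (WF.single (by simp) (by simp))
  | nand a b iha ihb =>
    intro len h
    have := a.size_pos
    have := b.size_pos
    refine ((iha len h).append ?_).append (WF.single ?_ ?_)
    · simpa using ihb (len + a.size) fun v => (h v).trans_le (by omega)
    · simp; omega
    · simp; omega

lemma getD_run_emit (σ : ℕ → ℕ) (φ : Form) : ∀ ws : List Bool, (∀ v, σ v < ws.length) →
    (run (φ.emit σ ws.length) ws).getD (ws.length + φ.size - 1) false =
      φ.eval (fun v => ws.getD (σ v) false) := by
  induction φ with
  | var v =>
    intro ws h
    simp only [emit, run_cons, run_nil, size, eval]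
    have e : ws.length + 2 - 1 = (stepG ws (σ v, σ v)).length := by simp
    rw [e, getD_stepG_length, getD_stepG_length]
    simp
  | nand a b iha ihb =>
    intro ws h
    have ha := a.size_pos
    have hb := b.size_pos
    simp only [emit, run_append, run_cons, run_nil, size, eval]
    set w₁ := run (a.emit σ ws.length) ws with hw₁
    have l₁ : w₁.length = ws.length + a.size := by simp [hw₁]
    rw [← l₁]
    set w₂ := run (b.emit σ w₁.length) w₁ with hw₂
    have l₂ : w₂.length = w₁.length + b.size := by simp [hw₂]
    have e : ws.length + (a.size + b.size + 1) - 1 = w₂.length := by omega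
    rw [e, getD_stepG_length]
    have e₁ : w₂.getD (w₁.length - 1) false = a.eval (fun v => ws.getD (σ v) false) := by
      rw [hw₂, getD_run_of_lt _ _ (by omega), l₁, hw₁, iha ws h]
    have e₂ : w₂.getD (w₁.length + b.size - 1) false = b.eval (fun v => ws.getD (σ v) false) := by
      rw [hw₂, ihb w₁ (fun v => (h v).trans_le (by omega))]
      congr 1
      funext v
      rw [hw₁, getD_run_of_lt _ _ (h v)]
    rw [e₁, e₂]

/-- Every function of finitely many variables is computed by a formula. -/
lemma exists_of_depends (M : ℕ) : ∀ g : (ℕ → Bool) → Bool,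
    (∀ ρ ρ', (∀ v < M, ρ v = ρ' v) → g ρ = g ρ') → ∃ φ : Form, ∀ ρ, φ.eval ρ = g ρ := by
  induction M with
  | zero =>
    intro g hg
    cases h : g (fun _ => false)
    · refine ⟨nand (nand (var 0) (nand (var 0) (var 0))) (nand (var 0) (nand (var 0) (var 0))),
        fun ρ => ?_⟩
      rw [hg ρ (fun _ => false) (by simp), h]
      simp [eval]
    · refine ⟨nand (var 0) (nand (var 0) (var 0)), fun ρ => ?_⟩
      rw [hg ρ (fun _ => false) (by simp), h]
      simp [eval]
  | succ M ih =>
    intro g hg
    have key : ∀ b : Bool, ∃ φ : Form, ∀ ρ, φ.eval ρ = g (Function.update ρ M b) := by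
      intro b
      refine ih _ fun ρ ρ' h => hg _ _ fun v hv => ?_
      by_cases hvM : v = M
      · subst hvM; simp
      · simp only [Function.update_of_ne hvM]; exact h v (by omega)
    obtain ⟨φ₀, h₀⟩ := key false
    obtain ⟨φ₁, h₁⟩ := key true
    refine ⟨nand (nand (var M) φ₁) (nand (nand (var M) (var M)) φ₀), fun ρ => ?_⟩
    simp only [eval, h₀, h₁]
    cases h : ρ M
    · rw [← h, Function.update_eq_self, h]; simp
    · rw [← h, Function.update_eq_self, h]; simp

end Form

namespace Slp

/-- Total number of gates of a gadget (a list of formulas). -/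
def gsize (fs : List Form) : ℕ := (fs.map Form.size).sum

/-- Position of the value of the `b`-th formula inside the gadget. -/
def goff (fs : List Form) (b : ℕ) : ℕ := gsize (fs.take (b + 1)) - 1

/-- Emit all formulas of a gadget. -/
def emitAll (σ : ℕ → ℕ) : List Form → ℕ → List Gate
  | [], _ => []
  | φ :: fs, len => φ.emit σ len ++ emitAll σ fs (len + φ.size)

@[simp] lemma gsize_nil : gsize [] = 0 := rfl
@[simp] lemma gsize_cons (φ : Form) (fs : List Form) : gsize (φ :: fs) = φ.size + gsize fs := by
  simp [gsize]

lemma gsize_take_le (fs : List Form) : ∀ b, gsize (fs.take b) ≤ gsize fs := by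
  induction fs with
  | nil => simp
  | cons φ fs ih => intro b; cases b <;> simp [ih]

lemma goff_lt {fs : List Form} (h : fs ≠ []) (b : ℕ) : goff fs b < gsize fs := by
  have h1 := gsize_take_le fs (b + 1)
  cases fs with
  | nil => exact absurd rfl h
  | cons φ fs =>
    have := φ.size_pos
    simp only [goff, List.take_succ_cons, gsize_cons] at h1 ⊢
    omega

@[simp] lemma length_emitAll (σ : ℕ → ℕ) (fs : List Form) :
    ∀ len, (emitAll σ fs len).length = gsize fs := by
  induction fs with
  | nil => intro len; rfl
  | cons φ fs ih => intro len; simp [emitAll, ih]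

lemma wf_emitAll (σ : ℕ → ℕ) (fs : List Form) :
    ∀ len, (∀ v, σ v < len) → WF (emitAll σ fs len) len := by
  induction fs with
  | nil => intro len _; exact WF.nil _
  | cons φ fs ih =>
    intro len h
    refine (φ.wf_emit σ len h).append ?_
    simpa using ih (len + φ.size) fun v => (h v).trans_le (by omega)

lemma getD_run_emitAll (σ : ℕ → ℕ) (fs : List Form) : ∀ (ws : List Bool) (b : ℕ)
    (hb : b < fs.length), (∀ v, σ v < ws.length) →
    (run (emitAll σ fs ws.length) ws).getD (ws.length + goff fs b) false =
      fs[b].eval (fun v => ws.getD (σ v) false) := by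
  induction fs with
  | nil => intro ws b hb; simp at hb
  | cons φ fs ih =>
    intro ws b hb h
    have hφ := φ.size_pos
    simp only [emitAll, run_append]
    set w₁ := run (φ.emit σ ws.length) ws with hw₁
    have l₁ : w₁.length = ws.length + φ.size := by simp [hw₁]
    rw [← l₁]
    cases b with
    | zero =>
      have e : ws.length + goff (φ :: fs) 0 = ws.length + φ.size - 1 := by
        simp [goff]; omega
      rw [e, getD_run_of_lt _ _ (by omega), hw₁, φ.getD_run_emit σ ws h]
      rfl
    | succ b =>
      have hb' : b < fs.length := by simpa using hb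
      have hpos : 0 < gsize (fs.take (b + 1)) := by
        cases fs with
        | nil => simp at hb'
        | cons ψ fs => have := ψ.size_pos; simp; omega
      have e : ws.length + goff (φ :: fs) (b + 1) = w₁.length + goff fs b := by
        simp only [goff, List.take_succ_cons, gsize_cons]; omega
      rw [e, ih w₁ b hb' (fun v => (h v).trans_le (by omega))]
      simp only [List.getElem_cons_succ]
      congr 1
      funext v
      rw [hw₁, getD_run_of_lt _ _ (h v)]

/-- `W` copies of a gadget, the `i`-th one reading the wires `σ i`. -/
def emitLayer (fs : List Form) (σ : ℕ → ℕ → ℕ) (W len : ℕ) : List Gate :=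
  (List.range W).flatMap fun i => emitAll (σ i) fs (len + i * gsize fs)

lemma emitLayer_succ (fs : List Form) (σ : ℕ → ℕ → ℕ) (W len : ℕ) :
    emitLayer fs σ (W + 1) len = emitLayer fs σ W len ++ emitAll (σ W) fs (len + W * gsize fs) := by
  simp [emitLayer, List.range_succ]

@[simp] lemma length_emitLayer (fs : List Form) (σ : ℕ → ℕ → ℕ) (W len : ℕ) :
    (emitLayer fs σ W len).length = W * gsize fs := by
  induction W with
  | zero => simp [emitLayer]
  | succ W ih => rw [emitLayer_succ]; simp [ih]; ring

lemma wf_emitLayer (fs : List Form) (σ : ℕ → ℕ → ℕ) (W len : ℕ) (h : ∀ i < W, ∀ v, σ i v < len) :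
    WF (emitLayer fs σ W len) len := by
  induction W with
  | zero => simpa [emitLayer] using WF.nil _
  | succ W ih =>
    rw [emitLayer_succ]
    refine (ih fun i hi => h i (by omega)).append ?_
    simpa using wf_emitAll (σ W) fs (len + W * gsize fs) fun v => (h W (by omega) v).trans_le (by omega)

lemma getD_run_emitLayer (fs : List Form) (σ : ℕ → ℕ → ℕ) (ws : List Bool) (W : ℕ)
    (h : ∀ i < W, ∀ v, σ i v < ws.length) (i : ℕ) (hi : i < W) (b : ℕ) (hb : b < fs.length) :
    (run (emitLayer fs σ W ws.length) ws).getD (ws.length + i * gsize fs + goff fs b) false =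
      fs[b].eval (fun v => ws.getD (σ i v) false) := by
  induction W with
  | zero => omega
  | succ W ih =>
    rw [emitLayer_succ, run_append]
    set w₁ := run (emitLayer fs σ W ws.length) ws with hw₁
    have l₁ : w₁.length = ws.length + W * gsize fs := by simp [hw₁]
    have hne : fs ≠ [] := by rintro rfl; simp at hb
    have hoff := goff_lt hne b
    by_cases hiW : i = W
    · subst hiW
      rw [← l₁, getD_run_emitAll (σ i) fs w₁ b hb (fun v => (h i hi v).trans_le (by omega))]
      congr 1
      funext v
      rw [hw₁, getD_run_of_lt _ _ (h i hi v)]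
    · have hi' : i < W := by omega
      have : (i + 1) * gsize fs ≤ W * gsize fs := Nat.mul_le_mul_right _ hi'
      rw [getD_run_of_lt _ _ (by rw [l₁]; nlinarith), ih (fun j hj => h j (by omega)) hi']

end Slp

end Crest.Agent.Lib.PT
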