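import Crest.Agent.Lib.PT.Slp
import Crest.Agent.Lib.PT.Simulate

/-!
The tableau circuit of a stack machine: a polynomial-time predicate is computed, on inputs of each
length, by an explicit straight-line program of NAND gates.
-/

set_option autoImplicit false

namespace Crest.Agent.Lib.PT

open Turing Turing.TM2 Slp

/-- The constant data of a tableau circuit. -/
structure Tab where
  a : ℕ
  d : ℕ
  fs0 : List Form
  fs : List Form
  fo : Form

namespace Tab

variable (P : Tab)

/-- Number of columns. -/
def W (n T : ℕ) : ℕ := n + P.d * T + P.d + 1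

/-- Number of wires after the initial layer. -/
def base (n T : ℕ) : ℕ := n + 1 + P.W n T * gsize P.fs0

/-- Number of wires after `t` steps. -/
def len (n T t : ℕ) : ℕ := P.base n T + t * (P.W n T * gsize P.fs)

/-- The wire of bit `b` of column `i` at time `t`. -/
def pos (n T t i b : ℕ) : ℕ :=
  if t = 0 then n + 1 + i * gsize P.fs0 + goff P.fs0 (if i < n then b else P.a + b)
  else P.len n T (t - 1) + i * gsize P.fs + goff P.fs (min i (2 * P.d) * P.a + b)

/-- The `j`-th neighbour of column `i`. -/
def nb (W i j : ℕ) : ℕ := if j < P.d then j else min (i + (j - P.d) - P.d) (W - 1)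

def σ0 (n i : ℕ) (_v : ℕ) : ℕ := if i < n then i + 1 else 0

def σS (n T t i v : ℕ) : ℕ := P.pos n T t (P.nb (P.W n T) i (v / P.a)) (v % P.a)

def σo (n T v : ℕ) : ℕ := P.pos n T T 0 (v % P.a)

/-- The gates up to time `t`. -/
def pre (n T t : ℕ) : List Gate :=
  emitLayer P.fs0 (σ0 n) (P.W n T) (n + 1) ++
    (List.range t).flatMap fun s => emitLayer P.fs (P.σS n T s) (P.W n T) (P.len n T s)

/-- The whole circuit for inputs of length `n` and `T` steps. -/
def gates (n T : ℕ) : List Gate := P.pre n T T ++ P.fo.emit (P.σo n T) (P.len n T T)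

lemma pre_succ (n T t : ℕ) : P.pre n T (t + 1) =
    P.pre n T t ++ emitLayer P.fs (P.σS n T t) (P.W n T) (P.len n T t) := by
  simp [pre, List.range_succ]

lemma length_pre (n T t : ℕ) : n + 1 + (P.pre n T t).length = P.len n T t := by
  induction t with
  | zero => simp [pre, len, base]
  | succ t ih =>
    rw [pre_succ, List.length_append, length_emitLayer, ← Nat.add_assoc, ih]
    simp only [len]; ring

lemma nb_lt (n T i j : ℕ) : P.nb (P.W n T) i j < P.W n T := by
  unfold nb W
  split_ifs <;> omega

lemma pos_lt (h0 : P.fs0 ≠ []) (h1 : P.fs ≠ []) (n T t i b : ℕ) (hi : i < P.W n T) :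
    P.pos n T t i b < P.len n T t := by
  unfold pos
  split_ifs with ht hn
  · subst ht
    have := goff_lt h0 b
    have h2 : (i + 1) * gsize P.fs0 ≤ P.W n T * gsize P.fs0 := Nat.mul_le_mul_right _ hi
    simp only [len, base]; nlinarith
  · subst ht
    have := goff_lt h0 (P.a + b)
    have h2 : (i + 1) * gsize P.fs0 ≤ P.W n T * gsize P.fs0 := Nat.mul_le_mul_right _ hi
    simp only [len, base]; nlinarith
  · obtain ⟨t, rfl⟩ := Nat.exists_eq_succ_of_ne_zero ht
    have := goff_lt h1 (min i (2 * P.d) * P.a + b)
    have h2 : (i + 1) * gsize P.fs ≤ P.W n T * gsize P.fs := Nat.mul_le_mul_right _ hi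
    simp only [len, Nat.succ_sub_one, Nat.succ_eq_add_one]; nlinarith

lemma wf_pre (h0 : P.fs0 ≠ []) (h1 : P.fs ≠ []) (n T t : ℕ) : WF (P.pre n T t) (n + 1) := by
  induction t with
  | zero =>
    simp only [pre, List.range_zero, List.flatMap_nil, List.append_nil]
    refine wf_emitLayer _ _ _ _ fun i _ v => ?_
    unfold σ0; split_ifs <;> omega
  | succ t ih =>
    rw [pre_succ]
    refine ih.append ?_
    rw [length_pre]
    exact wf_emitLayer _ _ _ _ fun i _ v => P.pos_lt h0 h1 _ _ _ _ _ (P.nb_lt _ _ _ _)

lemma wf_gates (h0 : P.fs0 ≠ []) (h1 : P.fs ≠ []) (n T : ℕ) : WF (P.gates n T) (n + 1) := by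
  refine (P.wf_pre h0 h1 n T T).append ?_
  rw [length_pre]
  exact Form.wf_emit _ _ _ fun v => P.pos_lt h0 h1 _ _ _ _ _ (by unfold W; omega)

lemma gates_ne_nil (n T : ℕ) : P.gates n T ≠ [] := by
  intro h
  have := congrArg List.length h
  have := P.fo.size_pos
  simp [gates] at *
  omega

/-- Abstract correctness of the tableau circuit. -/
lemma correct (ha : 0 < P.a) (l0 : P.fs0.length = 2 * P.a) (l1 : P.fs.length = (2 * P.d + 1) * P.a)
    (z : List Bool) (T : ℕ) (val : ℕ → ℕ → ℕ → Bool)
    (H0 : ∀ i < P.W z.length T, ∀ b < P.a, ∀ h,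
      (P.fs0[if i < z.length then b else P.a + b]'h).eval
        (fun _ => if i < z.length then z.getD i false else false) = val 0 i b)
    (HS : ∀ t < T, ∀ i < P.W z.length T, ∀ b < P.a, ∀ h,
      (P.fs[min i (2 * P.d) * P.a + b]'h).eval
        (fun v => val t (P.nb (P.W z.length T) i (v / P.a)) (v % P.a)) = val (t + 1) i b) :
    (run (P.gates z.length T) (false :: z)).getLast? =
      some (P.fo.eval fun v => val T 0 (v % P.a)) := by
  have h0 : P.fs0 ≠ [] := by intro h; rw [h] at l0; simp at l0; omega
  have h1 : P.fs ≠ [] := by intro h; rw [h] at l1; simp at l1; omega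
  have key : ∀ t ≤ T, ∀ i < P.W z.length T, ∀ b < P.a,
      (run (P.pre z.length T t) (false :: z)).getD (P.pos z.length T t i b) false = val t i b := by
    intro t
    induction t with
    | zero =>
      intro _ i hi b hb
      have hb' : (if i < z.length then b else P.a + b) < P.fs0.length := by
        split_ifs <;> omega
      have := getD_run_emitLayer P.fs0 (σ0 z.length) (false :: z) (P.W z.length T)
        (fun i _ v => by unfold σ0; split_ifs <;> simp <;> omega) i hi _ hb'
      simp only [List.length_cons] at this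
      simp only [pre, List.range_zero, List.flatMap_nil, List.append_nil, pos, if_true]
      rw [this, ← H0 i hi b hb hb']
      congr 1
      funext v
      unfold σ0
      split_ifs <;> simp
    | succ t ih =>
      intro ht i hi b hb
      have hb' : min i (2 * P.d) * P.a + b < P.fs.length := by
        have : min i (2 * P.d) * P.a ≤ 2 * P.d * P.a := Nat.mul_le_mul_right _ (min_le_right _ _)
        rw [l1]; nlinarith
      rw [pre_succ, run_append]
      set w₁ := run (P.pre z.length T t) (false :: z) with hw₁
      have l₁ : w₁.length = P.len z.length T t := by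
        rw [hw₁, length_run, List.length_cons, length_pre]
      have := getD_run_emitLayer P.fs (P.σS z.length T t) w₁ (P.W z.length T)
        (fun i _ v => by rw [l₁]; exact P.pos_lt h0 h1 _ _ _ _ _ (P.nb_lt _ _ _ _)) i hi _ hb'
      rw [l₁] at this
      simp only [pos, Nat.succ_ne_zero, if_false, Nat.succ_sub_one]
      rw [this, ← HS t (by omega) i hi b hb hb']
      congr 1
      funext v
      exact ih (by omega) _ (P.nb_lt _ _ _ _) _ (Nat.mod_lt _ ha)
  rw [gates, run_append]
  set w₁ := run (P.pre z.length T T) (false :: z) with hw₁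
  have l₁ : w₁.length = P.len z.length T T := by
    rw [hw₁, length_run, List.length_cons, length_pre]
  have hW : 0 < P.W z.length T := by unfold W; omega
  have := Form.getD_run_emit (P.σo z.length T) P.fo w₁
    (fun v => by rw [l₁]; exact P.pos_lt h0 h1 _ _ _ _ _ hW)
  have hl : (run (Form.emit (P.σo z.length T) P.fo w₁.length) w₁).length =
      w₁.length + P.fo.size := by rw [length_run, Form.length_emit]
  rw [← l₁, List.getLast?_eq_getElem?, hl]
  have hpos := P.fo.size_pos
  rw [List.getD_eq_getElem?_getD, List.getElem?_eq_getElem (by omega)] at this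
  rw [List.getElem?_eq_getElem (by omega)]
  simp only [Option.getD_some] at this
  rw [this]
  congr 2
  funext v
  exact key T le_rfl 0 hW _ (Nat.mod_lt _ ha)

end Tab

namespace Sim

variable {K : Type} {Γ : K → Type} {Λ σ : Type}

/-- A bound on the number of stack operations of a statement. -/
def ops : Stmt Γ Λ σ → ℕ
  | .push _ _ q => ops q + 1
  | .peek _ _ q => ops q + 1
  | .pop _ _ q => ops q + 1
  | .load _ q => ops q
  | .branch _ q₁ q₂ => ops q₁ + ops q₂
  | .goto _ => 0
  | .halt => 0

lemma depth_le_ops (q : Stmt Γ Λ σ) : depth q ≤ ops q := by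
  induction q <;> simp only [depth, ops] <;> omega

variable [DecidableEq K]

lemma stepAux_append (B : ∀ k, List (Γ k)) (q : Stmt Γ Λ σ) : ∀ (v : σ) (A : ∀ k, List (Γ k)),
    (∀ k, ops q ≤ (A k).length ∨ B k = []) →
    stepAux q v (fun k => A k ++ B k) =
      ⟨(stepAux q v A).l, (stepAux q v A).var, fun k => (stepAux q v A).stk k ++ B k⟩ := by
  induction q with
  | push k f q ih =>
    intro v A h
    simp only [stepAux]
    rw [← ih v (Function.update A k (f v :: A k))]
    · congr 1
      funext j
      by_cases hj : j = k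
      · subst hj; simp
      · simp [hj]
    · intro j
      have := h j
      by_cases hj : j = k
      · subst hj; simp only [ops] at this; simp only [Function.update_self, List.length_cons]
        rcases this with h | h
        · left; omega
        · right; exact h
      · simp only [ops] at this; simp only [Function.update_of_ne hj]
        rcases this with h | h
        · left; omega
        · right; exact h
  | peek k f q ih =>
    intro v A h
    simp only [stepAux]
    have e : (A k ++ B k).head? = (A k).head? := by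
      rcases h k with h | h
      · cases hA : A k with
        | nil => simp [hA, ops] at h
        | cons s t => simp
      · simp [h]
    rw [e, ih]
    intro j
    rcases h j with h | h
    · left; simp only [ops] at h; omega
    · right; exact h
  | pop k f q ih =>
    intro v A h
    simp only [stepAux]
    have e : (A k ++ B k).head? = (A k).head? ∧ (A k ++ B k).tail = (A k).tail ++ B k := by
      rcases h k with h | h
      · cases hA : A k with
        | nil => simp [hA, ops] at h
        | cons s t => simp
      · simp [h]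
    rw [e.1, e.2, ← ih _ (Function.update A k (A k).tail)]
    · congr 1
      funext j
      by_cases hj : j = k
      · subst hj; simp
      · simp [hj]
    · intro j
      have := h j
      by_cases hj : j = k
      · subst hj; simp only [ops] at this; simp only [Function.update_self, List.length_tail]
        rcases this with h | h
        · left; omega
        · right; exact h
      · simp only [ops] at this; simp only [Function.update_of_ne hj]
        rcases this with h | h
        · left; omega
        · right; exact h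
  | load f q ih => intro v A h; exact ih _ _ h
  | branch f q₁ q₂ ih₁ ih₂ =>
    intro v A h
    simp only [stepAux]
    cases f v
    · refine ih₂ _ _ fun j => ?_
      rcases h j with h | h
      · left; simp only [ops] at h; omega
      · right; exact h
    · refine ih₁ _ _ fun j => ?_
      rcases h j with h | h
      · left; simp only [ops] at h; omega
      · right; exact h
  | goto f => intro v A _; rfl
  | halt => intro v A _; rfl

/-- The total step function: halted configurations stay. -/
def next (M : Λ → Stmt Γ Λ σ) (c : Cfg Γ Λ σ) : Cfg Γ Λ σ :=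
  match c.l with
  | none => c
  | some l => stepAux (M l) c.var c.stk

lemma next_iterate_of_halts (M : Λ → Stmt Γ Λ σ) : ∀ (m : ℕ) (x y : Cfg Γ Λ σ),
    (flip bind (step M))^[m] (some x) = some y → y.l = none → ∀ T, m ≤ T → (next M)^[T] x = y := by
  intro m
  induction m with
  | zero =>
    intro x y h hy T _
    simp only [Function.iterate_zero, id_eq, Option.some.injEq] at h
    subst h
    exact Function.iterate_fixed (by simp [next, hy]) T
  | succ m ih =>
    rintro ⟨l, v, S⟩ y h hy T hT
    rw [Function.iterate_succ_apply] at h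
    cases l with
    | none =>
      have : (flip bind (step M)) (some (⟨none, v, S⟩ : Cfg Γ Λ σ)) = none := rfl
      rw [this, Coding.iterate_none] at h
      simp at h
    | some l =>
      obtain ⟨T, rfl⟩ : ∃ T', T = T' + 1 := ⟨T - 1, by omega⟩
      rw [Function.iterate_succ_apply]
      exact ih _ y h hy T (by omega)

lemma next_valid {R : Set (Σ k, Γ k)} (M : Λ → Stmt Γ Λ σ) (hM : ∀ l, pushes (M l) ⊆ R)
    (c : Cfg Γ Λ σ) (h : Valid R c.stk) : Valid R (next M c).stk := by
  unfold next
  split
  · exact h
  · exact stepAux_valid _ (hM _) _ _ h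

lemma next_length (M : Λ → Stmt Γ Λ σ) {d : ℕ} (hd : ∀ l, ops (M l) ≤ d) (c : Cfg Γ Λ σ) (N : ℕ)
    (h : ∀ k, (c.stk k).length ≤ N) (k : K) : ((next M c).stk k).length ≤ N + d := by
  unfold next
  split
  · exact (h k).trans (by omega)
  · rename_i l _
    have := depth_le_ops (M l)
    have := hd l
    exact (stepAux_length _ _ _ N h k).trans (by omega)

lemma next_take (M : Λ → Stmt Γ Λ σ) {d : ℕ} (hd : ∀ l, ops (M l) ≤ d) (c : Cfg Γ Λ σ) :
    next M c = ⟨(next M ⟨c.l, c.var, fun k => (c.stk k).take d⟩).l,
      (next M ⟨c.l, c.var, fun k => (c.stk k).take d⟩).var,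
      fun k => (next M ⟨c.l, c.var, fun k => (c.stk k).take d⟩).stk k ++ (c.stk k).drop d⟩ := by
  obtain ⟨l, v, S⟩ := c
  cases l with
  | none => simp [next]
  | some l =>
    simp only [next]
    rw [← stepAux_append (fun k => (S k).drop d) (M l) v (fun k => (S k).take d)]
    · simp
    · intro k
      have := hd l
      by_cases h : d ≤ (S k).length
      · left; simp; omega
      · right; simp; omega

/-- Columns of the tableau. -/
abbrev Col (Γ : K → Type) (Λ σ : Type) : Type := (Option Λ × σ) × ∀ k, Option (Γ k)

def col (c : Cfg Γ Λ σ) (i : ℕ) : Col Γ Λ σ := ((c.l, c.var), fun k => (c.stk k)[i]?)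

/-- The local rule. -/
def rule (M : Λ → Stmt Γ Λ σ) (d p : ℕ) (X : ℕ → Col Γ Λ σ) : Col Γ Λ σ :=
  let c' := next M ⟨(X 0).1.1, (X 0).1.2, fun k => (List.range d).filterMap fun j => (X j).2 k⟩
  ((c'.l, c'.var), fun k =>
    if p < (c'.stk k).length then (c'.stk k)[p]? else (X (3 * d - (c'.stk k).length)).2 k)

lemma rule_congr (M : Λ → Stmt Γ Λ σ) (d p : ℕ) (X Y : ℕ → Col Γ Λ σ)
    (h : ∀ j < 3 * d + 1, X j = Y j) : rule M d p X = rule M d p Y := by
  have e : (fun k => (List.range d).filterMap fun j => (X j).2 k) =
      fun k => (List.range d).filterMap fun j => (Y j).2 k := by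
    funext k
    refine List.filterMap_congr fun j hj => ?_
    rw [h j (by have := List.mem_range.mp hj; omega)]
  simp only [rule, e, h 0 (by omega)]
  congr 1
  funext k
  rw [h _ (by omega)]

omit [DecidableEq K] in
lemma filterMap_range_getElem? {α : Type} (l : List α) (d : ℕ) :
    (List.range d).filterMap (fun j => l[j]?) = l.take d := by
  induction d with
  | zero => simp
  | succ d ih => rw [List.range_succ, List.filterMap_append, ih, List.take_add_one]; cases h : l[d]? <;> simp [h]

lemma col_next (M : Λ → Stmt Γ Λ σ) (P : Tab) (hd : ∀ l, ops (M l) ≤ P.d) (c : Cfg Γ Λ σ) (W : ℕ)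
    (hW : ∀ k, (c.stk k).length < W) (i : ℕ) :
    rule M P.d (min i (2 * P.d)) (fun j => col c (P.nb W i j)) = col (next M c) i := by
  have e : (fun k => (List.range P.d).filterMap fun j => (col c (P.nb W i j)).2 k) =
      fun k => (c.stk k).take P.d := by
    funext k
    rw [← filterMap_range_getElem?]
    refine List.filterMap_congr fun j hj => ?_
    simp [col, Tab.nb, List.mem_range.mp hj]
  have hlen := next_length M hd ⟨c.l, c.var, fun k => (c.stk k).take P.d⟩ P.d (by simp)
  simp only [rule, e]
  rw [next_take M hd c]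
  have e1 : (col c (P.nb W i 0)).1.1 = c.l := rfl
  have e2 : (col c (P.nb W i 0)).1.2 = c.var := rfl
  rw [e1, e2]
  set c' := next M ⟨c.l, c.var, fun k => (c.stk k).take P.d⟩
  simp only [col]
  congr 1
  funext k
  have h1 := hlen k
  have h2 := hW k
  by_cases hi : i < (c'.stk k).length
  · rw [if_pos (by omega), List.getElem?_append_left hi, min_eq_left (by omega)]
  · rw [if_neg (by omega), List.getElem?_append_right (by omega), List.getElem?_drop]
    unfold Tab.nb
    rw [if_neg (by omega)]
    by_cases h3 : P.d + (i - (c'.stk k).length) ≤ W - 1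
    · congr 1; omega
    · rw [List.getElem?_eq_none (by omega), List.getElem?_eq_none (by omega)]

end Sim

/-- One-hot code relative to a list. -/
noncomputable def oneHot {α : Type} (Al : List α) (x : α) (b : ℕ) : Bool := by
  classical exact decide (Al[b]? = some x)

/-- Decoder of the one-hot code. -/
noncomputable def unHot {α : Type} [Inhabited α] (Al : List α) (ρ : ℕ → Bool) : α := by
  classical exact if h : ∃ x ∈ Al, ∀ b < Al.length, ρ b = oneHot Al x b then h.choose else default

lemma unHot_congr {α : Type} [Inhabited α] (Al : List α) (ρ ρ' : ℕ → Bool)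
    (h : ∀ b < Al.length, ρ b = ρ' b) : unHot Al ρ = unHot Al ρ' := by
  have e : (fun x => x ∈ Al ∧ ∀ b < Al.length, ρ b = oneHot Al x b) =
      fun x => x ∈ Al ∧ ∀ b < Al.length, ρ' b = oneHot Al x b := by
    funext x
    refine propext (and_congr_right fun _ => forall₂_congr fun b hb => ?_)
    rw [h b hb]
  unfold unHot
  by_cases H : ∃ x ∈ Al, ∀ b < Al.length, ρ b = oneHot Al x b
  · have H' : ∃ x ∈ Al, ∀ b < Al.length, ρ' b = oneHot Al x b := e ▸ H
    rw [dif_pos H, dif_pos H']
    congr 1
  · have H' : ¬ ∃ x ∈ Al, ∀ b < Al.length, ρ' b = oneHot Al x b := e ▸ H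
    rw [dif_neg H, dif_neg H']

lemma unHot_oneHot {α : Type} [Inhabited α] (Al : List α) (x : α) (hx : x ∈ Al) :
    unHot Al (oneHot Al x) = x := by
  have H : ∃ y ∈ Al, ∀ b < Al.length, oneHot Al x b = oneHot Al y b := ⟨x, hx, fun _ _ => rfl⟩
  unfold unHot
  rw [dif_pos H]
  obtain ⟨b, hb, rfl⟩ := List.getElem_of_mem hx
  have := H.choose_spec.2 b hb
  simp only [oneHot, List.getElem?_eq_getElem hb, decide_true, Option.some.injEq] at this
  have h2 := @of_decide_eq_true _ (_) this.symm
  rw [List.getElem?_eq_getElem hb] at h2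
  exact (Option.some.inj h2).symm

/-- **Tableau theorem.** A polynomial-time predicate is computed by the tableau circuits of some
constant data, for every number of steps above a polynomial. -/
theorem exists_tab {f : List Bool → Bool} (hf : Crest.Complexity.PolyTimePred f) :
    ∃ (P : Tab) (p : Polynomial ℕ), (∀ n T, WF (P.gates n T) (n + 1)) ∧
      ∀ (z : List Bool) (T : ℕ), p.eval z.length ≤ T →
        (run (P.gates z.length T) (false :: z)).getLast? = some (f z) := by
  classical
  obtain ⟨⟨⟨tm, ein, eout⟩, p, hp⟩⟩ := hf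
  let _ := tm.kFin
  let _ := tm.ΛFin
  let _ := tm.σFin
  let _ := tm.Γk₀Fin
  let R : Set (Σ k, tm.Γ k) :=
    (⋃ l, Sim.pushes (tm.m l)) ∪ Set.range (fun s : tm.Γ tm.k₀ => ⟨tm.k₀, s⟩)
  have hR : R.Finite :=
    (Set.finite_iUnion fun l => Sim.pushes_finite (tm.m l)).union (Set.finite_range _)
  have hM : ∀ l, Sim.pushes (tm.m l) ⊆ R := fun l x hx => Or.inl (Set.mem_iUnion.mpr ⟨l, hx⟩)
  obtain ⟨d, hd⟩ := (Set.finite_range fun l => Sim.ops (tm.m l)).bddAbove
  have hd' : ∀ l, Sim.ops (tm.m l) ≤ d := fun l => hd ⟨l, rfl⟩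
  -- the finite set of columns
  let A : Set (Sim.Col tm.Γ tm.Λ tm.σ) :=
    {x | ∀ k s, x.2 k = some s → (⟨k, s⟩ : Σ k, tm.Γ k) ∈ R}
  have hA : A.Finite := by
    have h1 : ∀ k, {o : Option (tm.Γ k) | ∀ s, o = some s → (⟨k, s⟩ : Σ k, tm.Γ k) ∈ R}.Finite := by
      intro k
      have h2 : {s : tm.Γ k | (⟨k, s⟩ : Σ k, tm.Γ k) ∈ R}.Finite :=
        hR.preimage (f := fun s : tm.Γ k => (⟨k, s⟩ : Σ k, tm.Γ k)) sigma_mk_injective.injOn
      refine ((h2.image some).insert none).subset ?_
      intro o ho
      cases o with
      | none => simp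
      | some s => exact Or.inr ⟨s, ho s rfl, rfl⟩
    refine ((Set.finite_univ (α := Option tm.Λ × tm.σ)).prod (Set.Finite.pi' h1)).subset ?_
    intro x hx
    exact ⟨trivial, hx⟩
  let Al := hA.toFinset.toList
  have hAl : ∀ x, x ∈ Al ↔ x ∈ A := fun x => by simp [Al]
  have hcol : ∀ (c : Cfg tm.Γ tm.Λ tm.σ) (i : ℕ), Sim.Valid R c.stk → Sim.col c i ∈ Al := by
    intro c i hc
    rw [hAl]
    intro k s hs
    exact hc k s (List.mem_of_getElem? hs)
  let a := Al.length
  let _ : Inhabited (Sim.Col tm.Γ tm.Λ tm.σ) := ⟨((none, tm.initialState), fun _ => none)⟩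
  have ha : 0 < a := List.length_pos_of_mem ((hAl default).mpr (by intro k s hs; simp at hs))
  -- the formulas
  have F0 : ∀ j : ℕ, ∃ φ : Form, ∀ ρ, φ.eval ρ =
      if j < a then oneHot Al (Sim.col (initList tm [ein.symm (ρ 0)]) 0) j
      else oneHot Al (Sim.col (initList tm []) 0) (j - a) := fun j =>
    Form.exists_of_depends 1 _ fun ρ ρ' h => by rw [h 0 (by omega)]
  choose φ0 hφ0 using F0
  have FS : ∀ j : ℕ, ∃ φ : Form, ∀ ρ, φ.eval ρ =
      oneHot Al (Sim.rule tm.m d (j / a) fun i => unHot Al fun b => ρ (i * a + b)) (j % a) :=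
    fun j => Form.exists_of_depends ((3 * d + 1) * a) _ fun ρ ρ' h => by
      rw [Sim.rule_congr tm.m d (j / a) _ (fun i => unHot Al fun b => ρ' (i * a + b))]
      intro i hi
      refine unHot_congr _ _ _ fun b hb => h _ ?_
      have : (i + 1) * a ≤ (3 * d + 1) * a := Nat.mul_le_mul_right _ hi
      change b < a at hb
      nlinarith
  choose φS hφS using FS
  obtain ⟨φo, hφo⟩ : ∃ φ : Form, ∀ ρ, φ.eval ρ =
      decide ((unHot Al ρ).2 tm.k₁ = some (eout.symm true)) :=
    Form.exists_of_depends a _ fun ρ ρ' h => by rw [unHot_congr Al ρ ρ' h]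
  let P : Tab := ⟨a, d, (List.range (2 * a)).map φ0, (List.range ((2 * d + 1) * a)).map φS, φo⟩
  have l0 : P.fs0.length = 2 * P.a := by simp [P]
  have l1 : P.fs.length = (2 * P.d + 1) * P.a := by simp [P]
  refine ⟨P, p, fun n T => P.wf_gates ?_ ?_ n T, fun z T hT => ?_⟩
  · intro h; rw [h] at l0; simp at l0; have : P.a = a := rfl; omega
  · intro h; rw [h] at l1; simp at l1; have : P.a = a := rfl; omega
  let c₀ : Cfg tm.Γ tm.Λ tm.σ := initList tm (z.map ein.symm)
  have hv : ∀ t, Sim.Valid R ((Sim.next tm.m)^[t] c₀).stk ∧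
      ∀ k, (((Sim.next tm.m)^[t] c₀).stk k).length ≤ z.length + d * t := by
    intro t
    induction t with
    | zero =>
      simp only [Function.iterate_zero, id_eq, c₀, initList_eq]
      refine ⟨Sim.Valid.update (fun k s hs => by simp at hs) _ _ fun s _ => Or.inr ⟨s, rfl⟩, ?_⟩
      intro k
      by_cases hk : k = tm.k₀
      · subst hk; simp
      · simp [hk]
    | succ t ih =>
      rw [Function.iterate_succ_apply']
      refine ⟨Sim.next_valid _ hM _ ih.1, fun k => ?_⟩
      exact (Sim.next_length _ hd' _ _ ih.2 k).trans (le_of_eq (by ring))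
  rw [P.correct ha l0 l1 z T (fun t i b => oneHot Al (Sim.col ((Sim.next tm.m)^[t] c₀) i) b)]
  · obtain ⟨⟨m, hm⟩, hmt⟩ := hp z
    have hfin : (Sim.next tm.m)^[T] c₀ = haltList tm [eout.symm (f z)] :=
      Sim.next_iterate_of_halts tm.m m _ _ hm rfl T (hmt.trans hT)
    congr 1
    change φo.eval _ = _
    rw [hφo, unHot_congr Al _ (oneHot Al (Sim.col ((Sim.next tm.m)^[T] c₀) 0))
      (fun b hb => by rw [Nat.mod_eq_of_lt hb]), unHot_oneHot _ _ (hcol _ _ (hv T).1), hfin,
      haltList_eq]
    cases f z <;> simp [Sim.col]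
  · intro i hi b hb h
    simp only [P, List.getElem_map, List.getElem_range, hφ0, Function.iterate_zero, id_eq]
    change b < a at hb
    by_cases hi' : i < z.length
    · simp only [hi', if_true, hb]
      congr 1
      simp only [c₀, initList_eq, Sim.col]
      congr 1
      funext k
      by_cases hk : k = tm.k₀
      · subst hk; simp [List.getD_eq_getElem?_getD, hi']
      · simp [hk]
    · simp only [hi', if_false]
      rw [if_neg (by omega), Nat.add_sub_cancel_left]
      congr 1
      simp only [c₀, initList_eq, Sim.col]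
      congr 1
      funext k
      by_cases hk : k = tm.k₀
      · subst hk; simp; omega
      · simp [hk]
  · intro t ht i hi b hb h
    change b < a at hb
    simp only [P, List.getElem_map, List.getElem_range, hφS]
    have e1 : (min i (2 * d) * a + b) / a = min i (2 * d) := by
      rw [Nat.add_comm, Nat.add_mul_div_right _ _ ha, Nat.div_eq_of_lt hb, Nat.zero_add]
    have e2 : (min i (2 * d) * a + b) % a = b := by
      rw [Nat.add_comm, Nat.add_mul_mod_self_right, Nat.mod_eq_of_lt hb]
    rw [e1, e2, Function.iterate_succ_apply',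
      ← Sim.col_next tm.m P hd' _ (P.W z.length T) (fun k => by
        have := (hv t).2 k
        have h2 : d * t ≤ d * T := Nat.mul_le_mul_left _ ht.le
        simp only [Tab.W, P]; omega) i]
    congr 2
    funext j
    rw [unHot_congr Al _ (oneHot Al (Sim.col ((Sim.next tm.m)^[t] c₀) (P.nb (P.W z.length T) i j))),
      unHot_oneHot _ _ (hcol _ _ (hv t).1)]
    intro b' hb'
    change b' < a at hb'
    rw [Nat.add_comm (j * a), Nat.add_mul_div_right _ _ ha, Nat.div_eq_of_lt hb', Nat.zero_add,
      Nat.add_mul_mod_self_right, Nat.mod_eq_of_lt hb']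

end Crest.Agent.Lib.PT
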