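import Crest.Agent.Lib.PT.Tableau
import Crest.Agent.Lib.PT.Nat

/-!
Uniformity: the tableau circuits are produced in polynomial time.
-/

set_option autoImplicit false

namespace Crest.Agent.Lib.PT

open Slp

variable {α : Type} [Enc α]

lemma pt_emit (φ : Form) {σ : α → ℕ → ℕ} (hσ : ∀ v, PT (fun a => σ a v)) :
    ∀ {len : α → ℕ}, PT len → PT (fun a => φ.emit (σ a) (len a)) := by
  induction φ with
  | var v =>
    intro len hl
    have := hσ v
    simp only [Form.emit]
    fun_prop
  | nand a b iha ihb =>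
    intro len hl
    have h1 := iha hl
    have h2 := ihb (len := fun x => len x + a.size) (by fun_prop)
    simp only [Form.emit]
    fun_prop

lemma pt_emitAll (fs : List Form) {σ : α → ℕ → ℕ} (hσ : ∀ v, PT (fun a => σ a v)) :
    ∀ {len : α → ℕ}, PT len → PT (fun a => emitAll (σ a) fs (len a)) := by
  induction fs with
  | nil => intro len _; exact PT.const []
  | cons φ fs ih =>
    intro len hl
    exact (pt_emit φ hσ hl).append (ih (len := fun x => len x + φ.size) (by fun_prop))

lemma pt_emitLayer (fs : List Form) {σ : α → ℕ → ℕ → ℕ} {W len : α → ℕ}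
    (hσ : ∀ v, PT (fun p : α × ℕ => σ p.1 p.2 v)) (hW : PT W) (hW' : PB W) (hl : PT len) :
    PT (fun a => emitLayer fs (σ a) (W a) (len a)) := by
  unfold emitLayer
  refine PT.flatMap (PT.range hW hW') ?_
  exact pt_emitAll fs (σ := fun p : α × ℕ => σ p.1 p.2) hσ
    (len := fun p : α × ℕ => len p.1 + p.2 * gsize fs) (by fun_prop)

namespace Tab

variable (P : Tab)

lemma pt_W {n T : α → ℕ} (hn : PT n) (hT : PT T) : PT (fun a => P.W (n a) (T a)) := by
  unfold W; fun_prop

lemma pb_W {n T : α → ℕ} (hn : PB n) (hT : PB T) : PB (fun a => P.W (n a) (T a)) := by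
  unfold W; fun_prop

lemma pt_len {n T t : α → ℕ} (hn : PT n) (hT : PT T) (ht : PT t) :
    PT (fun a => P.len (n a) (T a) (t a)) := by
  unfold len base W; fun_prop

lemma pt_pos {n T t i : α → ℕ} (hn : PT n) (hT : PT T) (ht : PT t) (hi : PT i) (b : ℕ) :
    PT (fun a => P.pos (n a) (T a) (t a) (i a) b) := by
  have h1 : PT (fun a => P.len (n a) (T a) (t a - 1)) := P.pt_len hn hT (by fun_prop)
  have h2 : PT (fun a => goff P.fs0 (if i a < n a then b else P.a + b)) :=
    (PT.ite (P := fun a => i a < n a) (by fun_prop) (PT.const (goff P.fs0 b))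
      (PT.const (goff P.fs0 (P.a + b)))).congr fun a => by split_ifs <;> rfl
  have h3 : PT (fun a => goff P.fs (min (i a) (2 * P.d) * P.a + b)) := by
    have h4 : PT (fun a => (((List.range (2 * P.d + 1)).map
        fun m => goff P.fs (m * P.a + b)).getD (min (i a) (2 * P.d)) 0)) :=
      PT.getD (by fun_prop) (PT.const _) (PT.const 0)
    refine h4.congr fun a => ?_
    have : min (i a) (2 * P.d) < 2 * P.d + 1 := by omega
    simp [List.getD_eq_getElem?_getD, this]
  unfold pos
  fun_prop

lemma pt_nb {W i : α → ℕ} (hW : PT W) (hi : PT i) (j : ℕ) : PT (fun a => P.nb (W a) (i a) j) := by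
  unfold nb
  split_ifs
  · fun_prop
  · fun_prop

lemma pt_gates {n T : α → ℕ} (hn : PT n) (hn' : PB n) (hT : PT T) (hT' : PB T) :
    PT (fun a => P.gates (n a) (T a)) := by
  unfold gates pre
  refine PT.append (PT.append ?_ ?_) ?_
  · refine pt_emitLayer _ (fun v => ?_) (P.pt_W hn hT) (P.pb_W hn' hT') (by fun_prop)
    unfold σ0; fun_prop
  · refine PT.flatMap (PT.range hT hT') ?_
    have hn1 : PT (fun p : α × ℕ => n p.1) := by fun_prop
    have hT1 : PT (fun p : α × ℕ => T p.1) := by fun_prop
    refine pt_emitLayer _ (σ := fun p : α × ℕ => P.σS (n p.1) (T p.1) p.2) (fun v => ?_)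
      (P.pt_W hn1 hT1) (P.pb_W (by fun_prop) (by fun_prop)) (P.pt_len hn1 hT1 (by fun_prop))
    unfold σS
    exact P.pt_pos (by fun_prop) (by fun_prop) (by fun_prop)
      (P.pt_nb (P.pt_W (by fun_prop) (by fun_prop)) (by fun_prop) _) _
  · refine pt_emit _ (fun v => ?_) (P.pt_len hn hT hT)
    unfold σo
    exact P.pt_pos hn hT hT (PT.const 0) _

end Tab

/-- **Uniform circuits.** A polynomial-time predicate has NAND straight-line programs, one for each
input length, generated in time polynomial in the length. Wire `0` carries `false`, the wires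
`1, …, n` carry the input and the output is the last gate. -/
theorem exists_uniform_slp {f : List Bool → Bool} (hf : Crest.Complexity.PolyTimePred f) :
    ∃ gen : ℕ → List (ℕ × ℕ),
      (∀ {β : Type} [Enc β] {n : β → ℕ}, PT n → PB n → PT (fun b => gen (n b))) ∧
      (∀ n, WF (gen n) (n + 1)) ∧ (∀ n, gen n ≠ []) ∧
      ∀ z : List Bool, (run (gen z.length) (false :: z)).getLast? = some (f z) := by
  obtain ⟨P, p, h1, h2⟩ := exists_tab hf
  refine ⟨fun n => P.gates n (p.eval n), fun hn hb => ?_, fun n => h1 n _,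
    fun n => P.gates_ne_nil n _, fun z => h2 z _ le_rfl⟩
  exact P.pt_gates hn hb (PT.polyEval p hn) (PB.polyEval p hb)

end Crest.Agent.Lib.PT
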